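import Vale.Agent.P366P.Ric
import Vale.Agent.P366Y.C.Gb
import Vale.Agent.P366Y.C.Stat
import Vale.Agent.P366Y.C.Dvt
import Vale.Agent.P366Y.C.Rci
import Vale.Agent.P366Y.C.Rb
import Vale.Agent.P366Y.C.Orth

/-!
# P366P: the equations of Jacobi and Gauss for a graph, with the weight `exp φ`
-/

open Filter Topology
open scoped ContDiff
open Vale.Agent.P366.Stmt Vale.Agent.P366Z
open Vale.Agent.P366Y.C Vale.Agent.P366Y.C.GbH

noncomputable section

namespace Vale.Agent.P366P

variable {n : ℕ} {x : E n} {g : Field n} {φ f ζ ℓ u : E n → ℝ}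

/-- the horizontal part `∇ f / W` of the unit normal of the graph of `f` -/
def nv (g : Field n) (f : E n → ℝ) (i : Fin n) (x : E n) : ℝ := gr g f i x / ww g 1 f x

/-- the second fundamental form of the graph -/
def sf (g : Field n) (f : E n → ℝ) : Field n := fun x i j => hess g f x i j / ww g 1 f x

/-- the square of the second fundamental form -/
def a2 (g : Field n) (f : E n → ℝ) (x : E n) : ℝ := normSq (gb g 1 f) (sf g f) x

/-- the weighted mean curvature `exp (-φ) div (exp φ ∇ f / W)` -/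
def hw (g : Field n) (φ f : E n → ℝ) : E n → ℝ := dvw g φ (nv g f)

/-- the weighted Ricci curvature in the direction of the normal -/
def rn (g : Field n) (φ f : E n → ℝ) (x : E n) : ℝ :=
  ∑ j, ∑ l, (rc g x j l - hess g φ x j l) * nv g f j x * nv g f l x

/-- the derivative of `u` in the direction of the normal -/
def dn (g : Field n) (f u : E n → ℝ) (x : E n) : ℝ := ip g f u x / ww g 1 f x

/-- the weighted scalar curvature -/
def Rw (g : Field n) (φ : E n → ℝ) (x : E n) : ℝ := scal g x - 2 * lap g φ x - ip g φ φ x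

theorem sm_one : Smooth (1 : E n → ℝ) := contDiff_const

theorem w_sq (hg : Met g) (f : E n → ℝ) (x : E n) : ww g 1 f x ^ 2 = 1 + ip g f f x := by
  rw [ww_sq hg]; simp

theorem w_pos (hg : Met g) (f : E n → ℝ) (x : E n) : 0 < ww g 1 f x :=
  one_pos.trans_le (one_le_ww hg 1 f x)

theorem sm_w (hg : Met g) (hf : Smooth f) : Smooth (ww g 1 f) := sm_ww hg sm_one hf

theorem met_g (hg : Met g) (hf : Smooth f) : Met (gb g 1 f) := met_gb hg sm_one hf

theorem sm_nv (hg : Met g) (hf : Smooth f) (i : Fin n) : Smooth (nv g f i) :=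
  ContDiff.div (hg.sm_gr hf i) (sm_w hg hf) fun x => (w_pos hg f x).ne'

theorem sm_dvw (hg : Met g) (hφ : Smooth φ) {X : Fin n → E n → ℝ} (hX : ∀ i, Smooth (X i)) :
    Smooth (dvw g φ X) :=
  ContDiff.add (hg.sm_dv hX) (ContDiff.sum fun i _ => ContDiff.mul (hφ.pd i) (hX i))

theorem sm_hw (hg : Met g) (hφ : Smooth φ) (hf : Smooth f) : Smooth (hw g φ f) :=
  sm_dvw hg hφ (sm_nv hg hf)

theorem up_g (hg : Met g) (f : E n → ℝ) (i j : Fin n) (x : E n) :
    up (gb g 1 f) i j x = up g i j x - nv g f i x * nv g f j x := by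
  have := (w_pos hg f x).ne'
  rw [up_gb hg, nv, nv, Pi.one_apply]; field_simp

theorem dn_eq (hg : Met g) (f u : E n → ℝ) (x : E n) :
    dn g f u x = ∑ i, pd i u x * nv g f i x := by
  rw [dn, hg.ip_sy, ip_eq_gr, Finset.sum_div]
  exact Finset.sum_congr rfl fun i _ => by rw [nv, mul_div_assoc]

theorem gr_g (hg : Met g) (f u : E n → ℝ) (i : Fin n) (x : E n) :
    gr (gb g 1 f) u i x = gr g u i x - dn g f u x * nv g f i x := by
  have := (w_pos hg f x).ne'
  rw [gr_gb hg, nv, dn, Pi.one_apply]; field_simp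

theorem ip_g (hg : Met g) (f u v : E n → ℝ) (x : E n) :
    ip (gb g 1 f) u v x = ip g u v x - dn g f u x * dn g f v x := by
  have := (w_pos hg f x).ne'
  rw [ip_gb hg, dn, dn, Pi.one_apply]; field_simp

theorem ip_g_le (hg : Met g) (f u : E n → ℝ) (x : E n) : ip (gb g 1 f) u u x ≤ ip g u u x := by
  rw [ip_g hg]; nlinarith [mul_self_nonneg (dn g f u x)]

theorem ip_g_f (hg : Met g) (f : E n → ℝ) (x : E n) :
    ip (gb g 1 f) f f x = 1 - (ww g 1 f x ^ 2)⁻¹ := by
  have h0 := (w_pos hg f x).ne'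
  have h1 : ip g f f x = ww g 1 f x ^ 2 - 1 := by rw [w_sq hg]; ring
  rw [ip_g hg, dn, h1]; field_simp; ring

theorem abs_dn_le (hg : Met g) (f u : E n → ℝ) (x : E n) : |dn g f u x| ≤ gn g u x := by
  have h0 := w_pos hg f x
  refine abs_le_of_sq_le_sq' ?_ (gn_nonneg _ _ _) |> abs_le.2
  rw [hg.gn_sq, dn, div_pow, div_le_iff₀ (by positivity), w_sq hg]
  nlinarith [hg.ip_cs f u x, hg.ip_nonneg u x]

theorem dvw_g (hg : Met g) (φ f : E n → ℝ) (X : Fin n → E n → ℝ) (x : E n) :
    ww g 1 f x * dvw (gb g 1 f) φ X x = dvw g φ (fun i y => ww g 1 f y * X i y) x := by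
  have h0 := (w_pos hg f x).ne'
  rw [dvw, dvw, dv_gb hg, mul_add, mul_div_cancel₀ _ h0, Finset.mul_sum]
  congr 1
  exact Finset.sum_congr rfl fun i _ => by ring

theorem pd_w (hg : Met g) (hf : Smooth f) (j : Fin n) (x : E n) :
    pd j (ww g 1 f) x = ∑ i, hess g f x j i * nv g f i x := by
  have h0 := (w_pos hg f x).ne'
  have e : (fun y => ww g 1 f y ^ 2) = fun y => 1 + ip g f f y := funext (w_sq hg f)
  have h1 := pd_pow ((sm_w hg hf).diff x) 2 j
  rw [e, pd_const_add, hg.pd_ip (hf.c2 x) (hf.c2 x)] at h1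
  simp only [nv, ← mul_div_assoc, ← Finset.sum_div]
  field_simp
  norm_num at h1
  linarith

theorem cd_nv (hg : Met g) (hf : Smooth f) (i j : Fin n) (x : E n) :
    cd g (nv g f) i j x = ∑ k, up (gb g 1 f) i k x * sf g f x j k := by
  have h0 := (w_pos hg f x).ne'
  have h1 : pd j (nv g f i) x = _ := pd_div ((hg.sm_gr hf i).diff x) ((sm_w hg hf).diff x) h0 j
  have h2 : ∑ k, chr g i j k x * nv g f k x = (∑ k, chr g i j k x * gr g f k x) / ww g 1 f x := by
    rw [Finset.sum_div]; exact Finset.sum_congr rfl fun k _ => by rw [nv, mul_div_assoc]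
  have h3 : ∑ k, up (gb g 1 f) i k x * sf g f x j k = (∑ k, up g i k x * hess g f x j k -
      nv g f i x * ∑ k, hess g f x j k * nv g f k x) / ww g 1 f x := by
    rw [Finset.mul_sum, ← Finset.sum_sub_distrib, Finset.sum_div]
    exact Finset.sum_congr rfl fun k _ => by rw [up_g hg, sf]; ring
  rw [cd, h1, h2, h3, hg.pd_gr (hf.c2 x), pd_w hg hf, nv]
  field_simp
  ring

theorem acc_nv (hg : Met g) (hf : Smooth f) (i : Fin n) (x : E n) :
    acc g (nv g f) i x = gr (gb g 1 f) (fun y => Real.log (ww g 1 f y)) i x := by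
  have h0 := (w_pos hg f x).ne'
  simp only [acc, gr, cd_nv hg hf, pd_log ((sm_w hg hf).diff x) h0, pd_w hg hf, Finset.mul_sum,
    Finset.sum_div]
  rw [Finset.sum_comm]
  refine Finset.sum_congr rfl fun k _ => Finset.sum_congr rfl fun j _ => ?_
  rw [sf, hg.hess_sy (hf.c2 x) j k]
  ring

theorem sf_sy (hg : Met g) (hf : Smooth f) (x : E n) (i j : Fin n) :
    sf g f x i j = sf g f x j i := by
  rw [sf, sf, hg.hess_sy (hf.c2 x)]

theorem cd_sq (hg : Met g) (hf : Smooth f) (x : E n) :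
    ∑ i, ∑ j, cd g (nv g f) i j x * cd g (nv g f) j i x = a2 g f x := by
  simp only [cd_nv hg hf, a2, normSq, Finset.sum_mul_sum]
  refine Finset.sum_congr rfl fun i _ => ?_
  rw [rot3, Finset.sum_comm]
  refine Finset.sum_congr rfl fun l _ => Finset.sum_congr rfl fun k _ =>
    Finset.sum_congr rfl fun j _ => ?_
  rw [(met_g hg hf).up_sy j l, sf_sy hg hf x j k]
  ring

theorem a2_nonneg (hg : Met g) (hf : Smooth f) (x : E n) : 0 ≤ a2 g f x :=
  (orth n _ _ f f x (met_g hg hf) (sf_sy hg hf x)).1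

/-- **the equation of Jacobi** for `log W` -/
theorem jac_log (hg : Met g) (hφ : Smooth φ) (hf : Smooth f) (x : E n) :
    lap (gb g 1 f) (fun y => Real.log (ww g 1 f y)) x +
        ip (gb g 1 f) φ (fun y => Real.log (ww g 1 f y)) x =
      a2 g f x + rn g φ f x + dn g f (hw g φ f) x +
        ip (gb g 1 f) (fun y => Real.log (ww g 1 f y)) (fun y => Real.log (ww g 1 f y)) x := by
  have h0 := fun y => (w_pos hg f y).ne'
  have sl : Smooth fun y => Real.log (ww g 1 f y) := ContDiff.log (sm_w hg hf) h0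
  have h1 := ricci_w hg (fun i => (sm_nv hg hf i).c2 x) (hφ.c2 x)
  have h2 : acc g (nv g f) = gr (gb g 1 f) fun y => Real.log (ww g 1 f y) :=
    funext fun i => funext (acc_nv hg hf i)
  rw [cd_sq hg hf, h2] at h1
  have h3 := dv_gb hg 1 f (gr (gb g 1 f) fun y => Real.log (ww g 1 f y)) x
  rw [hg.dv_smul ((sm_w hg hf).diff x) fun i => ((met_g hg hf).sm_gr sl i).diff x] at h3
  have h4 : ∑ i, pd i (ww g 1 f) x * gr (gb g 1 f) (fun y => Real.log (ww g 1 f y)) i x =
      ww g 1 f x * ip (gb g 1 f) (fun y => Real.log (ww g 1 f y))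
        (fun y => Real.log (ww g 1 f y)) x := by
    rw [ip_eq_gr, Finset.mul_sum]
    refine Finset.sum_congr rfl fun i _ => ?_
    rw [pd_log ((sm_w hg hf).diff x) (h0 x)]
    have := h0 x
    field_simp
  have h5 : ∑ j, nv g f j x * pd j (dvw g φ (nv g f)) x = dn g f (hw g φ f) x := by
    rw [dn_eq hg]
    exact Finset.sum_congr rfl fun i _ => mul_comm _ _
  rw [h4, ← mul_add, mul_div_cancel_left₀ _ (h0 x)] at h3
  rw [dvw, ← ip_eq_gr, h5] at h1
  rw [lap, h3, rn]
  linarith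

/-- **the equation of Jacobi** for `1 / W` -/
theorem jac_inv (hg : Met g) (hφ : Smooth φ) (hf : Smooth f) (x : E n) :
    lap (gb g 1 f) (fun y => (ww g 1 f y)⁻¹) x + ip (gb g 1 f) φ (fun y => (ww g 1 f y)⁻¹) x =
      -((a2 g f x + rn g φ f x + dn g f (hw g φ f) x) * (ww g 1 f x)⁻¹) := by
  have h0 := fun y => w_pos hg f y
  have sl : Smooth fun y => Real.log (ww g 1 f y) :=
    ContDiff.log (sm_w hg hf) fun y => (h0 y).ne'
  have e : (fun y => (ww g 1 f y)⁻¹) =
      fun y => (fun t => Real.exp (-t)) (Real.log (ww g 1 f y)) := by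
    funext y
    simp only [Real.exp_neg, Real.exp_log (h0 y)]
  have d1 : ∀ t, HasDerivAt (fun t => Real.exp (-t)) (-Real.exp (-t)) t := fun t => by
    simpa using (hasDerivAt_neg t).exp
  have d2 : deriv (fun t => Real.exp (-t)) = fun t => -Real.exp (-t) := funext fun t => (d1 t).deriv
  have d3 : ∀ t, deriv (fun t => -Real.exp (-t)) t = Real.exp (-t) := fun t => by
    simpa using (d1 t).fun_neg.deriv
  have h1 := jac_log hg hφ hf x
  rw [e, (met_g hg hf).lap_comp (φ := fun t => Real.exp (-t)) (sl.c2 x) (by fun_prop),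
    ip_comp_right (φ := fun t => Real.exp (-t)) (d1 _) (sl.diff x), d2, d3]
  simp only [Real.exp_neg, Real.exp_log (h0 x)]
  linear_combination (-(ww g 1 f x)⁻¹) * h1

/-! ### the equation of Gauss -/

theorem pair_nv (T : Field n) (x : E n) :
    ∑ j, ∑ l, T x j l * nv g f j x * nv g f l x = b2 g T f f x / ww g 1 f x ^ 2 := by
  simp only [b2, Finset.sum_div, nv]
  exact Finset.sum_congr rfl fun _ _ => Finset.sum_congr rfl fun _ _ => by ring

theorem tr_g (hg : Met g) (T : Field n) (x : E n) :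
    tr (gb g 1 f) T x = tr g T x - b2 g T f f x / ww g 1 f x ^ 2 := by
  rw [← pair_nv, tr, tr, ← Finset.sum_sub_distrib]
  refine Finset.sum_congr rfl fun i _ => ?_
  rw [← Finset.sum_sub_distrib]
  exact Finset.sum_congr rfl fun j _ => by rw [up_g hg]; ring

theorem normSq_g (hg : Met g) {T : Field n} (hT : ∀ i j, T x i j = T x j i) :
    normSq (gb g 1 f) T x = normSq g T x - 2 * (n1 g T f x / ww g 1 f x ^ 2) +
      (b2 g T f f x / ww g 1 f x ^ 2) ^ 2 := by
  have e1 : ∑ i, ∑ j, ∑ k, ∑ l, up g i k x * (nv g f j x * nv g f l x) * T x i j * T x k l =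
      n1 g T f x / ww g 1 f x ^ 2 := by
    simp only [n1, tv, nv, Finset.sum_div, Finset.mul_sum, Finset.sum_mul]
    exact Finset.sum_congr rfl fun _ _ => Finset.sum_congr rfl fun _ _ =>
      Finset.sum_congr rfl fun _ _ => Finset.sum_congr rfl fun _ _ => by ring
  have e2 : ∑ i, ∑ j, ∑ k, ∑ l, (nv g f i x * nv g f k x) * up g j l x * T x i j * T x k l =
      n1 g T f x / ww g 1 f x ^ 2 := by
    rw [← e1, Finset.sum_comm]
    refine Finset.sum_congr rfl fun j _ => Finset.sum_congr rfl fun i _ => ?_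
    rw [Finset.sum_comm]
    exact Finset.sum_congr rfl fun l _ => Finset.sum_congr rfl fun k _ => by
      rw [hT i j, hT k l]; ring
  have e3 : ∑ i, ∑ j, ∑ k, ∑ l, (nv g f i x * nv g f k x) * (nv g f j x * nv g f l x) *
      T x i j * T x k l = (b2 g T f f x / ww g 1 f x ^ 2) ^ 2 := by
    rw [← pair_nv, sq, Finset.sum_mul]
    refine Finset.sum_congr rfl fun i _ => ?_
    rw [Finset.sum_mul]
    refine Finset.sum_congr rfl fun j _ => ?_
    simp only [Finset.mul_sum]
    exact Finset.sum_congr rfl fun _ _ => Finset.sum_congr rfl fun _ _ => by ring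
  rw [two_mul, normSq, normSq]
  nth_rewrite 1 [← e1]
  rw [← e2, ← e3]
  simp only [← Finset.sum_add_distrib, ← Finset.sum_sub_distrib, up_g hg]
  exact Finset.sum_congr rfl fun _ _ => Finset.sum_congr rfl fun _ _ =>
    Finset.sum_congr rfl fun _ _ => Finset.sum_congr rfl fun _ _ => by ring

theorem dv_nv (hg : Met g) (hf : Smooth f) (x : E n) : dv g (nv g f) x =
    (lap g f x - b2 g (hess g f) f f x / ww g 1 f x ^ 2) / ww g 1 f x := by
  rw [dv_eq_cd hg fun i => (sm_nv hg hf i).diff x, hg.lap_eq_tr (hf.c2 x), ← tr_g hg, tr,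
    Finset.sum_div]
  refine Finset.sum_congr rfl fun i _ => ?_
  rw [cd_nv hg hf, Finset.sum_div]
  exact Finset.sum_congr rfl fun k _ => by rw [sf, mul_div_assoc]

theorem dv_nv' (hg : Met g) (hf : Smooth f) (x : E n) :
    dv g (nv g f) x = tr (gb g 1 f) (sf g f) x := by
  rw [dv_eq_cd hg fun i => (sm_nv hg hf i).diff x, tr]
  exact Finset.sum_congr rfl fun i _ => cd_nv hg hf i i x

theorem a2_eq (hg : Met g) (hf : Smooth f) (x : E n) : a2 g f x =
    (normSq g (hess g f) x - 2 * (n1 g (hess g f) f x / ww g 1 f x ^ 2) +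
      (b2 g (hess g f) f f x / ww g 1 f x ^ 2) ^ 2) / ww g 1 f x ^ 2 := by
  rw [← normSq_g hg (hg.hess_sy (hf.c2 x)), a2]
  simp only [normSq, sf, Finset.sum_div]
  exact Finset.sum_congr rfl fun _ _ => Finset.sum_congr rfl fun _ _ =>
    Finset.sum_congr rfl fun _ _ => Finset.sum_congr rfl fun _ _ => by ring

/-- **the equation of Gauss** -/
theorem gauss (hg : Met g) (hf : Smooth f) (x : E n) : scal (gb g 1 f) x =
    scal g x - 2 * (b2 g (rc g) f f x / ww g 1 f x ^ 2) + dv g (nv g f) x ^ 2 - a2 g f x := by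
  have h0 := (w_pos hg f x).ne'
  have h1 : (1 : E n → ℝ) = fun _ => 1 := rfl
  have h2 : ip g 1 f x = 0 := ip_const_left 1
  have h3 : ip g 1 1 x = 0 := ip_const_left 1
  have h4 : lap g 1 x = 0 := lap_const 1
  have h5 : b2 g (hess g f) 1 f x = 0 := by simp [b2, gr, h1, pd_const]
  have h6 : b2 g (hess g 1) f f x = 0 := by
    have : ∀ j, pd j (fun _ : E n => (1 : ℝ)) = fun _ => 0 := fun j => funext (pd_const 1 j)
    simp [b2, hess, h1, this, pd_const]
  rw [rb_of gb_ (stat_of gb_) dvt (rci_of dvt) n g 1 f hg sm_one hf (fun _ => one_pos) x, rb,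
    dv_nv hg hf, a2_eq hg hf, h2, h3, h4, h5, h6, Pi.one_apply]
  field_simp
  ring

/-- the Laplacian of the graph -/
theorem lap_g (hg : Met g) (hf : Smooth f) (hu : ContDiffAt ℝ 2 u x) : lap (gb g 1 f) u x =
    lap g u x - b2 g (hess g u) f f x / ww g 1 f x ^ 2 - dv g (nv g f) x * dn g f u x := by
  have h0 := w_pos hg f x
  have sW := (sm_w hg hf).diff x
  have sN := fun i => (sm_nv hg hf i).diff x
  have e0 : dn g f u = fun y => ∑ i, pd i u y * nv g f i y := funext (dn_eq hg f u)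
  have sD : DifferentiableAt ℝ (dn g f u) x := by
    rw [e0]
    exact DifferentiableAt.fun_sum fun i _ => (diffAt_pd hu i).fun_mul (sN i)
  have e1 : (fun i y => ww g 1 f y * gr (gb g 1 f) u i y) =
      fun i y => ww g 1 f y * gr g u i y + (-(ww g 1 f y * dn g f u y)) * nv g f i y := by
    funext i y
    rw [gr_g hg]; ring
  have e2 : ∑ j, pd j (dn g f u) x * nv g f j x = b2 g (hess g u) f f x / ww g 1 f x ^ 2 +
      (ip g u (ww g 1 f) x - dn g f u x * dn g f (ww g 1 f) x) / ww g 1 f x := by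
    have e3 : ∑ i, pd i u x * acc g (nv g f) i x =
        (ip g u (ww g 1 f) x - dn g f u x * dn g f (ww g 1 f) x) / ww g 1 f x := by
      simp only [acc_nv hg hf]
      rw [← ip_eq_gr, ip_comp_right (Real.hasDerivAt_log h0.ne') sW, ip_g hg]
      ring
    rw [← e3, ← pair_nv, e0]
    simp only [pd_pair (g := g) sN hu, add_mul, Finset.sum_add_distrib, acc, Finset.mul_sum,
      Finset.sum_mul]
    congr 1
    · exact Finset.sum_congr rfl fun _ _ => Finset.sum_congr rfl fun _ _ => by ring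
    · rw [Finset.sum_comm]
      exact Finset.sum_congr rfl fun _ _ => Finset.sum_congr rfl fun _ _ => by ring
  have e4 : ∑ i, pd i (fun y => -(ww g 1 f y * dn g f u y)) x * nv g f i x =
      -(dn g f (ww g 1 f) x * dn g f u x + ww g 1 f x * ∑ j, pd j (dn g f u) x * nv g f j x) := by
    rw [dn_eq hg f (ww g 1 f), Finset.sum_mul, Finset.mul_sum, ← Finset.sum_add_distrib,
      ← Finset.sum_neg_distrib]
    refine Finset.sum_congr rfl fun i _ => ?_
    rw [pd_neg, pd_mul sW sD]; ring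
  rw [lap, dv_gb hg, e1, hg.dv_add (fun i => sW.fun_mul (hg.diff_gr hu i))
    (fun i => (sW.fun_mul sD).fun_neg.fun_mul (sN i)), hg.dv_smul sW (hg.diff_gr hu),
    hg.dv_smul (sW.fun_mul sD).fun_neg sN, e4, e2, ← ip_eq_gr, hg.ip_sy (ww g 1 f) u, lap]
  field_simp
  ring

theorem hw_eq (hg : Met g) (φ f : E n → ℝ) (x : E n) :
    hw g φ f x = dv g (nv g f) x + dn g f φ x := by
  rw [hw, dvw, dn_eq hg]

theorem rn_eq (g : Field n) (φ f : E n → ℝ) (x : E n) : rn g φ f x =
    b2 g (rc g) f f x / ww g 1 f x ^ 2 - b2 g (hess g φ) f f x / ww g 1 f x ^ 2 := by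
  rw [← pair_nv, ← pair_nv, rn]
  simp only [sub_mul, Finset.sum_sub_distrib]

/-- **the weighted equation of Gauss** (the rearrangement of Schoen and Yau) -/
theorem gauss_w (hg : Met g) (hφ : Smooth φ) (hf : Smooth f) (x : E n) :
    Rw (gb g 1 f) φ x = Rw g φ x - 2 * rn g φ f x + hw g φ f x ^ 2 - a2 g f x := by
  rw [Rw, Rw, gauss hg hf, lap_g hg hf (hφ.c2 x), ip_g hg, hw_eq hg, rn_eq]
  ring

/-! ### stability -/

/-- a supersolution gives stability -/
theorem stab_pt (hg : Met g) (hℓ : ContDiffAt ℝ 2 ℓ x) (hζ : DifferentiableAt ℝ ζ x) {q : ℝ}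
    (h : q + ip g ℓ ℓ x ≤ lap g ℓ x + ip g φ ℓ x) :
    q * ζ x ^ 2 ≤ ip g ζ ζ x + dvw g φ (fun i y => ζ y ^ 2 * gr g ℓ i y) x := by
  have h1 : ∑ i, pd i (fun y => ζ y ^ 2) x * gr g ℓ i x = 2 * ζ x * ip g ζ ℓ x := by
    rw [← ip_eq_gr, ip_comp_left (φ := fun t => t ^ 2) (hasDerivAt_pow 2 _) hζ]
    norm_num
  have h2 : ∑ i, pd i φ x * (ζ x ^ 2 * gr g ℓ i x) = ζ x ^ 2 * ip g φ ℓ x := by
    rw [ip_eq_gr, Finset.mul_sum]
    exact Finset.sum_congr rfl fun _ _ => by ring
  have h3 : 0 ≤ ip g ζ ζ x + 2 * ζ x * ip g ζ ℓ x + ζ x ^ 2 * ip g ℓ ℓ x := by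
    have := hg.up_nonneg x fun i => pd i ζ x + ζ x * pd i ℓ x
    have e := hg.ip_sy ζ ℓ x
    simp only [mul_add, add_mul, Finset.sum_add_distrib] at this
    have a1 : ∑ i, ∑ j, up g i j x * (ζ x * pd i ℓ x) * pd j ζ x = ζ x * ip g ℓ ζ x := by
      simp only [ip, Finset.mul_sum]
      exact Finset.sum_congr rfl fun _ _ => Finset.sum_congr rfl fun _ _ => by ring
    have a2 : ∑ i, ∑ j, up g i j x * pd i ζ x * (ζ x * pd j ℓ x) = ζ x * ip g ζ ℓ x := by
      simp only [ip, Finset.mul_sum]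
      exact Finset.sum_congr rfl fun _ _ => Finset.sum_congr rfl fun _ _ => by ring
    have a3 : ∑ i, ∑ j, up g i j x * (ζ x * pd i ℓ x) * (ζ x * pd j ℓ x) =
        ζ x ^ 2 * ip g ℓ ℓ x := by
      simp only [ip, Finset.mul_sum]
      exact Finset.sum_congr rfl fun _ _ => Finset.sum_congr rfl fun _ _ => by ring
    rw [a1, a2, a3, ← e] at this
    unfold ip at this ⊢
    linarith
  rw [dvw, hg.dv_smul (hζ.fun_pow 2) (hg.diff_gr hℓ), h1, h2]
  have h4 := mul_le_mul_of_nonneg_left h (sq_nonneg (ζ x))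
  unfold lap at h4
  linarith

/-- **stability of the graph**, pointwise -/
theorem stab_graph (hg : Met g) (hφ : Smooth φ) (hf : Smooth f) (hζ : DifferentiableAt ℝ ζ x) :
    (a2 g f x + rn g φ f x + dn g f (hw g φ f) x) * ζ x ^ 2 ≤ ip (gb g 1 f) ζ ζ x +
      dvw (gb g 1 f) φ (fun i y => ζ y ^ 2 *
        gr (gb g 1 f) (fun z => Real.log (ww g 1 f z)) i y) x :=
  stab_pt (met_g hg hf) (Smooth.c2 (ContDiff.log (sm_w hg hf) fun y => (w_pos hg f y).ne') x) hζ
    (jac_log hg hφ hf x).ge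

/-- the normal derivative of the prescribed mean curvature `τ f - h` -/
theorem dn_cap (hg : Met g) {τ : ℝ} {h H : E n → ℝ} (hτ : 0 ≤ τ) (hf : DifferentiableAt ℝ f x)
    (hh : DifferentiableAt ℝ h x) (e : H =ᶠ[𝓝 x] fun y => τ * f y - h y) :
    -dn g f h x ≤ dn g f H x := by
  have h1 : ip g f H x = τ * ip g f f x + -1 * ip g f h x :=
    ip_of_pd_add' fun i => by rw [pd_congr e, pd_sub (hf.const_mul τ) hh, pd_const_mul]; ring
  rw [dn, dn, h1, ← neg_div]
  exact div_le_div_of_nonneg_right (by nlinarith [mul_nonneg hτ (hg.ip_nonneg f x)])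
    (w_pos hg f x).le

end Vale.Agent.P366P
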