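import Vale.Agent.P366D.Map

/-!
# P366P: the product of a metric with a line
-/

open MeasureTheory Metric Filter Topology Set
open scoped ContDiff
open Vale.Agent.P366.Stmt Vale.Agent.P366Z
open Vale.Agent.P366M (jac)
open Vale.Agent.P366D (pb RfE snc ini)
open Fin (castSucc last)

noncomputable section

namespace Vale.Agent.P366P

variable {k : ℕ} {γ T : Field k} {x : E (k + 1)} {u v : E k → ℝ}

theorem ini_snc (y : E k) (s : ℝ) : ini (snc y s) = y := by
  ext i; simp [ini, snc]

theorem snc_last (y : E k) (s : ℝ) : snc y s (last k) = s := by simp [snc]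

theorem snc_ini (x : E (k + 1)) : snc (ini x) (x (last k)) = x := by
  ext i
  refine Fin.lastCases ?_ (fun j => ?_) i <;> simp [ini, snc]

theorem sm_ini : ContDiff ℝ ∞ (ini : E (k + 1) → E k) :=
  contDiff_euclidean.2 fun i => by
    show ContDiff ℝ ∞ fun x : E (k + 1) => x i.castSucc
    fun_prop

theorem cont_snc : Continuous fun p : E k × ℝ => snc p.1 p.2 :=
  (PiLp.continuous_toLp 2 _).comp (continuous_pi fun i => by
    refine Fin.lastCases ?_ (fun j => ?_) i
    · simpa using continuous_snd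
    · simp only [Fin.snoc_castSucc]
      fun_prop)

theorem pd_cs (u : E k → ℝ) (i : Fin k) (x : E (k + 1)) :
    pd i.castSucc (fun y => u (ini y)) x = pd i u (ini x) := by
  unfold pd lineDeriv
  refine congrArg (fun F => deriv F 0) (funext fun t => congrArg u ?_)
  ext j
  simp [ini, Pi.single_apply]

theorem pd_la (u : E k → ℝ) (x : E (k + 1)) : pd (last k) (fun y => u (ini y)) x = 0 := by
  have : (fun t : ℝ => u (ini (x + t • EuclideanSpace.single (last k) (1 : ℝ)))) =
      fun _ => u (ini x) := by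
    funext t
    congr 1
    ext j
    simp [ini, (Fin.castSucc_lt_last j).ne]
  unfold pd lineDeriv
  rw [this, deriv_const]

theorem pd_cs2 (γ : Field k) (a b i : Fin k) (x : E (k + 1)) :
    pd i.castSucc (fun y => γ (ini y) a b) x = pd i (fun y => γ y a b) (ini x) :=
  pd_cs (fun y => γ y a b) i x

theorem pd_la2 (γ : Field k) (a b : Fin k) (x : E (k + 1)) :
    pd (last k) (fun y => γ (ini y) a b) x = 0 := pd_la (fun y => γ y a b) x

theorem jac_ini_cs (x : E (k + 1)) (a i : Fin k) :
    jac ini x a i.castSucc = if i = a then 1 else 0 :=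
  (pd_cs (fun y => y a) i x).trans (pd_coord i a _)

theorem jac_ini_la (x : E (k + 1)) (a : Fin k) : jac ini x a (last k) = 0 := pd_la (fun y => y a) x

theorem pb_cc (T : Field k) (x : E (k + 1)) (i j : Fin k) :
    pb ini T x i.castSucc j.castSucc = T (ini x) i j := by
  simp [pb, jac_ini_cs]

theorem pb_l1 (T : Field k) (x : E (k + 1)) (j : Fin (k + 1)) : pb ini T x (last k) j = 0 := by
  simp [pb, jac_ini_la]

theorem pb_l2 (T : Field k) (x : E (k + 1)) (i : Fin (k + 1)) : pb ini T x i (last k) = 0 := by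
  simp [pb, jac_ini_la]

/-- the square of the differential of the last coordinate -/
def ds2 (k : ℕ) (i j : Fin (k + 1)) : ℝ :=
  (if i = last k then 1 else 0) * if j = last k then 1 else 0

/-- the product metric -/
def prd (γ : Field k) : P366.Stmt.Field (k + 1) := fun x i j => pb ini γ x i j + ds2 k i j

theorem prd_cc (i j : Fin k) :
    (fun x => prd γ x i.castSucc j.castSucc) = fun x => γ (ini x) i j := by
  funext x; simp [prd, pb_cc, ds2]

theorem prd_l1 (j : Fin (k + 1)) :
    (fun x => prd γ x (last k) j) = fun _ => if j = last k then 1 else 0 := by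
  funext x; simp [prd, pb_l1, ds2]

theorem prd_l2 (i : Fin (k + 1)) :
    (fun x => prd γ x i (last k)) = fun _ => if i = last k then 1 else 0 := by
  funext x; simp [prd, pb_l2, ds2]

theorem det_prd (γ : Field k) (x : E (k + 1)) : (mat (prd γ) x).det = (mat γ (ini x)).det := by
  rw [Matrix.det_succ_row _ (last k), Fin.sum_univ_castSucc, Finset.sum_eq_zero fun j _ => by
    simp [mat, congrFun (prd_l1 _) x]]
  simp only [mat, congrFun (prd_l1 _) x, if_true, zero_add, mul_one, Fin.succAbove_last]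
  rw [← two_mul, pow_mul]
  simp only [even_two, Even.neg_pow, one_pow, one_mul]
  congr 1
  ext i j
  exact congrFun (prd_cc i j) x

theorem dens_prd (γ : Field k) : dens (prd γ) = fun x => dens γ (ini x) :=
  funext fun x => congrArg Real.sqrt (det_prd γ x)

theorem up_prd (hγ : Met γ) (x : E (k + 1)) :
    (mat (prd γ) x)⁻¹ = mat (prd fun y i j => up γ i j y) x := by
  refine Matrix.inv_eq_right_inv ?_
  have h := Matrix.mul_nonsing_inv _ (hγ.pos (ini x)).det_pos.ne'.isUnit
  ext i j
  refine Fin.lastCases ?_ (fun i => ?_) i <;> refine Fin.lastCases ?_ (fun j => ?_) j <;>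
    rw [Matrix.mul_apply] <;> simp only [Fin.sum_univ_castSucc, mat, congrFun (prd_cc _ _) x,
      congrFun (prd_l1 _) x, congrFun (prd_l2 _) x]
  · simp
  · simp [Matrix.one_apply, (Fin.castSucc_lt_last j).ne']
  · simp [Matrix.one_apply]
  · have := congrFun (congrFun h i) j
    rw [Matrix.mul_apply] at this
    simpa [Matrix.one_apply, up, mat] using this

variable (hγ : Met γ)
include hγ

theorem up_cc (i j : Fin k) : up (prd γ) i.castSucc j.castSucc x = up γ i j (ini x) := by
  rw [up, up_prd hγ]; exact congrFun (prd_cc _ _) x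

theorem up_l1 (j : Fin (k + 1)) : up (prd γ) (last k) j x = if j = last k then 1 else 0 := by
  rw [up, up_prd hγ]; exact congrFun (prd_l1 _) x

theorem up_l2 (i : Fin (k + 1)) : up (prd γ) i (last k) x = if i = last k then 1 else 0 := by
  rw [up, up_prd hγ]; exact congrFun (prd_l2 _) x

theorem chr_ccc (a b c : Fin k) :
    chr (prd γ) a.castSucc b.castSucc c.castSucc = fun x => chr γ a b c (ini x) := by
  funext x
  simp [chr, Fin.sum_univ_castSucc, up_cc hγ, up_l2 hγ, prd_cc, pd_cs2]

theorem chr_l1 (b c : Fin (k + 1)) : chr (prd γ) (last k) b c = fun _ => 0 := by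
  funext x
  refine Fin.lastCases ?_ (fun b => ?_) b <;> refine Fin.lastCases ?_ (fun c => ?_) c <;>
    simp [chr, up_l1 hγ, prd_cc, prd_l1, prd_l2, pd_const, pd_la2]

theorem chr_l2 (a c : Fin (k + 1)) : chr (prd γ) a (last k) c = fun _ => 0 := by
  funext x
  refine Fin.lastCases ?_ (fun a => ?_) a <;> refine Fin.lastCases ?_ (fun c => ?_) c <;>
    simp [chr, Fin.sum_univ_castSucc, up_l1 hγ, up_l2 hγ, prd_cc, prd_l1, prd_l2, pd_const,
      pd_la2]

theorem chr_l3 (a b : Fin (k + 1)) : chr (prd γ) a b (last k) = fun _ => 0 := by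
  funext x
  refine Fin.lastCases ?_ (fun a => ?_) a <;> refine Fin.lastCases ?_ (fun b => ?_) b <;>
    simp [chr, Fin.sum_univ_castSucc, up_l1 hγ, up_l2 hγ, prd_cc, prd_l1, prd_l2, pd_const,
      pd_la2]

theorem scal_prd (x : E (k + 1)) : scal (prd γ) x = scal γ (ini x) := by
  simp [scal, Fin.sum_univ_castSucc, up_cc hγ, up_l1 hγ, up_l2 hγ, chr_ccc hγ, chr_l1 hγ,
    chr_l2 hγ, chr_l3 hγ, pd_const, pd_cs]

theorem ip_prd (U V : E (k + 1) → ℝ) (x : E (k + 1)) : ip (prd γ) U V x =
    ∑ i : Fin k, ∑ j : Fin k, up γ i j (ini x) * pd i.castSucc U x * pd j.castSucc V x +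
      pd (last k) U x * pd (last k) V x := by
  simp [ip, Fin.sum_univ_castSucc, up_cc hγ, up_l1 hγ, up_l2 hγ]

theorem ip_prd_ini (u v : E k → ℝ) (x : E (k + 1)) :
    ip (prd γ) (fun y => u (ini y)) (fun y => v (ini y)) x = ip γ u v (ini x) := by
  rw [ip_prd hγ]
  simp [pd_cs, pd_la, ip]

theorem lap_prd (u : E k → ℝ) (x : E (k + 1)) :
    lap (prd γ) (fun y => u (ini y)) x = lap γ u (ini x) := by
  have h1 : ∀ i : Fin k, gr (prd γ) (fun y => u (ini y)) i.castSucc = fun y => gr γ u i (ini y) :=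
    fun i => funext fun y => by simp [gr, Fin.sum_univ_castSucc, up_cc hγ, pd_cs, pd_la]
  have h2 : gr (prd γ) (fun y => u (ini y)) (last k) = fun _ => 0 :=
    funext fun y => by simp [gr, up_l1 hγ, pd_la]
  have h3 := fun i => pd_cs (fun y => dens γ y * gr γ u i y) i x
  simp [lap, dv, Fin.sum_univ_castSucc, h1, h2, h3, dens_prd, pd_const]

theorem RfE_prd (u : E k → ℝ) (x : E (k + 1)) :
    RfE (prd γ) (fun y => u (ini y)) x = RfE γ u (ini x) := by
  rw [RfE, RfE, scal_prd hγ, lap_prd hγ, ip_prd_ini hγ]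

theorem tr_prd (T : Field k) (x : E (k + 1)) : tr (prd γ) (pb ini T) x = tr γ T (ini x) := by
  simp [tr, Fin.sum_univ_castSucc, up_cc hγ, pb_cc, pb_l1, pb_l2]

theorem ip_prd_mul {χ : ℝ → ℝ} {d : ℝ} (hu : DifferentiableAt ℝ u (ini x))
    (hχ : HasDerivAt χ d (x (last k))) :
    ip (prd γ) (fun y => u (ini y) * χ (y (last k))) (fun y => u (ini y) * χ (y (last k))) x =
      χ (x (last k)) ^ 2 * ip γ u u (ini x) + u (ini x) ^ 2 * d ^ 2 := by
  have h0 : DifferentiableAt ℝ (fun y : E (k + 1) => y (last k)) x := by fun_prop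
  have h1 : ∀ i, pd i (fun y => u (ini y) * χ (y (last k))) x =
      pd i (fun y => u (ini y)) x * χ (x (last k)) + u (ini x) * (d * if i = last k then 1 else 0) :=
    fun i => by
      rw [pd_mul (f := fun y => u (ini y)) (h := fun y => χ (y (last k)))
        (hu.comp x (sm_ini.differentiable (by simp) x)) (hχ.differentiableAt.comp x h0),
        pd_comp hχ h0, pd_coord]
  rw [ip_prd hγ]
  simp only [h1, pd_cs, pd_la, ip, Finset.mul_sum, (Fin.castSucc_lt_last _).ne, if_false,
    if_true]
  congr 1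
  · exact Finset.sum_congr rfl fun _ _ => Finset.sum_congr rfl fun _ _ => by ring
  · ring

omit hγ

/-! ### the measure -/

theorem mp_snc : MeasurePreserving (fun p : E k × ℝ => snc p.1 p.2) (volume.prod volume) volume := by
  have h1 := (volume_preserving_piFinSuccAbove (fun _ : Fin (k + 1) => ℝ) (last k)).symm
  have h2 : MeasurePreserving (fun p : E k × ℝ => (p.2, p.1.ofLp)) (volume.prod volume)
      (volume : Measure (ℝ × (Fin k → ℝ))) :=
    Measure.measurePreserving_swap.comp
      ((PiLp.volume_preserving_ofLp (Fin k)).prod (MeasurePreserving.id volume))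
  have h3 := (PiLp.volume_preserving_toLp (Fin (k + 1))).comp (h1.comp h2)
  have e : (fun p : E k × ℝ => snc p.1 p.2) = WithLp.toLp 2 ∘
      (MeasurableEquiv.piFinSuccAbove (fun _ : Fin (k + 1) => ℝ) (last k)).symm ∘
      fun p : E k × ℝ => (p.2, p.1.ofLp) := by
    funext p
    simp [snc, MeasurableEquiv.piFinSuccAbove, Fin.insertNthEquiv]
  rw [e]
  exact h3

theorem emb_snc : MeasurableEmbedding fun p : E k × ℝ => snc p.1 p.2 :=
  (Homeomorph.mk ⟨fun p : E k × ℝ => snc p.1 p.2, fun x => (ini x, x (last k)),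
    fun p => by simp [ini_snc, snc_last], snc_ini⟩ cont_snc
    (sm_ini.continuous.prodMk (by fun_prop))).measurableEmbedding

/-- the cylinder over `B` -/
def Cy (B : Set (E k)) (S : ℝ) : Set (E (k + 1)) := {x | ini x ∈ B ∧ |x (last k)| ≤ S}

theorem Cy_eq (B : Set (E k)) (S : ℝ) :
    Cy B S = (fun p : E k × ℝ => snc p.1 p.2) '' B ×ˢ Icc (-S) S := by
  ext x
  refine ⟨fun h => ⟨(ini x, x (last k)), ⟨h.1, abs_le.1 h.2⟩, snc_ini x⟩, ?_⟩
  rintro ⟨p, hp, rfl⟩
  exact ⟨by rw [ini_snc]; exact hp.1, by rw [snc_last]; exact abs_le.2 hp.2⟩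

theorem cpt_Cy {B : Set (E k)} (hB : IsCompact B) (S : ℝ) : IsCompact (Cy B S) :=
  Cy_eq B S ▸ (hB.prod isCompact_Icc).image cont_snc

theorem integral_Cy (B : Set (E k)) (S : ℝ) (a : E k → ℝ) (b : ℝ → ℝ) :
    ∫ x in Cy B S, a (ini x) * b (x (last k)) = (∫ y in B, a y) * ∫ s in Icc (-S) S, b s := by
  rw [Cy_eq, mp_snc.setIntegral_image_emb emb_snc, ← setIntegral_prod_mul]
  simp only [ini_snc, snc_last]

end Vale.Agent.P366P
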