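import Vale.Agent.P366P.Mat
import Vale.Agent.P366Y.C.Defs

/-!
# P366P: the laws of the change of coordinates
-/

open Filter Topology Matrix
open scoped ContDiff
open Vale.Agent.P366.Stmt Vale.Agent.P366Z
open Vale.Agent.P366M (jac)
open Vale.Agent.P366Y.C (rc)

noncomputable section

namespace Vale.Agent.P366P

variable {n : ℕ} {τ : E n → E n} {y : E n} {g g' T T' : Field n} {u u' v v' U U' : E n → ℝ}
  {w w' X X' : Fin n → E n → ℝ}

/-! ### functions, covectors, vectors: differentiability -/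

theorem C3.diff_fun (h : C3 τ y) (hu : DifferentiableAt ℝ u (τ y)) (e : PF τ u u' y) :
    DifferentiableAt ℝ u' y := (hu.comp y h.diff).congr_of_eventuallyEq e

theorem C3.c2_fun (h : C3 τ y) (hu : ContDiffAt ℝ 2 u (τ y)) (e : PF τ u u' y) :
    ContDiffAt ℝ 2 u' y := (hu.comp y (h.sm.of_le (by norm_num))).congr_of_eventuallyEq e

theorem C3.pd_law (h : C3 τ y) (hu : DifferentiableAt ℝ u (τ y)) (e : PF τ u u' y) (i : Fin n) :
    pd i u' y = ∑ k, jac τ y k i * pd k u (τ y) := by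
  rw [pd_congr e, pd_chain hu h.diff]

theorem C3.pd_ev (h : C3 τ y) (hu : ContDiffAt ℝ 2 u (τ y)) (e : PF τ u u' y) :
    PC τ (fun i => pd i u) (fun i => pd i u') y := by
  filter_upwards [h.ev, h.cont.eventually (ev_diff hu), e.eventually_nhds] with z a b c i
  exact a.pd_law b c i

theorem C3.diff_cov (h : C3 τ y) (hw : ∀ k, DifferentiableAt ℝ (w k) (τ y)) (e : PC τ w w' y)
    (i : Fin n) : DifferentiableAt ℝ (w' i) y :=
  (DifferentiableAt.fun_sum fun k _ => (h.daB k i).fun_mul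
    ((hw k).comp y h.diff)).congr_of_eventuallyEq (e.mono fun _ hz => hz i)

theorem C3.diff_vec (h : C3 τ y) (hX : ∀ k, DifferentiableAt ℝ (X k) (τ y)) (e : PV τ X X' y)
    (i : Fin n) : DifferentiableAt ℝ (X' i) y :=
  (DifferentiableAt.fun_sum fun k _ => (h.daI i k).fun_mul
    ((hX k).comp y h.diff)).congr_of_eventuallyEq (e.mono fun _ hz => hz i)

theorem C3.diff_ten (h : C3 τ y) (hT : ∀ k l, DifferentiableAt ℝ (fun z => T z k l) (τ y))
    (e : PT τ T T' y) (i j : Fin n) : DifferentiableAt ℝ (fun z => T' z i j) y :=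
  h.da_pull (T := T) hT e i j

theorem C3.pd_cov (h : C3 τ y) (hw : ∀ k, DifferentiableAt ℝ (w k) (τ y)) (e : PC τ w w' y)
    (i j : Fin n) : pd i (w' j) y = ∑ b, (pd i (fun z => jac τ z b j) y * w b (τ y) +
      jac τ y b j * ∑ a, jac τ y a i * pd a (w b) (τ y)) := by
  have h1 : ∀ b, DifferentiableAt ℝ (fun z => w b (τ z)) y := fun b => (hw b).comp y h.diff
  rw [pd_congr (e.mono fun _ hz => hz j), pd_sum Finset.univ
    (F := fun b z => jac τ z b j * w b (τ z)) fun b _ => (h.daB b j).fun_mul (h1 b)]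
  refine Finset.sum_congr rfl fun b _ => ?_
  rw [pd_mul (h.daB b j) (h1 b), pd_chain (hw b) h.diff]

theorem C3.vec_mul (h : C3 τ y) (e : ∀ i, X' i y = ∑ k, (jac τ y)⁻¹ i k * X k (τ y)) (a : Fin n) :
    ∑ i, jac τ y a i * X' i y = X a (τ y) := by
  simp only [e, Finset.mul_sum]
  rw [Finset.sum_comm]
  simp only [← mul_assoc, ← Finset.sum_mul, h.sum_mul_inv]
  simp

theorem C3.pd_vec (h : C3 τ y) (hX : ∀ k, DifferentiableAt ℝ (X k) (τ y)) (e : PV τ X X' y)
    (a k : Fin n) : ∑ i, (pd k (fun z => jac τ z a i) y * X' i y + jac τ y a i * pd k (X' i) y) =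
      ∑ b, jac τ y b k * pd b (X a) (τ y) := by
  have h1 : (fun z => ∑ i, jac τ z a i * X' i z) =ᶠ[𝓝 y] fun z => X a (τ z) := by
    filter_upwards [h.ev, e] with z p q
    exact p.vec_mul q a
  rw [← pd_chain (hX a) h.diff, ← pd_congr h1, pd_sum Finset.univ
    (F := fun i z => jac τ z a i * X' i z) fun i _ => (h.daB a i).fun_mul (h.diff_vec hX e i)]
  exact Finset.sum_congr rfl fun i _ => (pd_mul (h.daB a i) (h.diff_vec hX e i) k).symm

namespace Ctx

variable (h : Ctx τ g g' y)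
include h

/-! ### the algebraic laws -/

theorem up_law (i j : Fin n) : up g' i j y =
    ∑ k, ∑ l, (jac τ y)⁻¹ i k * (jac τ y)⁻¹ j l * up g k l (τ y) := by
  unfold up
  rw [h.inv_eq, trip']

theorem up_law' (k l : Fin n) :
    ∑ i, ∑ j, jac τ y k i * jac τ y l j * up g' i j y = up g k l (τ y) := by
  unfold up
  rw [← h.inv_eq', trip']

theorem dens_law : dens g' y = |(jac τ y).det| * dens g (τ y) := by
  unfold dens
  rw [h.mat_eq, Matrix.det_mul, Matrix.det_mul, Matrix.det_transpose, mul_right_comm, ← sq,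
    Real.sqrt_mul (sq_nonneg _), Real.sqrt_sq_eq_abs]

theorem tr_law (e : ∀ i j, T' y i j = ∑ k, ∑ l, jac τ y k i * jac τ y l j * T (τ y) k l) :
    tr g' T' y = tr g T (τ y) := by
  unfold tr
  simp only [e, ← h.up_law', Finset.mul_sum, Finset.sum_mul]
  rw [Finset.sum_comm]
  refine (Finset.sum_congr rfl fun j _ => Finset.sum_comm).trans ?_
  refine Finset.sum_comm.trans (Finset.sum_congr rfl fun k _ => ?_)
  refine (Finset.sum_congr rfl fun j _ => Finset.sum_comm).trans ?_
  refine Finset.sum_comm.trans (Finset.sum_congr rfl fun l _ => ?_)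
  rw [Finset.sum_comm]
  exact Finset.sum_congr rfl fun i _ => Finset.sum_congr rfl fun j _ => by ring

/-- raising an index -/
theorem raise (e : ∀ i, w' i y = ∑ k, jac τ y k i * w k (τ y)) (i : Fin n) :
    ∑ j, up g' i j y * w' j y = ∑ k, (jac τ y)⁻¹ i k * ∑ l, up g k l (τ y) * w l (τ y) := by
  have h1 : (mat g' y)⁻¹ * (jac τ y)ᵀ = (jac τ y)⁻¹ * (mat g (τ y))⁻¹ := by
    rw [h.inv_eq, Matrix.mul_assoc, ← Matrix.transpose_mul, h.c.mul_inv, Matrix.transpose_one,
      Matrix.mul_one]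
  have h2 : ∀ l, ∑ j, up g' i j y * jac τ y l j = ∑ k, (jac τ y)⁻¹ i k * up g k l (τ y) := by
    intro l
    have := congrFun (congrFun h1 i) l
    rw [Matrix.mul_apply, Matrix.mul_apply] at this
    exact this
  simp only [e, Finset.mul_sum]
  rw [Finset.sum_comm]
  conv_rhs => rw [Finset.sum_comm]
  refine Finset.sum_congr rfl fun l _ => ?_
  simp only [← mul_assoc, ← Finset.sum_mul, h2]

theorem gr_law (hu : DifferentiableAt ℝ u (τ y)) (e : PF τ u u' y) (i : Fin n) :
    gr g' u' i y = ∑ k, (jac τ y)⁻¹ i k * gr g u k (τ y) :=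
  h.raise (w := fun k => pd k u) (w' := fun k => pd k u') (h.c.pd_law hu e) i

theorem gr_ev (hu : ContDiffAt ℝ 2 u (τ y)) (e : PF τ u u' y) : PV τ (gr g u) (gr g' u') y := by
  filter_upwards [h.ev, h.c.cont.eventually (ev_diff hu), e.eventually_nhds] with z a b c i
  exact a.gr_law b c i

omit h in
theorem pair (h : C3 τ y) (e : ∀ i, w' i y = ∑ k, jac τ y k i * w k (τ y))
    (e' : ∀ i, X' i y = ∑ k, (jac τ y)⁻¹ i k * X k (τ y)) :
    ∑ i, w' i y * X' i y = ∑ k, w k (τ y) * X k (τ y) := by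
  simp only [e, Finset.sum_mul]
  rw [Finset.sum_comm]
  refine Finset.sum_congr rfl fun k _ => ?_
  rw [← h.vec_mul e' k, Finset.mul_sum]
  exact Finset.sum_congr rfl fun i _ => by ring

theorem ip_law (hu : DifferentiableAt ℝ u (τ y)) (hv : DifferentiableAt ℝ v (τ y))
    (e : PF τ u u' y) (e' : PF τ v v' y) : ip g' u' v' y = ip g u v (τ y) := by
  rw [ip_eq_gr, ip_eq_gr]
  exact pair (w := fun k => pd k u) (w' := fun k => pd k u') h.c (h.c.pd_law hu e)
    (h.gr_law hv e')

/-! ### first order laws -/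

/-- **the law of the Christoffel symbols** -/
theorem chr_law (a i j : Fin n) : ∑ m, jac τ y a m * chr g' m i j y =
    pd i (fun z => jac τ z a j) y +
      ∑ b, ∑ c, jac τ y b i * jac τ y c j * chr g a b c (τ y) := by
  have h1 := congrFun (congrFun (h.Gam_law i) a) j
  rw [Matrix.mul_apply, Matrix.add_apply, Matrix.mul_apply, Dm_apply] at h1
  refine h1.trans ?_
  congr 1
  rw [Finset.sum_comm]
  refine Finset.sum_congr rfl fun c _ => ?_
  rw [A1, comb_apply, Finset.sum_mul]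
  refine Finset.sum_congr rfl fun b _ => ?_
  show jac τ y b i * chr g a b c (τ y) * jac τ y c j = _
  ring

theorem chr_law' (m i j : Fin n) : chr g' m i j y = ∑ a, (jac τ y)⁻¹ m a *
    (pd i (fun z => jac τ z a j) y +
      ∑ b, ∑ c, jac τ y b i * jac τ y c j * chr g a b c (τ y)) := by
  simp only [← h.chr_law, Finset.mul_sum]
  rw [Finset.sum_comm]
  simp only [← mul_assoc, ← Finset.sum_mul, h.c.sum_inv_mul]
  simp

/-- the covariant derivative of a covector field -/
theorem cov_law (hw : ∀ k, DifferentiableAt ℝ (w k) (τ y)) (e : PC τ w w' y) (i j : Fin n) :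
    pd i (w' j) y - ∑ m, chr g' m i j y * w' m y = ∑ a, ∑ b, jac τ y a i * jac τ y b j *
      (pd a (w b) (τ y) - ∑ c, chr g c a b (τ y) * w c (τ y)) := by
  have h1 : ∑ m, chr g' m i j y * w' m y =
      ∑ c, (∑ m, jac τ y c m * chr g' m i j y) * w c (τ y) := by
    simp only [e.self_of_nhds, Finset.mul_sum, Finset.sum_mul]
    rw [Finset.sum_comm]
    exact Finset.sum_congr rfl fun c _ => Finset.sum_congr rfl fun m _ => by ring
  rw [h1, h.c.pd_cov hw e]
  simp only [h.chr_law, add_mul, mul_sub, Finset.sum_add_distrib, Finset.sum_sub_distrib,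
    Finset.mul_sum, Finset.sum_mul]
  rw [add_sub_add_left_eq_sub]
  congr 1
  · rw [Finset.sum_comm]
    exact Finset.sum_congr rfl fun a _ => Finset.sum_congr rfl fun b _ => by ring
  · rw [Finset.sum_comm]
    refine Finset.sum_congr rfl fun a _ => ?_
    rw [Finset.sum_comm]
    exact Finset.sum_congr rfl fun b _ => Finset.sum_congr rfl fun c _ => by ring

/-- **the Hessian is a tensor** -/
theorem hess_law (hu : ContDiffAt ℝ 2 u (τ y)) (e : PF τ u u' y) (i j : Fin n) :
    hess g' u' y i j = ∑ k, ∑ l, jac τ y k i * jac τ y l j * hess g u (τ y) k l :=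
  h.cov_law (w := fun k => pd k u) (w' := fun k => pd k u') (fun k => diffAt_pd hu k)
    (h.c.pd_ev hu e) i j

/-- the covariant derivative of a vector field -/
theorem vec_law (hX : ∀ k, DifferentiableAt ℝ (X k) (τ y)) (e : PV τ X X' y) (a k : Fin n) :
    ∑ i, jac τ y a i * (pd k (X' i) y + ∑ m, chr g' i k m y * X' m y) =
      ∑ b, jac τ y b k * (pd b (X a) (τ y) + ∑ c, chr g a b c (τ y) * X c (τ y)) := by
  have h1 : ∑ i, jac τ y a i * ∑ m, chr g' i k m y * X' m y =
      ∑ m, (∑ i, jac τ y a i * chr g' i k m y) * X' m y := by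
    simp only [Finset.mul_sum, Finset.sum_mul]
    rw [Finset.sum_comm]
    exact Finset.sum_congr rfl fun c _ => Finset.sum_congr rfl fun m _ => by ring
  have h2 := h.c.pd_vec hX e a k
  have h3 : ∑ m, (∑ b, ∑ c, jac τ y b k * jac τ y c m * chr g a b c (τ y)) * X' m y =
      ∑ b, jac τ y b k * ∑ c, chr g a b c (τ y) * X c (τ y) := by
    simp only [← h.c.vec_mul e.self_of_nhds, Finset.mul_sum, Finset.sum_mul]
    rw [Finset.sum_comm]
    refine Finset.sum_congr rfl fun b _ => ?_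
    rw [Finset.sum_comm]
    exact Finset.sum_congr rfl fun c _ => Finset.sum_congr rfl fun m _ => by ring
  simp only [mul_add, Finset.sum_add_distrib] at h2 ⊢
  rw [h1]
  simp only [h.chr_law, add_mul, Finset.sum_add_distrib]
  rw [h3, ← h2]
  ring

/-- **the divergence is invariant** -/
theorem dv_law (hX : ∀ k, DifferentiableAt ℝ (X k) (τ y)) (e : PV τ X X' y) :
    dv g' X' y = dv g X (τ y) := by
  rw [h.m'.dv_chr (h.c.diff_vec hX e), h.m.dv_chr hX]
  set P : Mx n := Matrix.of fun i k => pd k (X' i) y + ∑ m, chr g' i k m y * X' m y with hP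
  set Q : Mx n := Matrix.of fun a b =>
    pd b (X a) (τ y) + ∑ c, chr g a b c (τ y) * X c (τ y) with hQ
  have h1 : jac τ y * P = Q * jac τ y := by
    ext a k
    rw [Matrix.mul_apply, Matrix.mul_apply]
    refine (h.vec_law hX e a k).trans (Finset.sum_congr rfl fun b _ => ?_)
    rw [mul_comm]
    rfl
  have h2 : P = (jac τ y)⁻¹ * (Q * jac τ y) := by
    rw [← h1, ← Matrix.mul_assoc, h.c.inv_mul, Matrix.one_mul]
  have h3 : P.trace = Q.trace := by
    rw [h2, Matrix.trace_mul_comm, Matrix.mul_assoc, h.c.mul_inv, Matrix.mul_one]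
  exact h3

/-- **the Laplacian is invariant** -/
theorem lap_law (hu : ContDiffAt ℝ 2 u (τ y)) (e : PF τ u u' y) : lap g' u' y = lap g u (τ y) :=
  h.dv_law (fun k => h.m.diff_gr hu k) (h.gr_ev hu e)

/-- **the weighted Laplacian is invariant** -/
theorem wl_law (hU : DifferentiableAt ℝ U (τ y)) (hu : ContDiffAt ℝ 2 u (τ y))
    (eU : PF τ U U' y) (e : PF τ u u' y) : wl g' U' u' y = wl g U u (τ y) := by
  refine h.dv_law (fun k => (hU.fun_pow 2).fun_mul (h.m.diff_gr hu k)) ?_
  filter_upwards [h.gr_ev hu e, eU] with z a b i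
  rw [a i, b, Finset.mul_sum]
  exact Finset.sum_congr rfl fun k _ => by ring

end Ctx

/-- the covariant derivative of a covariant tensor -/
def Nb (g T : Field n) (k : Fin n) (x : E n) : Mx n :=
  Dm k (mat T) x - ((Gam g k x)ᵀ * mat T x + mat T x * Gam g k x)

theorem Nb_apply (g T : Field n) (k : Fin n) (x : E n) (i j : Fin n) :
    Nb g T k x i j = pd k (fun y => T y i j) x -
      ∑ l, (chr g l k i x * T x l j + chr g l k j x * T x i l) := by
  unfold Nb
  rw [Matrix.sub_apply, Matrix.add_apply, Matrix.mul_apply, Matrix.mul_apply,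
    Finset.sum_add_distrib]
  congr 2
  exact Finset.sum_congr rfl fun l _ => mul_comm _ _

/-- the curvature -/
def Fm (g : Field n) (k j : Fin n) (x : E n) : Mx n :=
  Dm k (Gam g j) x - Dm j (Gam g k) x + Gam g k x * Gam g j x - Gam g j x * Gam g k x

theorem curv_alg {B Γk Γj Ak Aj Bk Bj dΓ dΓ' dA dA' W : Mx n}
    (h1 : B * Γk = Bk + Ak * B) (h2 : B * Γj = Bj + Aj * B)
    (h3 : Bk * Γj + B * dΓ = W + (dA * B + Aj * Bk))
    (h4 : Bj * Γk + B * dΓ' = W + (dA' * B + Ak * Bj)) :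
    B * (dΓ - dΓ' + Γk * Γj - Γj * Γk) = (dA - dA' + Ak * Aj - Aj * Ak) * B := by
  have e1 : B * dΓ = W + (dA * B + Aj * Bk) - Bk * Γj := eq_sub_of_add_eq' h3
  have e2 : B * dΓ' = W + (dA' * B + Ak * Bj) - Bj * Γk := eq_sub_of_add_eq' h4
  have e3 : B * (Γk * Γj) = Bk * Γj + (Ak * Bj + Ak * Aj * B) := by
    rw [← Matrix.mul_assoc, h1, Matrix.add_mul, Matrix.mul_assoc Ak B Γj, h2, Matrix.mul_add,
      Matrix.mul_assoc]
  have e4 : B * (Γj * Γk) = Bj * Γk + (Aj * Bk + Aj * Ak * B) := by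
    rw [← Matrix.mul_assoc, h2, Matrix.add_mul, Matrix.mul_assoc Aj B Γk, h1, Matrix.mul_add,
      Matrix.mul_assoc]
  rw [Matrix.mul_sub, Matrix.mul_add, Matrix.mul_sub, e1, e2, e3, e4, Matrix.sub_mul,
    Matrix.add_mul, Matrix.sub_mul]
  abel

theorem comb_mul_comb (c d : Fin n → ℝ) (A C : Fin n → Mx n) :
    (∑ b, c b • A b) * (∑ a, d a • C a) = ∑ b, ∑ a, (c b * d a) • (A b * C a) := by
  rw [Matrix.sum_mul]
  refine Finset.sum_congr rfl fun b _ => ?_
  rw [Matrix.mul_sum]
  refine Finset.sum_congr rfl fun a _ => ?_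
  rw [Matrix.smul_mul, Matrix.mul_smul, smul_smul]

theorem rc_eq (hg : Met g) (x : E n) (i l : Fin n) : rc g x i l = ∑ j, Fm g j i x j l := by
  unfold rc Fm
  simp only [Matrix.sub_apply, Matrix.add_apply, Matrix.mul_apply, Dm_apply,
    Finset.sum_add_distrib, Finset.sum_sub_distrib]
  rw [add_sub_assoc]
  congr 2
  rw [Finset.sum_comm]
  refine Finset.sum_congr rfl fun j _ => Finset.sum_congr rfl fun k _ => ?_
  rw [hg.chr_sy j k i]
  rfl

/-- the scalar curvature is the trace of the Ricci tensor -/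
theorem scal_eq_tr (hg : Met g) (x : E n) : scal g x = tr g (rc g) x := by
  unfold scal tr rc
  rw [Finset.sum_comm]
  refine Finset.sum_congr rfl fun j _ => Finset.sum_congr rfl fun i _ => ?_
  rw [hg.up_sy i j]
  congr 1
  have e1 : ∀ k, chr g k i j = chr g k j i := fun k => funext (hg.chr_sy k i j)
  have e2 : ∀ k, chr g k i k = chr g k k i := fun k => funext (hg.chr_sy k i k)
  simp only [e1, e2, Finset.sum_add_distrib, Finset.sum_sub_distrib]
  congr 2
  rw [Finset.sum_comm]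
  refine Finset.sum_congr rfl fun k _ => Finset.sum_congr rfl fun l _ => ?_
  rw [hg.chr_sy l j k, hg.chr_sy k i l]

namespace Ctx

variable (h : Ctx τ g g' y)
include h

theorem Nb_law (hT : ∀ k l, DifferentiableAt ℝ (fun z => T z k l) (τ y)) (e : PT τ T T' y)
    (k : Fin n) :
    Nb g' T' k y = (jac τ y)ᵀ * (∑ a, jac τ y a k • Nb g T a (τ y)) * jac τ y := by
  have e1 : ∑ a, jac τ y a k • Nb g T a (τ y) = ∑ a, jac τ y a k • Dm a (mat T) (τ y) -
      ((A1 τ g k y)ᵀ * mat T (τ y) + mat T (τ y) * A1 τ g k y) := by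
    rw [A1_eq, Matrix.transpose_sum, Matrix.sum_mul, Matrix.mul_sum, ← Finset.sum_add_distrib,
      ← Finset.sum_sub_distrib]
    refine Finset.sum_congr rfl fun a _ => ?_
    rw [Nb, Matrix.transpose_smul, Matrix.smul_mul, Matrix.mul_smul, smul_sub, smul_add]
  have e2 : (Gam g' k y)ᵀ * mat T' y =
      (Dm k (jac τ) y + A1 τ g k y * jac τ y)ᵀ * mat T (τ y) * jac τ y := by
    rw [← h.Gam_law, e.mat.self_of_nhds, Matrix.transpose_mul]
    simp only [Matrix.mul_assoc]
  have e3 : mat T' y * Gam g' k y =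
      (jac τ y)ᵀ * mat T (τ y) * (Dm k (jac τ) y + A1 τ g k y * jac τ y) := by
    rw [← h.Gam_law, e.mat.self_of_nhds]
    simp only [Matrix.mul_assoc]
  rw [e1, Nb, e2, e3, h.c.Dm_pull (T := T) hT e]
  simp only [Matrix.transpose_mul, Matrix.transpose_add, Matrix.mul_add, Matrix.add_mul,
    Matrix.mul_sub, Matrix.sub_mul, Matrix.mul_assoc]
  abel

/-- **the divergence of a tensor is a covector** -/
theorem dvT_law (hT : ∀ k l, DifferentiableAt ℝ (fun z => T z k l) (τ y)) (e : PT τ T T' y)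
    (j : Fin n) : dvT g' T' j y = ∑ k, jac τ y k j * dvT g T k (τ y) := by
  have e1 : ∀ k i, Nb g' T' k y i j =
      ∑ p, ∑ q, ∑ a, jac τ y p i * jac τ y q j * (jac τ y a k * Nb g T a (τ y) p q) := by
    intro k i
    rw [h.Nb_law hT e, trip]
    refine Finset.sum_congr rfl fun p _ => Finset.sum_congr rfl fun q _ => ?_
    rw [Matrix.sum_apply, Finset.mul_sum]
    rfl
  unfold dvT
  simp only [← Nb_apply, e1, ← h.up_law', Finset.mul_sum, Finset.sum_mul]
  have s5 : ∀ F : Fin n → Fin n → Fin n → Fin n → Fin n → ℝ,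
      ∑ i, ∑ k, ∑ p, ∑ q, ∑ a, F i k p q a = ∑ q, ∑ p, ∑ a, ∑ i, ∑ k, F i k p q a := by
    intro F
    calc ∑ i, ∑ k, ∑ p, ∑ q, ∑ a, F i k p q a = ∑ i, ∑ k, ∑ q, ∑ p, ∑ a, F i k p q a :=
          Finset.sum_congr rfl fun i _ => Finset.sum_congr rfl fun k _ => Finset.sum_comm
      _ = ∑ i, ∑ q, ∑ k, ∑ p, ∑ a, F i k p q a :=
          Finset.sum_congr rfl fun i _ => Finset.sum_comm
      _ = ∑ q, ∑ i, ∑ k, ∑ p, ∑ a, F i k p q a := Finset.sum_comm
      _ = ∑ q, ∑ i, ∑ p, ∑ k, ∑ a, F i k p q a :=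
          Finset.sum_congr rfl fun q _ => Finset.sum_congr rfl fun i _ => Finset.sum_comm
      _ = ∑ q, ∑ p, ∑ i, ∑ k, ∑ a, F i k p q a :=
          Finset.sum_congr rfl fun q _ => Finset.sum_comm
      _ = ∑ q, ∑ p, ∑ i, ∑ a, ∑ k, F i k p q a :=
          Finset.sum_congr rfl fun q _ => Finset.sum_congr rfl fun p _ =>
            Finset.sum_congr rfl fun i _ => Finset.sum_comm
      _ = _ := Finset.sum_congr rfl fun q _ => Finset.sum_congr rfl fun p _ => Finset.sum_comm
  rw [s5]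
  exact Finset.sum_congr rfl fun q _ => Finset.sum_congr rfl fun p _ =>
    Finset.sum_congr rfl fun a _ => Finset.sum_congr rfl fun i _ =>
      Finset.sum_congr rfl fun k _ => by ring

theorem momT_ev (e : PT τ T T' y) : PT τ (momT g T) (momT g' T') y := by
  filter_upwards [h.ev, e] with z a b i j
  unfold momT
  rw [a.tr_law b, b, a.pull.self_of_nhds, Finset.mul_sum, ← Finset.sum_sub_distrib]
  refine Finset.sum_congr rfl fun k _ => ?_
  rw [Finset.mul_sum, ← Finset.sum_sub_distrib]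
  exact Finset.sum_congr rfl fun l _ => by ring

/-- **the momentum density is a covector** -/
theorem mom_law (hT : ∀ k l, DifferentiableAt ℝ (fun z => T z k l) (τ y)) (e : PT τ T T' y)
    (j : Fin n) : mom g' T' j y = ∑ k, jac τ y k j * mom g T k (τ y) := by
  refine h.dvT_law (T := momT g T) (T' := momT g' T') (fun k l => ?_) (h.momT_ev e) j
  refine (hT k l).fun_sub (DifferentiableAt.fun_mul ?_ ((h.m.sm k l).diff _))
  exact DifferentiableAt.fun_sum fun a _ => DifferentiableAt.fun_sum fun b _ =>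
    ((h.m.sm_up a b).diff _).fun_mul (hT a b)

/-! ### the curvature -/

theorem daA (i : Fin n) : DA (A1 τ g i) y :=
  DA.comb (fun a => h.c.daB a i) fun a => (h.m.daGam a _).chain h.c.diff

theorem dA1 (k i : Fin n) : Dm k (A1 τ g i) y =
    ∑ a, (Dm k (jac τ) y a i • Gam g a (τ y) +
      jac τ y a i • ∑ b, jac τ y b k • Dm b (Gam g a) (τ y)) := by
  have h1 := Dm_comb (c := fun a z => jac τ z a i) (A := fun a z => Gam g a (τ z)) (x := y)
    (fun a => h.c.daB a i) (fun a => (h.m.daGam a _).chain h.c.diff) k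
  refine h1.trans (Finset.sum_congr rfl fun a _ => ?_)
  have h2 := Dm_chain (τ := τ) (A := Gam g a) (h.m.daGam a _) h.c.diff k
  show _ • _ + jac τ y a i • Dm k (fun z => Gam g a (τ z)) y = _
  rw [h2]
  rfl

theorem law_deriv (k j : Fin n) :
    Dm k (jac τ) y * Gam g' j y + jac τ y * Dm k (Gam g' j) y =
      Dm k (Dm j (jac τ)) y + (Dm k (A1 τ g j) y * jac τ y + A1 τ g j y * Dm k (jac τ) y) := by
  have h1 : (fun z => jac τ z * Gam g' j z) =ᶠ[𝓝 y]
      fun z => Dm j (jac τ) z + A1 τ g j z * jac τ z := h.ev.mono fun z hz => hz.Gam_law j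
  have h2 := Dm_congr h1 k
  rw [Dm_mul h.c.daB (h.m'.daGam j y) k, Dm_add (h.c.daDB j) ((h.daA j).mul h.c.daB) k,
    Dm_mul (h.daA j) h.c.daB k] at h2
  exact h2

/-- the law of the curvature -/
theorem curv_law (k j : Fin n) : jac τ y * Fm g' k j y =
    (∑ b, ∑ a, (jac τ y b k * jac τ y a j) • Fm g b a (τ y)) * jac τ y := by
  have h4 := h.law_deriv j k
  rw [h.c.ddb_symm j k] at h4
  have h5 := curv_alg (h.Gam_law k) (h.Gam_law j) (h.law_deriv k j) h4
  unfold Fm
  rw [h5]
  congr 1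
  have e1 : A1 τ g k y * A1 τ g j y =
      ∑ b, ∑ a, (jac τ y b k * jac τ y a j) • (Gam g b (τ y) * Gam g a (τ y)) :=
    comb_mul_comb (fun b => jac τ y b k) (fun a => jac τ y a j) (fun b => Gam g b (τ y))
      (fun a => Gam g a (τ y))
  have e2 : A1 τ g j y * A1 τ g k y =
      ∑ b, ∑ a, (jac τ y b k * jac τ y a j) • (Gam g a (τ y) * Gam g b (τ y)) := by
    have := comb_mul_comb (fun b => jac τ y b j) (fun a => jac τ y a k) (fun b => Gam g b (τ y))
      (fun a => Gam g a (τ y))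
    refine this.trans ?_
    rw [Finset.sum_comm]
    refine Finset.sum_congr rfl fun a _ => Finset.sum_congr rfl fun b _ => ?_
    rw [mul_comm]
  have e3 : Dm k (A1 τ g j) y - Dm j (A1 τ g k) y =
      ∑ b, ∑ a, (jac τ y b k * jac τ y a j) •
        (Dm b (Gam g a) (τ y) - Dm a (Gam g b) (τ y)) := by
    rw [h.dA1 k j, h.dA1 j k, Finset.sum_add_distrib, Finset.sum_add_distrib]
    have s1 : ∑ a, Dm j (jac τ) y a k • Gam g a (τ y) =
        ∑ a, Dm k (jac τ) y a j • Gam g a (τ y) :=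
      Finset.sum_congr rfl fun a _ => by rw [h.c.db_symm j a k]
    have s2 : ∑ a, jac τ y a j • ∑ b, jac τ y b k • Dm b (Gam g a) (τ y) =
        ∑ b, ∑ a, (jac τ y b k * jac τ y a j) • Dm b (Gam g a) (τ y) := by
      rw [Finset.sum_comm]
      refine Finset.sum_congr rfl fun a _ => ?_
      rw [Finset.smul_sum]
      refine Finset.sum_congr rfl fun b _ => ?_
      rw [smul_smul, mul_comm]
    have s3 : ∑ a, jac τ y a k • ∑ b, jac τ y b j • Dm b (Gam g a) (τ y) =
        ∑ b, ∑ a, (jac τ y b k * jac τ y a j) • Dm a (Gam g b) (τ y) := by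
      refine Finset.sum_congr rfl fun a _ => ?_
      rw [Finset.smul_sum]
      refine Finset.sum_congr rfl fun b _ => ?_
      rw [smul_smul]
    rw [s1, s2, s3, add_sub_add_left_eq_sub, ← Finset.sum_sub_distrib]
    refine Finset.sum_congr rfl fun b _ => ?_
    rw [← Finset.sum_sub_distrib]
    refine Finset.sum_congr rfl fun a _ => ?_
    rw [smul_sub]
  rw [e1, e2, e3, ← Finset.sum_add_distrib, ← Finset.sum_sub_distrib]
  refine Finset.sum_congr rfl fun b _ => ?_
  rw [← Finset.sum_add_distrib, ← Finset.sum_sub_distrib]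
  refine Finset.sum_congr rfl fun a _ => ?_
  rw [← smul_add, ← smul_sub]

/-- **the Ricci curvature is a tensor** -/
theorem rc_law (i j : Fin n) :
    rc g' y i j = ∑ k, ∑ l, jac τ y k i * jac τ y l j * rc g (τ y) k l := by
  have h1 : ∀ k, Fm g' k i y k j = ∑ m, ∑ b, ∑ a, ∑ c,
      (jac τ y b k * (jac τ y)⁻¹ k m) * (jac τ y a i * jac τ y c j * Fm g b a (τ y) m c) := by
    intro k
    have h3 : Fm g' k i y = (jac τ y)⁻¹ * (jac τ y * Fm g' k i y) := by
      rw [← Matrix.mul_assoc, h.c.inv_mul, Matrix.one_mul]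
    rw [h3, h.curv_law, Matrix.mul_apply]
    refine Finset.sum_congr rfl fun m _ => ?_
    rw [Matrix.sum_mul, Matrix.sum_apply, Finset.mul_sum]
    refine Finset.sum_congr rfl fun b _ => ?_
    rw [Matrix.sum_mul, Matrix.sum_apply, Finset.mul_sum]
    refine Finset.sum_congr rfl fun a _ => ?_
    rw [Matrix.smul_mul, Matrix.smul_apply, Matrix.mul_apply, smul_eq_mul, Finset.mul_sum,
      Finset.mul_sum]
    exact Finset.sum_congr rfl fun c _ => by ring
  have h2 : ∑ k, Fm g' k i y k j = ∑ m, ∑ b, (∑ k, jac τ y b k * (jac τ y)⁻¹ k m) *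
      ∑ a, ∑ c, jac τ y a i * jac τ y c j * Fm g b a (τ y) m c := by
    simp only [h1]
    rw [Finset.sum_comm]
    refine Finset.sum_congr rfl fun m _ => ?_
    rw [Finset.sum_comm]
    refine Finset.sum_congr rfl fun b _ => ?_
    rw [Finset.sum_mul]
    simp only [Finset.mul_sum]
  rw [rc_eq h.m', h2]
  simp only [h.c.sum_mul_inv, ite_mul, one_mul, zero_mul, Finset.sum_ite_eq', Finset.mem_univ,
    if_true]
  simp only [rc_eq h.m, Finset.mul_sum]
  rw [Finset.sum_comm]
  refine Finset.sum_congr rfl fun a _ => ?_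
  rw [Finset.sum_comm]

/-- **the scalar curvature is invariant** -/
theorem scal_law : scal g' y = scal g (τ y) := by
  rw [scal_eq_tr h.m', scal_eq_tr h.m]
  exact h.tr_law h.rc_law

theorem cl_law (hu : ContDiffAt ℝ 2 u (τ y)) (e : PF τ u u' y) : cl g' u' y = cl g u (τ y) := by
  unfold cl
  rw [h.lap_law hu e, h.scal_law, e.self_of_nhds]

/-! ### further algebraic laws -/

theorem covNorm_law (e : ∀ i, w' i y = ∑ k, jac τ y k i * w k (τ y)) :
    covNorm g' w' y = covNorm g w (τ y) := by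
  unfold covNorm
  congr 1
  have h1 := pair (X := fun k z => ∑ l, up g k l z * w l z)
    (X' := fun i z => ∑ j, up g' i j z * w' j z) h.c e (h.raise e)
  simp only [Finset.mul_sum] at h1
  refine Eq.trans ?_ (h1.trans ?_)
  · exact Finset.sum_congr rfl fun i _ => Finset.sum_congr rfl fun j _ => by ring
  · exact Finset.sum_congr rfl fun i _ => Finset.sum_congr rfl fun j _ => by ring

theorem gn_law (hu : DifferentiableAt ℝ u (τ y)) (e : PF τ u u' y) :
    gn g' u' y = gn g u (τ y) := by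
  unfold gn
  rw [h.ip_law hu hu e e]

omit h in
theorem normSq_eq (hg : Met g) (T : Field n) (x : E n) : normSq g T x =
    ((mat g x)⁻¹ * mat T x * (mat g x)⁻¹ * (mat T x)ᵀ).trace := by
  unfold normSq Matrix.trace
  refine Finset.sum_congr rfl fun i _ => ?_
  rw [Matrix.diag_apply, Matrix.mul_apply]
  refine Finset.sum_congr rfl fun j _ => ?_
  rw [Matrix.mul_apply, Finset.sum_mul, Finset.sum_comm]
  refine Finset.sum_congr rfl fun l _ => ?_
  rw [Matrix.mul_apply, Finset.sum_mul, Finset.sum_mul]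
  refine Finset.sum_congr rfl fun k _ => ?_
  rw [hg.up_sy j l]
  show up g i k x * up g l j x * T x i j * T x k l = up g i k x * T x k l * up g l j x * T x i j
  ring

theorem normSq_law (e : ∀ i j, T' y i j = ∑ k, ∑ l, jac τ y k i * jac τ y l j * T (τ y) k l) :
    normSq g' T' y = normSq g T (τ y) := by
  rw [normSq_eq h.m', normSq_eq h.m, mat_of e, ← h.inv_eq']
  simp only [Matrix.transpose_mul, Matrix.transpose_transpose, Matrix.mul_assoc]
  rw [Matrix.trace_mul_comm (jac τ y)]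
  simp only [Matrix.mul_assoc]

theorem mu_law (e : ∀ i j, T' y i j = ∑ k, ∑ l, jac τ y k i * jac τ y l j * T (τ y) k l) :
    mu g' T' y = mu g T (τ y) := by
  unfold mu
  rw [h.scal_law, h.tr_law e, h.normSq_law e]

omit h in
/-- a tensor evaluated on two vectors -/
theorem pair2 {Y Y' : Fin n → E n → ℝ} (h : C3 τ y)
    (e : ∀ i j, T' y i j = ∑ k, ∑ l, jac τ y k i * jac τ y l j * T (τ y) k l)
    (eX : ∀ i, X' i y = ∑ k, (jac τ y)⁻¹ i k * X k (τ y))
    (eY : ∀ i, Y' i y = ∑ k, (jac τ y)⁻¹ i k * Y k (τ y)) :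
    ∑ i, ∑ j, T' y i j * X' i y * Y' j y = ∑ k, ∑ l, T (τ y) k l * X k (τ y) * Y l (τ y) := by
  simp only [e, ← h.vec_mul eX, ← h.vec_mul eY, Finset.mul_sum, Finset.sum_mul]
  rw [Finset.sum_comm]
  refine (Finset.sum_congr rfl fun j _ => Finset.sum_comm).trans ?_
  refine Finset.sum_comm.trans (Finset.sum_congr rfl fun k _ => ?_)
  refine (Finset.sum_congr rfl fun j _ => Finset.sum_comm).trans ?_
  refine Finset.sum_comm.trans (Finset.sum_congr rfl fun l _ => ?_)
  exact Finset.sum_congr rfl fun i _ => Finset.sum_congr rfl fun j _ => by ring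

theorem nrm_law (hu : DifferentiableAt ℝ u (τ y)) (e : PF τ u u' y) (i : Fin n) :
    nrm g' u' i y = ∑ k, (jac τ y)⁻¹ i k * nrm g u k (τ y) := by
  unfold nrm
  rw [h.covNorm_law (w := fun k => pd k u) (w' := fun k => pd k u') (h.c.pd_law hu e),
    h.raise (w := fun k => pd k u) (w' := fun k => pd k u') (h.c.pd_law hu e), Finset.sum_div]
  exact Finset.sum_congr rfl fun k _ => by ring

theorem trS_law (hu : DifferentiableAt ℝ u (τ y)) (e : PF τ u u' y)
    (eT : ∀ i j, T' y i j = ∑ k, ∑ l, jac τ y k i * jac τ y l j * T (τ y) k l) :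
    trS g' T' u' y = trS g T u (τ y) := by
  unfold trS
  rw [h.tr_law eT, pair2 h.c eT (h.nrm_law hu e) (h.nrm_law hu e)]

theorem thetaPlus_law (hu : ContDiffAt ℝ 2 u (τ y)) (e : PF τ u u' y)
    (eT : ∀ i j, T' y i j = ∑ k, ∑ l, jac τ y k i * jac τ y l j * T (τ y) k l) :
    thetaPlus g' T' u' y = thetaPlus g T u (τ y) := by
  unfold thetaPlus
  rw [h.trS_law (diff2 hu) e eT, h.trS_law (diff2 hu) e (h.hess_law hu e),
    h.covNorm_law (w := fun k => pd k u) (w' := fun k => pd k u') (h.c.pd_law (diff2 hu) e)]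

end Ctx

/-- the laws are stated for `Ctx` -/
theorem Chg.ctx (h : Chg τ y) (hg : Met g) (hg' : Met g')
    (e : ∀ᶠ z in 𝓝 y, ∀ i j, g' z i j = ∑ k, ∑ l, jac τ z k i * jac τ z l j * g (τ z) k l) :
    Ctx τ g g' y := ⟨h.c3, hg, hg', e⟩

end Vale.Agent.P366P
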