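import Vale.Agent.P366P.Fam2

/-!
# P366P: the construction of the family
-/

open MeasureTheory Metric Filter Topology Set
open scoped ContDiff
open Vale.Agent.P366 hiding E omega
open Vale.Agent.P366.Stmt Vale.Agent.P366Z
open Vale.Agent.P366D (Rf Shd)
open Vale.Agent.P366M.Gr Vale.Agent.P366M.Y.C

noncomputable section

namespace Vale.Agent.P366M.An

variable {n : ℕ} {X : Type} [Mf0 n X] {g : Fld n X} {f Θ om h₀ z : X → ℝ} {s : ℝ → ℝ}
  {κ l β D : ℝ} {x : X}

theorem ub_loc (hΘ : Cir Θ) (hz : Continuous z) (hb : |ub l (z x - l * Θ x)| < l / 2) :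
    ∃ θ U, Lft Θ θ U ∧ x ∈ U ∧
      (fun y => ub l (z y - l * Θ y)) =ᶠ[𝓝 x] fun y => z y - l * θ y := by
  let F : Fd X Unit := ⟨pure (), Θ, fun _ => z, fun _ => l, 0, 0, 0, 0⟩
  obtain ⟨θ, U, h, hx⟩ := hΘ x
  obtain ⟨m, hm⟩ := Fd.u_br (F := F) (i := ()) h hx
    (by linarith [abs_nonneg (ub l (z x - l * Θ x))] : 0 < l).ne'
  refine ⟨_, U, h.add m, hx, ?_⟩
  filter_upwards [h.opn.mem_nhds hx, (hz.sub ((h.add m).sm.cont.const_mul l)).abs.continuousAt
    |>.eventually (gt_mem_nhds (hm ▸ hb : |F.br (fun y => θ y + m) () x| < l / 2))] with y a b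
  exact Fd.u_of (F := F) (i := ()) (h.add m) a b

/-- the slab with small volume and almost optimal area -/
theorem Fx.slab [CompactSpace X] (H : Fx g f Θ om h₀ s κ) (hβ : 0 < β) (hD : 0 < D)
    (ho : ∫ x, Real.exp (f x) * om x ∂vol g ≤ 1 + β) : ∃ K, ∀ (N : ℕ) (l : ℝ) (z W : X → ℝ),
      0 < N → l = 2 * N ^ 2 * D * (1 + β) → Smooth z → Continuous W →
      (∀ θ U, Lft Θ θ U → ∀ x ∈ U, W x = ww g 1 (fun y => z y - l * θ y) x) →
      ∫ x, Real.exp (f x) * (W x - 1) ∂vol g ≤ l * ∫ x, Real.exp (f x) * om x ∂vol g →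
      ∃ t, |t| + D ≤ N ^ 2 * D ∧
        (vol g).real {x | |ub l (z x + l / 2 - t - l * Θ x)| < D} ≤ K / N ∧ ∀ ρ : ℝ → ℝ,
        (∀ t, 0 ≤ ρ t) → (∀ t, ρ t ≤ 1) → (∀ t, ρ t ≠ 0 → |t| < D) →
        ∫ x, ρ (ub l (z x + l / 2 - t - l * Θ x)) * (Real.exp (f x) *
          ww g 1 (fun y => ub l (z y + l / 2 - t - l * Θ y)) x) ∂vol g ≤
          2 * D * (1 + β) ^ 2 + K / N := by
  have hg := H.met
  have := hg.locFin
  have e0 : Continuous fun x => Real.exp (f x) := H.smf.cont.rexp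
  set V := ∫ x, Real.exp (f x) ∂vol g with hV
  have V0 : 0 ≤ V := integral_nonneg fun x => (Real.exp_pos _).le
  refine ⟨2 * D * (1 + β) ^ 2 + (V + (vol g).real univ), fun N l z W hN hl hz hW w2 w3 => ?_⟩
  have N1 : (1 : ℝ) ≤ N := by exact_mod_cast hN
  have l1 : 2 * N ^ 2 * D < l := by rw [hl]; exact lt_mul_of_one_lt_right (by positivity) (by linarith)
  have l2 : 2 * D ≤ 2 * N ^ 2 * D := by nlinarith [one_le_pow₀ (n := 2) N1]
  have W1 : ∀ x, 0 ≤ Real.exp (f x) * W x := fun x => by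
    obtain ⟨θ, U, h, hx⟩ := H.cir x
    rw [w2 θ U h x hx]; exact (mul_pos (Real.exp_pos _) (w_pos hg _ x)).le
  have c0 : Continuous fun x => Real.exp (f x) * W x + N := (e0.mul hW).add continuous_const
  obtain ⟨t, t1, t2⟩ := level hg H.cir (hz.cont.add (continuous_const (y := l / 2)))
    (pow_pos hN 2) hD (l := l) (by push_cast; exact l1.le) c0 fun x => add_nonneg (W1 x) N.cast_nonneg
  simp only [Pi.add_apply, Nat.cast_pow] at t1 t2
  have c1 : Continuous fun x => z x + l / 2 - t := (hz.cont.add continuous_const).sub continuous_const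
  have m0 := (isOpen_lt (cont_tw H.cir c1 (by linarith : 0 < l))
    (continuous_const (y := D))).measurableSet
  set A := {x | |ub l (z x + l / 2 - t - l * Θ x)| < D} with hA
  have h1 : ∫ x, (Real.exp (f x) * W x + N) ∂vol g =
      ∫ x, Real.exp (f x) * (W x - 1) ∂vol g + V + N * (vol g).real univ := by
    refine (integral_add (int_cont hg (e0.mul hW)) (integrable_const _)).trans ?_
    rw [integral_const, smul_eq_mul, mul_comm _ (N : ℝ)]
    refine congrArg (· + _) (Eq.trans ?_ (integral_add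
      (int_cont hg (e0.mul (hW.sub (continuous_const (y := 1))))) (int_cont hg e0)))
    congr 1; funext x; simp [mul_sub]
  have h2 : ∫ x in A, (Real.exp (f x) * W x + N) ∂vol g ≤
      2 * D * (1 + β) ^ 2 + (V + (vol g).real univ) / N := by
    refine le_of_mul_le_mul_left (t2.trans ?_) (by positivity : (0 : ℝ) < N ^ 2)
    rw [h1, mul_add, sq (N : ℝ), mul_assoc (N : ℝ), mul_assoc (N : ℝ), mul_div_cancel₀ _ (by positivity)]
    have := w3.trans (mul_le_mul_of_nonneg_left ho (by linarith))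
    nlinarith
  have h3 : (V + (vol g).real univ) / N ≤ (2 * D * (1 + β) ^ 2 + (V + (vol g).real univ)) / N := by
    exact div_le_div_of_nonneg_right (le_add_of_nonneg_left (by positivity)) N.cast_nonneg
  refine ⟨t, t1, ?_, fun ρ ρ0 ρ1 ρ2 => le_trans ?_ (h2.trans (by linarith))⟩
  · rw [le_div_iff₀ (one_pos.trans_le N1), ← smul_eq_mul, ← setIntegral_const]
    refine (setIntegral_mono (integrable_const _) (int_cont hg c0).integrableOn fun x =>
      le_add_of_nonneg_left (W1 x)).trans (h2.trans ?_)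
    gcongr
    exact div_le_self (by positivity) N1
  · rw [← integral_indicator m0]
    refine integral_mono_of_nonneg (.of_forall fun x => mul_nonneg (ρ0 _)
      (mul_pos (Real.exp_pos _) (w_pos hg _ x)).le) ((int_cont hg c0).indicator m0)
      (.of_forall fun x => ?_)
    by_cases k : x ∈ A
    · obtain ⟨θ, U, h, hx, e⟩ := ub_loc H.cir c1 (x := x) (l := l) (by linarith [show _ < D from k])
      simp only [indicator_of_mem k]
      rw [(ww_congr e).self_of_nhds, show (fun y => z y + l / 2 - t - l * θ y) =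
        fun y => z y - l * θ y + (l / 2 - t) from funext fun y => by ring, ww_add, ← w2 θ U h x hx]
      linarith [mul_le_mul_of_nonneg_right (ρ1 (ub l (z x + l / 2 - t - l * Θ x))) (W1 x)]
    · simp only [indicator_of_notMem k, by_contra fun w => k (ρ2 _ w), zero_mul, le_refl]

/-- the gap of the shield -/
theorem gap [CompactSpace X] (hg : Met g) (hf : Smooth f) {O : Set X} {h : X → ℝ} {θ T : ℝ}
    (hs : Shd g f O h θ) (hT : 0 < T) (h1 : Smooth h₀) (h2 : ∀ x ∈ O, h x ≤ 2 * T → h₀ x = h x) :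
    ∃ v > (0 : ℝ), ∀ x ∈ O, h x ≤ T → v ≤ Rf g f x + h₀ x ^ 2 - 2 * gn g h₀ x := by
  obtain ⟨v, v0, hv⟩ := (hs.cls T).isCompact.exists_forall_le' (((sm_Rf hg hf).cont.add
    (h1.cont.pow 2)).sub ((hg.cont_gn h1.one).const_mul 2)).continuousOn (a := 0) fun x hx => by
      have e : h₀ =ᶠ[𝓝 x] h := by
        filter_upwards [hs.opn.mem_nhds hx.1, (hs.smh x hx.1).continuousAt.eventually
          (gt_mem_nhds (show h x < 2 * T by linarith [hx.2]))] with y a b using h2 y a b.le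
      simpa only [Pi.sub_apply, Pi.add_apply, Pi.pow_apply, gn_congr e, e.self_of_nhds] using
        hs.pos x hx.1
  exact ⟨v, v0, fun x a b => hv x ⟨a, b⟩⟩

theorem fam_of (h₁ : CAPX) (h₂ : GRD) (h₃ : TH) (h₄ : TRC) (h₅ : BAR) (h₆ : LIP2) : FAM := by
  intro k ϑ hk hϑ
  obtain ⟨θ, θ0, hB⟩ := h₅ (k + 1)
  refine ⟨θ, θ0, fun ζ ζ0 => ?_⟩
  obtain ⟨β, β0, β1, β2⟩ : ∃ β > (0 : ℝ), β ≤ 1 ∧ 7 * β ≤ ζ :=
    ⟨min (ζ / 7) 1, by positivity, min_le_right _ _, by linarith [min_le_left (ζ / 7) 1]⟩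
  obtain ⟨η₁, η1, hT⟩ := h₃ k ϑ hϑ β β0
  refine ⟨η₁, η1, fun η η0 hη X _ _ g f O h Y d => ?_⟩
  have hg := d.nr.met
  have := hg.locFin
  obtain ⟨Θ, om, t1, t2, t3, t4, t5, t6⟩ := hT η η0 hη X g f Y d.nr
  obtain ⟨a, a0, hR⟩ := h₄ (k + 1) X g f O h θ hg d.shd θ0.le
  obtain ⟨T₀, hB⟩ := hB X g f a hg d.nr.smf
  obtain ⟨h₀, r1, r2, r3, r4, r5⟩ := hR _ (le_max_left a T₀)
  obtain ⟨C, hB⟩ := hB _ (le_max_right a T₀)
  have T0 : 0 < max a T₀ := lt_max_of_lt_left a0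
  generalize max a T₀ = T at r3 r4 hB T0
  obtain ⟨v, v0, hv⟩ := gap hg d.nr.smf d.shd T0 r1 r3
  refine ⟨v / 2, half_pos v0, fun S S0 τ τ0 => ?_⟩
  obtain ⟨s, s1, s2, s3, s4, s5, s6⟩ := exists_s (κ := β / 8) (by positivity)
  have y0 : ∀ y ∈ P366D.Uo (k + 1) η, h₀ (Y y) = 0 := fun y hy =>
    (r3 _ (d.out y hy).1 (by rw [(d.out y hy).2]; positivity)).trans (d.out y hy).2
  have H : Fx g f Θ om h₀ s (β / 8) := ⟨hg, d.nr.smf, t1, t2, t3, r1, r2,
    fun x hx => t5 x fun y hy e => hx (e ▸ y0 y hy), s1, s2, s3, s4, s5, s6, by positivity,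
    by linarith⟩
  obtain ⟨τ', τ1, τ2, τ3⟩ : ∃ τ' > (0 : ℝ), τ' ≤ τ ∧ τ' * T ≤ v / 8 := ⟨min τ (v / 8 / T),
    by positivity, min_le_left _ _, (le_div_iff₀ T0).1 (min_le_right _ _)⟩
  obtain ⟨δ₀, δ0, hS⟩ := H.sol h₁ h₂ h₆ (by omega) (t6.trans (by linarith)) τ1
  obtain ⟨Om, hO⟩ := isCompact_univ.exists_bound_of_continuousOn t2.continuousOn
  obtain ⟨δ, δ1, δ2, δ3, δ4⟩ : ∃ δ > (0 : ℝ), δ ≤ δ₀ ∧ δ ≤ τ ∧ δ * (|Om| + 1) ≤ v / 8 :=
    ⟨min (min δ₀ τ) (v / 8 / (|Om| + 1)), by positivity, (min_le_left _ _).trans (min_le_left _ _),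
      (min_le_left _ _).trans (min_le_right _ _), (le_div_iff₀ (by positivity)).1 (min_le_right _ _)⟩
  obtain ⟨K, hK⟩ := H.slab β0 (show 0 < S + 2 by linarith) t6
  set l : ℕ → ℝ := fun i => 2 * ((i + 1 : ℕ) : ℝ) ^ 2 * (S + 2) * (1 + β) with hl
  have l2 : ∀ i : ℕ, ((i + 1 : ℕ) : ℝ) ≤ l i := fun i => by
    have : (1 : ℝ) ≤ (i + 1 : ℕ) := by exact_mod_cast i.succ_pos
    simp only [hl]
    nlinarith [mul_pos S0 β0, mul_le_mul_of_nonneg_left this (zero_le_one.trans this)]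
  have l1 : ∀ i, 1 ≤ l i := fun i => le_trans (by exact_mod_cast i.succ_pos) (l2 i)
  have l0 : ∀ i, 0 < l i := fun i => one_pos.trans_le (l1 i)
  have ε0 : ∀ i, 0 < δ / l i := fun i => div_pos δ1 (l0 i)
  have ε1 : ∀ i, δ / l i * l i = δ := fun i => div_mul_cancel₀ _ (l0 i).ne'
  choose z W z1 z2 z3 w1 w2 w3 using fun i => hS (l i) _ (l1 i) (ε0 i) ((ε1 i).trans_le δ2)
  choose t u1 u2 u3 using fun i => hK (i + 1) (l i) (z i) (W i) i.succ_pos rfl (z1 i) (w1 i) (w2 i)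
    (w3 i)
  have u4 : ∀ i, |t i| + (S + 2) ≤ l i * (1 / 2 - 2 * (β / 8)) := fun i => (u1 i).trans (by
    have : 0 ≤ ((i + 1 : ℕ) : ℝ) ^ 2 * (S + 2) * (β * (1 - β)) := by
      have := sub_nonneg.2 β1; positivity
    simp only [hl]
    linarith)
  have u5 : ∀ i, |t i| ≤ l i := fun i => by nlinarith [u4 i, l0 i]
  have n1 : Tendsto (fun i : ℕ => ((i + 1 : ℕ) : ℝ)) (hyperfilter ℕ) atTop :=
    (tendsto_natCast_atTop_atTop.comp (tendsto_add_atTop_nat 1)).mono_left Nat.hyperfilter_le_atTop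
  have n2 : Tendsto l (hyperfilter ℕ) atTop := tendsto_atTop_mono l2 n1
  have n3 := n1.const_div_atTop K
  obtain ⟨c, -, hc⟩ := (isCompact_Icc (a := -δ) (b := δ)).ultrafilter_le_nhds'
    ((hyperfilter ℕ).map fun i => δ / l i * t i) (Filter.mem_map.2 (univ_mem' fun i => abs_le.1 (by
      rw [abs_mul, abs_of_pos (ε0 i)]
      exact (mul_le_mul_of_nonneg_left (u5 i) (ε0 i).le).trans_eq (ε1 i))))
  obtain ⟨Λ, hΛ⟩ := isCompact_univ.exists_bound_of_continuousOn r1.cont.continuousOn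
  let F : Fd X ℕ := ⟨hyperfilter ℕ, Θ, fun i x => z i x + l i / 2 - t i, l,
    fun i => δ / l i * t i - c, fun i => δ / l i,
    fun x t => δ * t + h₀ x * s (t - 1 / 2) + (c - δ / 2), S⟩
  have e1 : ∀ i θ U, Lft Θ θ U → ∀ x ∈ U, hw g f (F.br θ i) x = rh h₀ s (l i) (δ / l i) (z i) x :=
    fun i θ U a x b => cap_br (z2 i) a b _ _
  have ok : F.Ok g f (v / 2) := by
    refine ⟨hg, d.nr.smf, t1, S0, fun i => CD.sub (CD.add (z1 i) cd_const) cd_const, n2,
      tendsto_sub_nhds_zero_iff.2 hc, n2.const_div_atTop δ, fun i => (ε0 i).le,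
      ⟨τ' / δ + 2, .of_forall fun i x => ?_⟩, fun θ U a x _ => CD.contDiffAt (CD.add (CD.add
        (CD.mul cd_const a.sm) (CD.mul r1 (s1.compM (CD.sub a.sm cd_const)))) cd_const),
      fun x p q hpq => ?_, ⟨τ' + Λ, .of_forall fun i θ U a x b => ?_⟩,
      .of_forall fun i θ U a x b q => ?_, ?_, ?_⟩
    · have h1 := z3 i x
      rw [abs_mul, abs_of_pos (ε0 i), div_mul_eq_mul_div, div_le_iff₀ (l0 i), mul_comm,
        ← le_div_iff₀ δ1, mul_div_right_comm] at h1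
      show |z i x + l i / 2 - t i| ≤ (τ' / δ + 2) * l i
      exact abs_le.2 ⟨by linarith [neg_abs_le (z i x), le_abs_self (t i), u5 i, l0 i],
        by linarith [le_abs_self (z i x), neg_abs_le (t i), u5 i, l0 i]⟩
    · simp only [F]
      linarith [mul_lt_mul_of_pos_left hpq δ1,
        mul_le_mul_of_nonneg_left (s2 (sub_le_sub_right hpq.le (1 / 2))) (r2 x)]
    · rw [e1 i θ U a x b]
      refine (abs_add_le _ _).trans (add_le_add (z3 i x) ?_)
      rw [abs_mul]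
      exact (mul_le_of_le_one_right (abs_nonneg _) (s3 _)).trans (hΛ x trivial)
    · rw [e1 i θ U a x b, rh, H.s_eq (l0 i) (u4 i) a b q.le]
      simp only [F, Fd.br]
      linear_combination (θ x - 1 / 2) * ε1 i
    · refine (ENNReal.tendsto_toReal_zero_iff fun i => measure_ne_top _ _).1 ?_
      exact squeeze_zero (fun _ => ENNReal.toReal_nonneg) u2 n3
    · filter_upwards [n2.eventually (eventually_gt_atTop (C / (β / 8)))] with i hi x hx
      obtain ⟨θ, U, p, q, e⟩ := ub_loc t1 (z := F.v i) (l := l i) (x := x)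
        (((z1 i).cont.add continuous_const).sub continuous_const)
        (hx.trans_lt (by nlinarith [u4 i, l0 i, abs_nonneg (t i)]))
      have k0 := mul_pos H.κ0 (l0 i)
      have h1 : h₀ x ≠ 0 → 2 * (β / 8) * l i ≤ |z i x| := fun w => by
        rcases H.lev (l0 i) (u4 i) p q (((congrArg abs e.self_of_nhds).ge.trans hx).trans
          (by linarith : S ≤ S + 2)) w with ⟨j, -⟩ | ⟨j, -⟩
        exacts [j.trans (le_abs_self _), (le_neg.1 j).trans (neg_le_abs _)]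
      have h2 : h₀ x < T := by_contra fun w => by
        have := H.bar (l0 i) (ε0 i).le (z1 i) (z2 i) fun z a p q => hB h₀ z a x r1 p r5 q (not_lt.1 w)
        linarith [h1 (T0.trans_le (not_lt.1 w)).ne', (div_lt_iff₀ H.κ0).1 hi]
      have h3 := H.pos (l0 i) (ε0 i).le (z1 i) (z2 i) p q (z3 i x) (fun w => by linarith [h1 w])
        (u := F.u i) e
      rw [ε1] at h3
      linarith [hv x (r4 x h2).1 (r4 x h2).2.le, mul_le_mul_of_nonneg_left h2.le τ1.le,
        mul_le_mul_of_nonneg_left ((le_abs_self _).trans ((hO x trivial).trans (le_abs_self Om)))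
          δ1.le]
  refine ⟨F, rfl, ok, t4, ⟨δ, c - δ / 2, δ1.le, δ3, fun y hy t => by simp [F, y0 y hy]⟩,
    .of_forall fun i θ U a y hy b => ?_, fun ψ p1 p2 p3 e e0 => ?_⟩
  · rw [e1 i θ U a _ b, rh, y0 y hy, zero_mul, add_zero]
    exact (z3 i _).trans τ2
  · refine (area_of ok (r := (S + 2) / (1 + β)) (B := 2 * (S + 2) * (1 + β) ^ 2) (by positivity)
      (div_lt_self (by linarith) (by linarith)) (by positivity) (fun ρ a b c e e0 => ?_) p1 p2 p3
      e0).mono fun i hi => hi.trans (add_le_add (mul_le_mul_of_nonneg_right ?_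
        (integral_nonneg p2)) le_rfl)
    · exact (n3.eventually (gt_mem_nhds e0)).mono fun i hi =>
        (u3 i ρ a b c).trans (add_le_add le_rfl hi.le)
    · rw [show 2 * (S + 2) * (1 + β) ^ 2 / (2 * ((S + 2) / (1 + β))) = (1 + β) ^ 3 by field_simp]
      nlinarith [mul_le_mul_of_nonneg_left β1 β0.le, mul_le_mul_of_nonneg_left β1 (sq_nonneg β)]

end Vale.Agent.P366M.An
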