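import Vale.Agent.P366P.Lim1

/-!
# P366P: limits of graphs; stability and mean curvature
-/

open MeasureTheory Metric Filter Topology Set
open scoped ContDiff
open Vale.Agent.P366 hiding E
open Vale.Agent.P366.Stmt Vale.Agent.P366Z
open Vale.Agent.P366D hiding Null Par Per Lim
open Vale.Agent.P366P (Cy ds2 prd snc_ini ini_snc snc_last sm_ini Cv CvM CvT B0)
open Vale.Agent.P366M.Y.C
open Fin (last)

noncomputable section

namespace Vale.Agent.P366M.Gr

section Gen

variable {n : ℕ} {M : Type} [Mf0 n M] {g : Fld n M} {φ u ζ χ v : M → ℝ}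

/-- the integrand of the second variation -/
def sv (g : Fld n M) (φ ζ : M → ℝ) (c : ℝ) (x : M) : ℝ :=
  Real.exp (φ x) * (2 * ip g ζ ζ x + (Rf g φ x - c) * ζ x ^ 2)

theorem sv_zero {x : M} (h : x ∉ tsupport ζ) (c : ℝ) : sv g φ ζ c x = 0 := by
  simp [sv, ip, pd_zero_of_notMem h, image_eq_zero_of_notMem_tsupport h]

theorem cont_sv (hg : Met g) (hφ : Smooth φ) (hζ : Smooth ζ) (c : ℝ) : Continuous (sv g φ ζ c) :=
  hφ.cont.rexp.mul (((hg.cont_ip hζ.one hζ.one).const_mul 2).add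
    (((sm_Rf hg hφ).cont.sub continuous_const).mul (hζ.cont.pow 2)))

theorem stab_loc (hg : Met g) (hφ : Smooth φ) (hζ : Smooth ζ) (hc : HasCompactSupport ζ)
    (hu : ∀ x ∈ tsupport ζ, ∀ᶠ z in 𝓝 x, CAt ∞ u z) {c : ℝ} (h : ∀ x, ζ x ≠ 0 →
      c ≤ Rf g φ x + hw g φ u x ^ 2 + 2 * dn g u (hw g φ u) x) :
    (Continuous fun x => sv (gb g 1 u) φ ζ c x * ww g 1 u x) ∧
      0 ≤ ∫ x, sv (gb g 1 u) φ ζ c x * ww g 1 u x ∂vol g := by
  obtain ⟨u', s1, s2⟩ := exists_smooth hc hu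
  have e : (fun x => sv (gb g 1 u) φ ζ c x * ww g 1 u x) =
      fun x => sv (gb g 1 u') φ ζ c x * ww g 1 u' x := by
    funext x
    by_cases k : x ∈ tsupport ζ
    · have h1 := gb_congr (g := g) (s2 x k)
      rw [sv, sv, Rf, Rf, scal_of_ev h1, lap_of_ev h1, ip_of_eq h1.self_of_nhds,
        ip_of_eq h1.self_of_nhds, (ww_congr (s2 x k)).self_of_nhds]
    · rw [sv_zero k, sv_zero k, zero_mul, zero_mul]
  rw [e, ← integral_g hg s1]
  refine ⟨(cont_sv (met_g hg s1) hφ hζ c).mul (sm_w hg s1).cont,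
    stab_g hg hφ s1 hζ hc fun x hx => ?_⟩
  have h1 := s2 x (subset_tsupport _ hx)
  rw [dn_congr h1 (hw_congr h1), (hw_congr h1).self_of_nhds]
  exact h x hx

theorem smooth_mul_of (hχ : Smooth χ) (h : ∀ x ∈ tsupport χ, CAt ∞ v x) :
    Smooth fun x => χ x * v x := cd_of_cAt le_rfl fun x => by
  by_cases k : x ∈ tsupport χ
  · exact CAt.mul (CD.contDiffAt hχ) (h x k)
  · exact (cAt_const (c := 0)).congr_of_eventuallyEq
      ((notMem_tsupport_iff_eventuallyEq.1 k).mono fun z hz => by simp [hz])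

/-- a partition of unity which is subordinate to a family of sets -/
theorem pou_sub {κ : Type} [Nonempty κ] {K : Set M} (hK : IsCompact K) (W : κ → Set M)
    (h : ∀ x ∈ K, ∃ j, W j ∈ 𝓝 x) : ∃ (t : Finset M) (σ : M → κ) (χ : M → M → ℝ),
      (∀ p, Smooth (χ p)) ∧ (∀ p ∈ t, HasCompactSupport (χ p) ∧ tsupport (χ p) ⊆ W (σ p)) ∧
      ∀ x ∈ K, ∑ p ∈ t, χ p x = 1 := by
  classical
  choose! σ hσ using h
  obtain ⟨t, χ, h1, h2, -, -, h3⟩ := exists_pou hK
    (fun p => if p ∈ K then W (σ p) ∩ (ch p).symm '' closedBall (pt p) 1 else Kᶜ) fun p => by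
      split_ifs with k
      · exact inter_mem (hσ p k) (image_nhds p (closedBall_mem_nhds _ one_pos))
      · exact hK.isClosed.isOpen_compl.mem_nhds k
  refine ⟨t.filter (· ∈ K), σ, χ, h1, fun p hp => ?_, fun x hx => ?_⟩
  · have h4 := h2 p
    rw [if_pos (Finset.mem_filter.1 hp).2] at h4
    exact ⟨(cpt_image (ch_mem p) (isCompact_closedBall _ _)).of_isClosed_subset
      (isClosed_tsupport _) (h4.trans inter_subset_right), h4.trans inter_subset_left⟩
  · rw [← (h3 x hx).self_of_nhds]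
    refine Finset.sum_filter_of_ne fun p _ k => by_contra fun q => ?_
    have h4 := h2 p (subset_tsupport _ k)
    rw [if_neg q] at h4
    exact h4 hx

end Gen

variable {I : Type} {k : ℕ} {X : Type} [Mf0 (k + 1) X] {Z : Type} [Mf0 k Z] {e : Ch (k + 1) X}
  {π : E (k + 1) → E k} {x : E (k + 1)} {g : Fld (k + 1) X} {a f ψ : X → ℝ} {l : Filter I}
  {u : I → X → ℝ} {S r : ℝ} {φ : E k → E (k + 1)} {y₀ : E k} {Ψ : I → E (k + 1) → E (k + 1)}
  {V B : Set X} {ι : Z → X} {c : Ch k Z}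

theorem tendsto_fl (l : Filter I) : Tendsto some l (fl l) := le_sup_left

namespace Dt

variable (h : Dt l u S ι e φ π y₀ r Ψ V c) (hι : Sub ι B) (hx : x ∈ Cy (closedBall y₀ r) S)
include h hx

theorem lim_f (a : X → ℝ) : (fun y => a (e.symm (fam Ψ φ none y))) =ᶠ[𝓝 x]
    fun y => loc c (fun z => a (ι z)) (ini y) :=
  (sm_ini.continuous.continuousAt.eventually (h.eq _ hx.1)).mono fun y q => by
    simp only [loc, q, fam]

theorem cv_f (ha : Smooth a) : Cv (fl l) none 3 (fun i y => a (e.symm (fam Ψ φ i y))) x :=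
  (h.rg.cvM hx).comp (F := loc e a) (.of_forall fun _ => (ha e h.rg.mem).contDiffAt)

theorem cv_T {T : Fld (k + 1) X} (hT : SmT T) :
    CvT (fl l) none 2 (fun i => pb (fam Ψ φ i) (rep e T)) x :=
  (h.rg.cvM hx).pb fun b c => .of_forall fun _ => (hT e h.rg.mem b c).contDiffAt

theorem cv_g (hg : Met g) : CvT (fl l) none 2 (fun i => gp (rep e g) (fam Ψ φ i)) x :=
  ⟨le_sup_right, fun b c => ((h.cv_T hx hg.sm).2 b c).add (P366P.cv_const le_sup_right _ _)⟩

include hι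

theorem lim_T (T : Fld (k + 1) X) :
    pb (fam Ψ φ none) (rep e T) =ᶠ[𝓝 x] pb ini (rep c (pull ι T)) :=
  (sm_ini.continuous.continuousAt.eventually (h.eq _ hx.1).eventually_nhds).mono fun y q => by
    refine (pb_comp (h.rg.smφ.differentiable (by simp) _)
      (sm_ini.differentiable (by simp) _)).trans (pb_congr .rfl ?_)
    rw [rep_pull h.mem (hι.sm _), pl_congr (Y := loc c ι) (Y' := fun w => e.symm (φ w)) q rfl,
      pl_symm_comp h.rg.mem h.rg.smφ.contDiffAt]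

theorem lim_g (g : Fld (k + 1) X) :
    gp (rep e g) (fam Ψ φ none) =ᶠ[𝓝 x] prd (rep c (pull ι g)) :=
  (h.lim_T hι hx g).mono fun y q => by
    funext i j
    simp only [gp, prd, q]

theorem det_pos (hg : Met g) : 0 < (Stmt.mat (gp (rep e g) (fam Ψ φ none)) x).det := by
  rw [Stmt.mat, (h.lim_g hι hx g).self_of_nhds]
  exact (P366P.det_prd _ x).symm ▸ (((hι.met hg).rep h.mem).pos _).det_pos

end Dt

theorem mcl : MCL := by
  intro I l _ k X _ Z _ g ι B u S Λ hg hι hS hs hr hΛ Q hQ z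
  obtain ⟨O, hO, hΛ⟩ := hΛ z
  obtain ⟨e, φ, π, y₀, r, Ψ, V, c, h, -, -, rfl⟩ := (hr z).dt hι hO
  have hx : snc y₀ 0 ∈ Cy (closedBall y₀ r) S :=
    ⟨by rw [ini_snc]; exact mem_closedBall_self h.rg.r0.le, by rwa [snc_last, abs_zero]⟩
  have t0 : Tendsto (fun i => (some i, snc y₀ 0)) l (fl l ×ˢ 𝓝 (snc y₀ 0)) :=
    (tendsto_fl l).prodMk tendsto_const_nhds
  have d0 := h.det_pos hι hx hg
  have g0 := h.cv_g hx hg
  have t1 := ((g0.pred.lap d0 (h.cv_f hx hQ).pred).sub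
    ((g0.tr d0 (h.cv_T hx (hg.sm_hess hQ))).mono (Nat.zero_le _))).b0.cv.comp t0
  have γ0 := (hι.met hg).rep h.mem
  have e0 : ι (c.symm y₀) = e.symm (φ y₀) := (h.eq _ (mem_closedBall_self h.rg.r0.le)).self_of_nhds
  have t2 : Tendsto (fun i => e.symm (Ψ i (snc y₀ 0))) l (𝓝 (ι (c.symm y₀))) := by
    have := ((cont_symm h.rg.mem).tendsto _).comp ((h.rg.cvM hx).cv.comp t0)
    simp only [fam, ini_snc] at this
    rwa [e0]
  simp only [P366Z.lap_of_ev (h.lim_g hι hx g), P366Z.lap_congr (h.lim_f hx Q), P366P.lap_prd γ0,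
    Stmt.tr, P366Z.up_of_eq (h.lim_g hι hx g).self_of_nhds,
    (h.lim_T hι hx (hess g Q)).self_of_nhds] at t1
  have e1 := P366P.tr_prd γ0 (rep c (pull ι (hess g Q))) (snc y₀ 0)
  rw [Stmt.tr] at e1
  rw [e1, ini_snc, tr_rep h.mem, lap_rep (hι.met hg) h.mem
    ((smooth_comp hι.sm hQ).c2 _)] at t1
  refine le_of_tendsto_of_tendsto t1.abs
    ((((hg.cont_gn hQ.one).tendsto _).comp t2).const_mul Λ) ?_
  filter_upwards [h.rg.pt hs, hΛ, t2.eventually hO] with i a b q
  have h1 := (a _ hx).mc hg hQ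
  have h2 := b _ q (by rw [(a _ hx).sm.self_of_nhds.2]; exact hx.2)
  refine (congrArg abs h1).trans_le ?_
  rw [abs_neg, abs_mul]
  exact mul_le_mul h2 (abs_dn_le hg _ _ _) (abs_nonneg _) ((abs_nonneg _).trans h2)

/-- the test functions -/
theorem Slab.test {u : X → ℝ} (h : Slab u S) {χ : ℝ → ℝ} (hχ : ContDiff ℝ ∞ χ)
    (h0 : ∀ s, χ s ≠ 0 → |s| ≤ S) : (Smooth fun x => χ (u x)) ∧
      tsupport (fun x => χ (u x)) ⊆ {x | |u x| ≤ S} := by
  refine ⟨cd_of_cAt le_rfl fun x => ?_, closure_minimal (fun x hx => h0 _ hx) h.cl⟩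
  by_cases q : |u x| ≤ S
  · exact hχ.contDiffAt.compM (h.sm x q).self_of_nhds
  · exact (cAt_const (c := 0)).congr_of_eventuallyEq (eventually_of_mem
      (h.cl.isOpen_compl.mem_nhds q) fun z hz => by_contra fun w => hz (h0 _ w))

theorem Dt.int (h : Dt l u S ι e φ π y₀ r Ψ V c) {γ : Fld k Z} (hγ : Met γ) (F : Z → ℝ)
    (h0 : ∀ x, ψ x ≠ 0 → x ∈ V) : ∫ y in closedBall y₀ r, P366Z.dens (rep c γ) y *
      (ψ (ι (c.symm y)) * F (c.symm y)) = ∫ z, ψ (ι z) * F z ∂vol γ :=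
  (integral_image hγ h.mem measurableSet_closedBall fun z => ψ (ι z) * F z).symm.trans
    (setIntegral_eq_integral_of_forall_compl_eq_zero fun z hz =>
      mul_eq_zero_of_left (by_contra fun q => hz (h.pre z (h0 _ q))) _)

/-- the limit of the localised second variation -/
theorem Dt.lim (h : Dt l u S ι e φ π y₀ r Ψ V c) (hι : Sub ι B) (hg : Met g) (hf : Smooth f)
    (ha : Smooth a) (hψ : Smooth ψ) (h0 : ∀ x, ψ x ≠ 0 → x ∈ V) (hs : ∀ᶠ i in l, Slab (u i) S)
    {χ : ℝ → ℝ} (hχ : ContDiff ℝ ∞ χ) (h1 : ∀ s, χ s ≠ 0 → |s| ≤ S) (b : ℝ) :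
    Tendsto (fun i => ∫ x, ψ x * (sv (gb g 1 (u i)) f (fun y => a y * χ (u i y)) b x *
      ww g 1 (u i) x) ∂vol g) l
      (𝓝 ((∫ z, ψ (ι z) * sv (pull ι g) (fun z => f (ι z)) (fun z => a (ι z)) b z
        ∂vol (pull ι g)) * (∫ s in Icc (-S) S, χ s ^ 2) +
        (∫ z, ψ (ι z) * (2 * Real.exp (f (ι z)) * a (ι z) ^ 2) ∂vol (pull ι g)) *
          ∫ s in Icc (-S) S, deriv χ s ^ 2)) := by
  have hK := P366P.cpt_Cy (isCompact_closedBall y₀ r) S
  have hγ := hι.met hg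
  have γ0 := hγ.rep h.mem
  have hl : ContDiff ℝ ∞ fun y : E (k + 1) => χ (y (last k)) := hχ.comp (by fun_prop)
  set Ξ : Option I → E (k + 1) → ℝ := fun i y => a (e.symm (fam Ψ φ i y)) * χ (y (last k)) with hΞ
  set G : Option I → Stmt.Field (k + 1) := fun i => gp (rep e g) (fam Ψ φ i) with hG
  have t1 := (P366P.tendsto_setIntegral (U := fun i y => ψ (e.symm (fam Ψ φ i y)) *
      (Real.exp (f (e.symm (fam Ψ φ i y))) * (2 * P366Z.ip (G i) (Ξ i) (Ξ i) y +
        (RfE (G i) (fun y => f (e.symm (fam Ψ φ i y))) y - b) * Ξ i y ^ 2) * P366Z.dens (G i) y))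
      hK le_sup_right fun x hx => by
    have d0 := h.det_pos hι hx hg
    have g0 := h.cv_g hx hg
    have f0 := h.cv_f hx hf
    have x0 : Cv (fl l) none 3 Ξ x :=
      (h.cv_f hx ha).mul (P366P.cv_fix le_sup_right 3 (.of_forall fun _ => hl.contDiffAt))
    exact (((h.cv_f hx hψ).mono (Nat.zero_le _)).mul ((((f0.mono (Nat.zero_le _)).exp).mul
      (((g0.pred.pred.ip d0 x0.pred.pred x0.pred.pred).const_mul 2).add
        (((g0.RfE d0 f0.pred).sub (P366P.cv_const le_sup_right _ b)).mul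
          ((x0.mono (Nat.zero_le _)).pow 2)))).mul (g0.pred.pred.dens d0))).b0).comp (tendsto_fl l)
  have c0 : ∀ {F : Z → ℝ}, Continuous F → ∀ {w : ℝ → ℝ}, Continuous w → IntegrableOn
      (fun x => P366Z.dens (rep c (pull ι g)) (ini x) * (ψ (ι (c.symm (ini x))) *
        F (c.symm (ini x))) * w (x (last k))) (Cy (closedBall y₀ r) S) := fun hF _ hw =>
    ContinuousOn.integrableOn_compact hK (((γ0.sm_dens.cont.mul
      (((smooth_comp hι.sm hψ).cont.mul hF).comp (cont_symm h.mem))).comp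
        sm_ini.continuous).mul (hw.comp (by fun_prop))).continuousOn
  rw [← h.int hγ _ h0, ← h.int hγ _ h0, ← P366P.integral_Cy, ← P366P.integral_Cy, ← integral_add
    (c0 (cont_sv hγ (smooth_comp hι.sm hf) (smooth_comp hι.sm ha) b) (hχ.continuous.fun_pow 2))
    (c0 (((smooth_comp hι.sm hf).cont.rexp.const_mul 2).fun_mul
      ((smooth_comp hι.sm ha).cont.fun_pow 2)) ((hχ.continuous_deriv (by simp)).fun_pow 2))]
  convert t1.congr' ?_ using 2
  · refine setIntegral_congr_fun hK.measurableSet fun x hx => ?_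
    have e1 := h.lim_g hι hx g
    have e2 : Ξ none =ᶠ[𝓝 x] fun y => loc c (fun z => a (ι z)) (ini y) * χ (y (last k)) :=
      (h.lim_f hx a).mono fun y q => by simp only [hΞ, q]
    have d1 := (smooth_comp hι.sm ha).diff (c.symm (ini x))
    have r1 : RfE (G none) (fun y => f (e.symm (fam Ψ φ none y))) x = _ :=
      (RfE_congr e1 (h.lim_f hx f)).trans ((P366P.RfE_prd γ0 _ x).trans
        (Rf_rep h.mem hγ ((smooth_comp hι.sm hf).c2 _)))
    have r2 : P366Z.ip (G none) (Ξ none) (Ξ none) x = _ :=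
      (P366Z.ip_of_eq e1.self_of_nhds _ _).trans ((P366Z.ip_congr e2 e2).trans
        (P366P.ip_prd_mul γ0 (d1.lc h.mem) (hχ.differentiable (by simp) _).hasDerivAt))
    have r3 : P366Z.dens (G none) x = _ :=
      (P366Z.dens_of_eq e1.self_of_nhds).trans (congrFun (P366P.dens_prd _) x)
    rw [ip_rep h.mem _ d1 d1] at r2
    simp only [r1, r2, r3, e2.self_of_nhds, (h.lim_f hx f).self_of_nhds,
      (h.lim_f hx ψ).self_of_nhds, sv, loc]
    ring
  · filter_upwards [h.rg.pt hs, h.rg.cov, hs] with i p q s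
    obtain ⟨s1, s2⟩ := s.test hχ h1
    rw [← setIntegral_eq_integral_of_forall_compl_eq_zero
      (s := e.symm '' (Ψ i '' Cy (closedBall y₀ r) S)) fun x hx => ?_,
      integral_param hg h.rg.mem hK.measurableSet
        (fun x hx => (p x hx).sm.self_of_nhds.1.differentiableAt (by simp)) (inj_of_pt p)]
    · refine setIntegral_congr_fun hK.measurableSet fun x hx => ?_
      have e1 := (p x hx).ip g (a := fun y => a y * χ (u i y)) (A := Ξ (some i))
        ((ha.diff _).mul (s1.diff _)) ((p x hx).sm.mono fun y w => by simp only [hΞ, fam, w.2])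
      simp only [hG, fam, e1, (p x hx).Rf hg hf, (p x hx).dens hg, sv]
      simp only [hΞ, fam, (p x hx).sm.self_of_nhds.2]
      ring
    · by_cases w : ψ x = 0
      · rw [w, zero_mul]
      · rw [sv_zero fun w' => hx (q x (h0 x w) (s2 (tsupport_mul_subset_right w'))), zero_mul,
          mul_zero]

theorem exists_chi : ∃ C : ℝ, ∀ S > (0 : ℝ), ∃ χ : ℝ → ℝ, ContDiff ℝ ∞ χ ∧ (∀ s, χ s ≠ 0 → |s| ≤ S) ∧
    (0 < ∫ s in Icc (-S) S, χ s ^ 2) ∧
      2 * ∫ s in Icc (-S) S, deriv χ s ^ 2 ≤ C / S ^ 2 * ∫ s in Icc (-S) S, χ s ^ 2 := by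
  set w : ℝ → ℝ := fun s => expNegInvGlue (1 - s ^ 2) with hw
  have w0 : ContDiff ℝ ∞ w := expNegInvGlue.contDiff.comp (contDiff_const.sub (contDiff_id.pow 2))
  have A0 : 0 < ∫ s in (-1 : ℝ)..1, w s ^ 2 :=
    intervalIntegral.intervalIntegral_pos_of_pos_on
      ((w0.continuous.fun_pow 2).intervalIntegrable _ _) (fun s hs => pow_pos
        (expNegInvGlue.pos_of_pos (by nlinarith [hs.1, hs.2])) 2) (by norm_num)
  refine ⟨2 * (∫ s in (-1 : ℝ)..1, deriv w s ^ 2) / ∫ s in (-1 : ℝ)..1, w s ^ 2, fun S S0 => ?_⟩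
  have sc : ∀ F : ℝ → ℝ, ∫ s in Icc (-S) S, F (s / S) = S * ∫ s in (-1 : ℝ)..1, F s := fun F => by
    rw [integral_Icc_eq_integral_Ioc, ← intervalIntegral.integral_of_le (by linarith),
      intervalIntegral.integral_comp_div _ S0.ne', neg_div, div_self S0.ne', smul_eq_mul]
  have d : ∀ s, deriv (fun s => w (s / S)) s ^ 2 = (S ^ 2)⁻¹ * deriv w (s / S) ^ 2 := fun s => by
    rw [show deriv (fun s => w (s / S)) s = deriv w (s / S) * (1 / S) from
      ((w0.differentiable (by simp) _).hasDerivAt.comp s ((hasDerivAt_id s).div_const S)).deriv]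
    field_simp
  refine ⟨fun s => w (s / S), w0.comp (contDiff_id.div_const S), fun s hs => ?_, ?_, ?_⟩
  · refine by_contra fun q => hs (expNegInvGlue.zero_of_nonpos ?_)
    rw [div_pow, sub_nonpos, one_le_div (by positivity), ← sq_abs s]
    exact pow_le_pow_left₀ S0.le (not_le.1 q).le 2
  · rw [sc fun s => w s ^ 2]; positivity
  · simp only [d]
    rw [integral_const_mul, sc fun s => w s ^ 2, sc fun s => deriv w s ^ 2]
    exact le_of_eq (by field_simp)

theorem stl : STL := by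
  obtain ⟨C, hC⟩ := exists_chi
  refine ⟨C, fun I l _ k X _ Z _ g f ι B u S b hg hf hι S0 hs hr hb ζ hζ hc _ => ?_⟩
  obtain ⟨χ, x1, x2, x3, x4⟩ := hC S S0
  choose O hO hb using hb
  choose e φ π y₀ r Ψ V c h hV hVO _ using fun z => (hr z).dt hι (hO z)
  have hγ := hι.met hg
  have ci : Continuous ι := hι.emb.continuous
  obtain ⟨t, σ, w, w1, w2, w3⟩ := pou_sub (hc.isCompact.image ci) (fun z => interior (V z)) (by
    rintro _ ⟨z, -, rfl⟩
    exact ⟨z, interior_mem_nhds.2 (hV z)⟩)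
  set a : X → ℝ := fun x => ∑ p ∈ t, w p x * loc (c (σ p)) ζ (π (σ p) (e (σ p) x)) with ha
  have a1 : Smooth a := CD.sum fun p hp => smooth_mul_of (w1 p) fun x hx =>
    (hζ _ (h _).mem).contDiffAt.compM ((h _).rg.smπ.contDiffAt.compM
      (cAt_mx (mx_of_At (h _).rg.mem) ((h _).src (interior_subset ((w2 p hp).2 hx)))))
  have a2 : ∀ z, a (ι z) = ζ z := fun z => by
    have h1 : a (ι z) = (∑ p ∈ t, w p (ι z)) * ζ z := by
      rw [Finset.sum_mul]
      refine Finset.sum_congr rfl fun p hp => ?_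
      by_cases q : w p (ι z) = 0
      · rw [q, zero_mul, zero_mul]
      · obtain ⟨y, hy, rfl⟩ := (h _).pre z (interior_subset ((w2 p hp).2 (subset_tsupport _ q)))
        rw [((h _).eq y hy).self_of_nhds, right_inv (h _).rg.mem, (h _).rg.inv, loc]
    by_cases q : z ∈ tsupport ζ
    · rw [h1, w3 _ ⟨z, q, rfl⟩, one_mul]
    · rw [h1, image_eq_zero_of_notMem_tsupport q, mul_zero]
  have hK : IsCompact (⋃ p ∈ t, tsupport (w p)) := t.isCompact_biUnion fun p hp => (w2 p hp).1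
  have a3 : tsupport a ⊆ ⋃ p ∈ t, tsupport (w p) := closure_minimal (fun x hx => by
    obtain ⟨p, hp, q⟩ := Finset.exists_ne_zero_of_sum_ne_zero hx
    exact mem_biUnion hp (subset_tsupport _ (left_ne_zero_of_mul q))) hK.isClosed
  have a4 : HasCompactSupport a := hK.of_isClosed_subset (isClosed_tsupport _) a3
  obtain ⟨t', σ', ψ, p1, p2, p3⟩ := pou_sub (hK.union (hc.isCompact.image ci))
    (fun z => interior (V z)) (by
      rintro x (hx | ⟨z, -, rfl⟩)
      · obtain ⟨p, hp, q⟩ := mem_iUnion₂.1 hx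
        exact ⟨σ p, isOpen_interior.mem_nhds ((w2 p hp).2 q)⟩
      · exact ⟨z, interior_mem_nhds.2 (hV z)⟩)
  have t1 := tendsto_finsetSum t' fun p hp => (h (σ' p)).lim hι hg hf a1 (p1 p)
    (fun x hx => interior_subset ((p2 p hp).2 (subset_tsupport _ hx))) hs x1 x2 b
  have f1 := smooth_comp hι.sm hf
  have s0 : ∀ {F : Z → ℝ}, Continuous F → (∀ z ∉ tsupport ζ, F z = 0) →
      ∑ p ∈ t', ∫ z, ψ p (ι z) * F z ∂vol (pull ι g) = ∫ z, F z ∂vol (pull ι g) :=
    fun {F} hF h0 => by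
      rw [← integral_finsetSum _ fun p _ => hγ.integrable_supp ((smooth_comp hι.sm (p1 p)).cont.fun_mul hF)
        (supp_mul_left (HasCompactSupport.intro hc h0))]
      refine integral_congr_ae (.of_forall fun z => ?_)
      by_cases q : z ∈ tsupport ζ
      · simp only [← Finset.sum_mul, p3 _ (.inr ⟨z, q, rfl⟩), one_mul]
      · simp [h0 z q]
  have z0 : ∀ z ∉ tsupport ζ, 2 * Real.exp (f (ι z)) * ζ z ^ 2 = 0 := fun z q => by
    simp [image_eq_zero_of_notMem_tsupport q]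
  have c2 : Continuous fun z => 2 * Real.exp (f (ι z)) * ζ z ^ 2 :=
    (f1.cont.rexp.const_mul 2).fun_mul (hζ.cont.fun_pow 2)
  simp only [a2, Finset.sum_add_distrib, ← Finset.sum_mul] at t1
  rw [s0 (cont_sv hγ f1 hζ b) fun z q => sv_zero q b, s0 c2 z0] at t1
  have t2 := ge_of_tendsto t1 (b := 0) (by
    filter_upwards [hs, (eventually_all_finset t).2 fun p _ => hb (σ p)] with i q1 q2
    obtain ⟨s1, s2⟩ := q1.test x1 x2
    obtain ⟨k1, k2⟩ := stab_loc (u := u i) hg hf (CD.mul a1 s1) (supp_mul_right a4)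
      (fun x hx => q1.sm x (s2 (tsupport_mul_subset_right hx))) (c := b) fun x hx => by
        obtain ⟨p, hp, q⟩ := mem_iUnion₂.1 (a3 (subset_tsupport _ (left_ne_zero_of_mul hx)))
        exact q2 p hp x (hVO _ (interior_subset ((w2 p hp).2 q))) (x2 _ (right_ne_zero_of_mul hx))
    rw [← integral_finsetSum _ fun p hp => hg.integrable_supp ((p1 p).cont.fun_mul k1)
      (supp_mul_right (p2 p hp).1)]
    refine k2.trans_eq (integral_congr_ae (.of_forall fun x => ?_))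
    by_cases q : x ∈ tsupport fun y => a y * χ (u i y)
    · simp only [← Finset.sum_mul, p3 _ (.inl (a3 (tsupport_mul_subset_left q))), one_mul]
    · simp [sv_zero q])
  have i0 : 0 ≤ ∫ z, 2 * Real.exp (f (ι z)) * ζ z ^ 2 ∂vol (pull ι g) :=
    integral_nonneg fun z => by positivity
  have e1 : ∫ z, sv (pull ι g) (fun z => f (ι z)) ζ (b - C / S ^ 2) z ∂vol (pull ι g) =
      (∫ z, sv (pull ι g) (fun z => f (ι z)) ζ b z ∂vol (pull ι g)) +
        C / S ^ 2 / 2 * ∫ z, 2 * Real.exp (f (ι z)) * ζ z ^ 2 ∂vol (pull ι g) := by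
    rw [← integral_const_mul, ← integral_add (hγ.integrable_supp (cont_sv hγ f1 hζ b)
      (HasCompactSupport.intro hc fun z q => sv_zero q b))
      ((hγ.integrable_supp c2 (HasCompactSupport.intro hc z0)).const_mul _)]
    exact integral_congr_ae (.of_forall fun z => by simp only [sv]; ring)
  refine le_of_le_of_eq ?_ e1.symm
  refine nonneg_of_mul_nonneg_left ?_ x3
  nlinarith [mul_le_mul_of_nonneg_left x4 i0]

end Vale.Agent.P366M.Gr
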