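import Vale.Agent.P366P.MJac
import Vale.Agent.P366M.Map2
import Vale.Agent.P366M.Max

/-!
# P366P: graphs over a manifold; invariance, extrema
-/

open MeasureTheory Metric Filter Topology Set
open scoped ContDiff ENNReal
open Vale.Agent.P366 hiding E omega
open Vale.Agent.P366.Stmt Vale.Agent.P366Z
open Vale.Agent.P366D (IsoM)
open Vale.Agent.P366M.Y.C Vale.Agent.P366M.Y.C.GbH

noncomputable section

namespace Vale.Agent.P366M.Gr

variable {n : ℕ} {M : Type} [Mf0 n M] {x : M} {g : Fld n M} {φ u u' v ρ : M → ℝ}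

theorem ww_one (g : Fld n M) (u : M → ℝ) (x : M) : ww g 1 u x = √(1 + ip g u u x) := by
  simp [ww]

theorem dAt_w (hg : Met g) (hu : CAt 2 u x) : DAt (ww g 1 u) x := by
  rw [funext (ww_one g u)]
  exact ((hg.diff_ip hu hu).const_add 1).sqrt (by linarith [hg.ip_nonneg u x])

theorem dV_nv (hg : Met g) (hu : CAt 2 u x) : DV (nv g u) x :=
  (hg.diff_gr hu).div (dAt_w hg hu) (w_pos hg u x).ne'

theorem hw_crit (hg : Met g) (hu : CAt 2 u x) (h : ∀ i, pd i u x = 0) :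
    hw g φ u x = lap g u x := by
  have h1 : nv g u = fun i y => (ww g 1 u y)⁻¹ * gr g u i y := by
    funext i y; rw [nv, div_eq_inv_mul]
  rw [hw, h1, hg.dv_smul ((dAt_w hg hu).inv (w_pos hg u x).ne') (hg.diff_gr hu), ← lap_eq_dv g hu]
  simp [dn, ww, ip, gr, h]

theorem hw_max (hg : Met g) (hu : CAt 2 u x) (h : IsLocalMax u x) : hw g φ u x ≤ 0 :=
  (hw_crit hg hu (pd_of_isLocalMax h)).trans_le (hg.lap_nonpos hu h)

theorem hw_min (hg : Met g) (hu : CAt 2 u x) (h : IsLocalMin u x) : 0 ≤ hw g φ u x :=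
  (hg.lap_nonneg hu h).trans_eq (hw_crit hg hu (pd_of_isLocalMin h)).symm

/-- the weight as a factor -/
theorem dv_weight (hg : Met g) (hρ : DAt ρ x) (h0 : 0 < ρ x) (hu : CAt 2 u x) :
    dv g (fun i y => ρ y * gr g u i y / √(1 + ip g u u y)) x =
      ρ x * hw g (fun y => Real.log (ρ y)) u x := by
  have h1 : (fun i y => ρ y * gr g u i y / √(1 + ip g u u y)) = fun i y => ρ y * nv g u i y := by
    funext i y; rw [nv, ww_one, mul_div_assoc]
  rw [h1, hg.dv_smul hρ (dV_nv hg hu), hw, dn_eq hg, mul_add, Finset.mul_sum]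
  congr 1
  exact Finset.sum_congr rfl fun i _ => by rw [pd_log hρ h0.ne']; field_simp

/-! ### functions with the same or the opposite differential -/

theorem ww_pd {s : ℝ} (hs : s * s = 1) (h : ∀ i, pd i u x = s * pd i u' x) :
    ww g 1 u x = ww g 1 u' x := by rw [ww_one, ww_one, ip_of_pd h h, hs, one_mul]

theorem nv_pd {s : ℝ} (hs : s * s = 1) (h : ∀ i, pd i u x = s * pd i u' x) (i : Fin n) :
    nv g u i x = s * nv g u' i x := by
  rw [nv, nv, ww_pd hs h, gr, gr, ← mul_div_assoc, Finset.mul_sum]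
  simp only [h, mul_left_comm]

theorem dn_pd {s : ℝ} (hs : s * s = 1) (h : ∀ i, pd i u x = s * pd i u' x) :
    dn g u v x = s * dn g u' v x := by
  rw [dn, dn, ww_pd hs h, ip_of_pd (t := 1) h (fun i => (one_mul _).symm), mul_one, mul_div_assoc]

theorem hw_pd {s : ℝ} (hs : s * s = 1) (h : ∀ᶠ y in 𝓝 x, ∀ i, pd i u y = s * pd i u' y) :
    hw g φ u x = s * hw g φ u' x := by
  rw [hw, hw, dn_pd hs h.self_of_nhds, dv_congr (Y := fun i y => s * nv g u' i y)
    fun i => h.mono fun y k => nv_pd hs k i, dv_const_mul, mul_add]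

theorem hw_add_const (c : ℝ) : hw g φ (fun y => u y + c) x = hw g φ u x :=
  (hw_pd (s := 1) (one_mul 1) (.of_forall fun _ i => by rw [pd_add_const, one_mul])).trans
    (one_mul _)

theorem hw_neg : hw g φ (fun y => -u y) x = -hw g φ u x :=
  (hw_pd (s := -1) (by norm_num) (.of_forall fun _ i => by rw [pd_neg, neg_one_mul])).trans
    (neg_one_mul _)

/-! ### local isometries -/

variable {Z : Type} [Mf0 n Z] {Φ : Z → M} {z : Z} {g' : Fld n Z} {φ' w w' : Z → ℝ}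

theorem ww_iso (h : IsoM Φ g g' z) (hu : DAt u (Φ z)) (e : w =ᶠ[𝓝 z] fun y => u (Φ y)) :
    ww g' 1 w z = ww g 1 u (Φ z) := by rw [ww_one, ww_one, h.ip hu hu e e]

theorem dn_iso (h : IsoM Φ g g' z) (hu : DAt u (Φ z)) (hv : DAt v (Φ z))
    (e : w =ᶠ[𝓝 z] fun y => u (Φ y)) (e' : w' =ᶠ[𝓝 z] fun y => v (Φ y)) :
    dn g' w w' z = dn g u v (Φ z) := by rw [dn, dn, ww_iso h hu e, h.ip hu hv e e']

theorem hw_iso (h : IsoM Φ g g' z) (hu : CAt 2 u (Φ z)) (hφ : DAt φ (Φ z))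
    (e : w =ᶠ[𝓝 z] fun y => u (Φ y)) (e' : φ' =ᶠ[𝓝 z] fun y => φ (Φ y)) :
    hw g' φ' w z = hw g φ u (Φ z) := by
  rw [hw, hw, dn_iso h (diff2 hu) hφ e e', h.dv_eq (dV_nv h.m hu) fun i => ?_]
  filter_upwards [h.ev, h.s.ct.eventually (ev_diff hu), e.eventuallyEq_nhds] with y a b c
  rw [nv, ww_iso a b c, a.gr_eq b c]
  simp only [pullV, nv, Finset.sum_div, mul_div_assoc]

end Vale.Agent.P366M.Gr
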