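import Vale.Agent.P366D.Map

/-!
# P366P: convergence with derivatives of families of functions

The family is indexed by `I`, the limit is the member with the index `o`, and `pure o ≤ l`.
-/

open MeasureTheory Metric Filter Topology Set
open scoped ContDiff
open Vale.Agent.P366.Stmt Vale.Agent.P366Z
open Vale.Agent.P366M (jac)
open Vale.Agent.P366D (pb RfE)

noncomputable section

namespace Vale.Agent.P366P

variable {I : Type} {l : Filter I} {o : I} {n a m : ℕ} {x : E n} {U V : I → E n → ℝ}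

theorem ev_nhds {α : Type} [TopologicalSpace α] {x : α} {P : I → α → Prop}
    (h : ∀ᶠ p in l ×ˢ 𝓝 x, P p.1 p.2) : ∀ᶠ p in l ×ˢ 𝓝 x, ∀ᶠ y in 𝓝 p.2, P p.1 y := by
  obtain ⟨pa, ha, pb, hb, H⟩ := eventually_prod_iff.1 h
  exact eventually_prod_iff.2 ⟨pa, ha, _, hb.eventually_nhds, fun h1 _ h2 =>
    h2.mono fun _ h3 => H h1 h3⟩

theorem ev_self {α : Type} [TopologicalSpace α] {x : α} {P : I × α → Prop} (ho : pure o ≤ l)
    (h : ∀ᶠ p in l ×ˢ 𝓝 x, P p) : P (o, x) := by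
  have := h.filter_mono (prod_mono ho (pure_le_nhds x))
  rwa [prod_pure_pure, eventually_pure] at this

theorem ev_lim {α : Type} [TopologicalSpace α] {x : α} {P : I → α → Prop} (ho : pure o ≤ l)
    (h : ∀ᶠ p in l ×ˢ 𝓝 x, P p.1 p.2) : ∀ᶠ y in 𝓝 x, P o y :=
  ev_self (P := fun p => ∀ᶠ y in 𝓝 p.2, P p.1 y) ho (ev_nhds h)

/-- uniformity on compact sets -/
theorem ev_cpt {α : Type} [TopologicalSpace α] {K : Set α} (hK : IsCompact K) {P : I → α → Prop}
    (h : ∀ x ∈ K, ∀ᶠ p in l ×ˢ 𝓝 x, P p.1 p.2) : ∀ᶠ i in l, ∀ x ∈ K, P i x := by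
  refine hK.induction_on (p := fun s => ∀ᶠ i in l, ∀ x ∈ s, P i x) (by simp)
    (fun _ _ hs k => k.mono fun _ q x hx => q x (hs hx))
    (fun _ _ k k' => (k.and k').mono fun _ q x hx => hx.elim (q.1 x) (q.2 x)) fun x hx => ?_
  obtain ⟨pa, ha, pb, hb, H⟩ := eventually_prod_iff.1 (h x hx)
  exact ⟨_, mem_nhdsWithin_of_mem_nhds hb, ha.mono fun _ q _ hy => H q hy⟩

/-- smooth functions which converge continuously at `x` -/
structure B0 (l : Filter I) (o : I) (U : I → E n → ℝ) (x : E n) : Prop where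
  le : pure o ≤ l
  sm : ∀ᶠ p in l ×ˢ 𝓝 x, ContDiffAt ℝ ∞ (U p.1) p.2
  cv : Tendsto (fun p : I × E n => U p.1 p.2) (l ×ˢ 𝓝 x) (𝓝 (U o x))

/-- convergence with `m` derivatives -/
def Cv (l : Filter I) (o : I) : ℕ → (I → E n → ℝ) → E n → Prop
  | 0, U, x => B0 l o U x
  | m + 1, U, x => B0 l o U x ∧ ∀ j, Cv l o m (fun i => pd j (U i)) x

theorem B0.congr (h : B0 l o U x) (e : ∀ᶠ p in l ×ˢ 𝓝 x, V p.1 p.2 = U p.1 p.2) : B0 l o V x :=
  ⟨h.le, (h.sm.and (ev_nhds (P := fun i y => V i y = U i y) e)).mono fun _ k =>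
    k.1.congr_of_eventuallyEq k.2, by
      rw [ev_self h.le e]
      exact h.cv.congr' (e.mono fun _ k => k.symm)⟩

theorem B0.diff (h : B0 l o U x) : ∀ᶠ p in l ×ˢ 𝓝 x, DifferentiableAt ℝ (U p.1) p.2 :=
  h.sm.mono fun _ k => k.differentiableAt (by simp)

theorem Cv.b0 : ∀ {m : ℕ}, Cv l o m U x → B0 l o U x
  | 0, h => h
  | _ + 1, h => h.1

theorem Cv.pd (h : Cv l o (m + 1) U x) (j : Fin n) : Cv l o m (fun i => pd j (U i)) x := h.2 j

theorem Cv.pred : ∀ {m : ℕ} {U : I → E n → ℝ}, Cv l o (m + 1) U x → Cv l o m U x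
  | 0, _, h => h.1
  | _ + 1, _, h => ⟨h.1, fun j => (h.2 j).pred⟩

theorem Cv.mono {k : ℕ} (h : Cv l o k U x) (hk : m ≤ k) : Cv l o m U x := by
  induction k, hk using Nat.le_induction with
  | base => exact h
  | succ k _ ih => exact ih h.pred

theorem Cv.congr : ∀ {m : ℕ} {U V : I → E n → ℝ}, Cv l o m U x →
    (∀ᶠ p in l ×ˢ 𝓝 x, V p.1 p.2 = U p.1 p.2) → Cv l o m V x
  | 0, _, _, h, e => B0.congr h e
  | _ + 1, U, V, h, e => ⟨h.1.congr e, fun j => (h.2 j).congr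
      ((ev_nhds (P := fun i y => V i y = U i y) e).mono fun _ k => pd_congr k j)⟩

theorem cv_const (ho : pure o ≤ l) : ∀ (m : ℕ) (c : ℝ), Cv l o m (fun _ _ => c) x
  | 0, _ => ⟨ho, .of_forall fun _ => contDiffAt_const, tendsto_const_nhds⟩
  | m + 1, c => ⟨cv_const ho 0 c, fun j =>
      (cv_const ho m 0).congr (.of_forall fun p => pd_const c j p.2)⟩

theorem Cv.add : ∀ {m : ℕ} {U V : I → E n → ℝ}, Cv l o m U x → Cv l o m V x →
    Cv l o m (fun i y => U i y + V i y) x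
  | 0, _, _, h, k => ⟨h.le, (h.sm.and k.sm).mono fun _ q => q.1.add q.2, h.cv.add k.cv⟩
  | _ + 1, _, _, h, k => ⟨Cv.add (m := 0) h.1 k.1, fun j => ((h.2 j).add (k.2 j)).congr
      ((h.1.diff.and k.1.diff).mono fun _ q => pd_add q.1 q.2 j)⟩

theorem Cv.mul : ∀ {m : ℕ} {U V : I → E n → ℝ}, Cv l o m U x → Cv l o m V x →
    Cv l o m (fun i y => U i y * V i y) x
  | 0, _, _, h, k => ⟨h.le, (h.sm.and k.sm).mono fun _ q => q.1.mul q.2, h.cv.mul k.cv⟩
  | _ + 1, _, _, h, k => ⟨Cv.mul (m := 0) h.1 k.1, fun j =>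
      (((h.2 j).mul k.pred).add (h.pred.mul (k.2 j))).congr
      ((h.1.diff.and k.1.diff).mono fun _ q => by rw [pd_mul q.1 q.2 j])⟩

theorem Cv.const_mul (h : Cv l o m U x) (c : ℝ) : Cv l o m (fun i y => c * U i y) x :=
  (cv_const h.b0.le m c).mul h

theorem Cv.sub (h : Cv l o m U x) (k : Cv l o m V x) : Cv l o m (fun i y => U i y - V i y) x :=
  (h.add (k.const_mul (-1))).congr (.of_forall fun _ => by ring)

theorem Cv.pow (h : Cv l o m U x) : ∀ k : ℕ, Cv l o m (fun i y => U i y ^ k) x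
  | 0 => (cv_const h.b0.le m 1).congr (.of_forall fun _ => pow_zero _)
  | k + 1 => ((h.pow k).mul h).congr (.of_forall fun _ => pow_succ _ _)

theorem cv_sum {κ : Type} (ho : pure o ≤ l) (s : Finset κ) {F : κ → I → E n → ℝ}
    (h : ∀ k ∈ s, Cv l o m (F k) x) : Cv l o m (fun i y => ∑ k ∈ s, F k i y) x := by
  classical
  induction s using Finset.induction_on with
  | empty => simpa using cv_const ho m 0
  | insert k s hk ih =>
    simp only [Finset.sum_insert hk]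
    exact (h k (by simp)).add (ih fun j hj => h j (by simp [hj]))

theorem cv_prod {κ : Type} (ho : pure o ≤ l) (s : Finset κ) {F : κ → I → E n → ℝ}
    (h : ∀ k ∈ s, Cv l o m (F k) x) : Cv l o m (fun i y => ∏ k ∈ s, F k i y) x := by
  classical
  induction s using Finset.induction_on with
  | empty => simpa using cv_const ho m 1
  | insert k s hk ih =>
    simp only [Finset.prod_insert hk]
    exact (h k (by simp)).mul (ih fun j hj => h j (by simp [hj]))

theorem Cv.comp1 : ∀ {m : ℕ} {φ : ℝ → ℝ}, Cv l o m U x →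
    (∀ᶠ t in 𝓝 (U o x), ContDiffAt ℝ ∞ φ t) → Cv l o m (fun i y => φ (U i y)) x
  | 0, _, h, k => ⟨h.le, (h.sm.and (h.cv.eventually k)).mono fun p q => q.2.comp p.2 q.1,
      k.self_of_nhds.continuousAt.tendsto.comp h.cv⟩
  | _ + 1, φ, h, k => ⟨Cv.comp1 (m := 0) h.1 k, fun j =>
      ((Cv.comp1 (φ := deriv φ) h.pred (k.mono fun _ q => q.derivWithin (by simp))).mul
        (h.2 j)).congr ((h.1.diff.and (h.1.cv.eventually k)).mono fun _ q =>
          pd_comp (q.2.differentiableAt (by simp)).hasDerivAt q.1 j)⟩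

theorem Cv.inv (h : Cv l o m U x) (h0 : U o x ≠ 0) : Cv l o m (fun i y => (U i y)⁻¹) x :=
  h.comp1 ((eventually_ne_nhds h0).mono fun _ k => contDiffAt_inv ℝ k)

theorem Cv.div (h : Cv l o m U x) (k : Cv l o m V x) (h0 : V o x ≠ 0) :
    Cv l o m (fun i y => U i y / V i y) x :=
  (h.mul (k.inv h0)).congr (.of_forall fun _ => div_eq_mul_inv _ _)

theorem Cv.sqrt (h : Cv l o m U x) (h0 : U o x ≠ 0) : Cv l o m (fun i y => √(U i y)) x :=
  h.comp1 ((eventually_ne_nhds h0).mono fun _ k => Real.contDiffAt_sqrt k)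

theorem Cv.exp (h : Cv l o m U x) : Cv l o m (fun i y => Real.exp (U i y)) x :=
  h.comp1 (.of_forall fun _ => Real.contDiff_exp.contDiffAt)

/-- convergence of maps -/
def CvM (l : Filter I) (o : I) (m : ℕ) (Ψ : I → E n → E a) (x : E n) : Prop :=
  pure o ≤ l ∧ ∀ b, Cv l o m (fun i y => Ψ i y b) x

variable {Ψ : I → E n → E a}

theorem CvM.sm (h : CvM l o m Ψ x) : ∀ᶠ p in l ×ˢ 𝓝 x, ContDiffAt ℝ ∞ (Ψ p.1) p.2 :=
  (eventually_all.2 fun b => (h.2 b).b0.sm).mono fun _ k => contDiffAt_euclidean.2 k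

theorem CvM.cv (h : CvM l o m Ψ x) :
    Tendsto (fun p : I × E n => Ψ p.1 p.2) (l ×ˢ 𝓝 x) (𝓝 (Ψ o x)) :=
  ((PiLp.continuous_toLp 2 _).tendsto _).comp (tendsto_pi_nhds.2 fun b => (h.2 b).b0.cv)

theorem CvM.mono {k : ℕ} (h : CvM l o k Ψ x) (hk : m ≤ k) : CvM l o m Ψ x :=
  ⟨h.1, fun b => (h.2 b).mono hk⟩

theorem CvM.jac (h : CvM l o (m + 1) Ψ x) (b : Fin a) (j : Fin n) :
    Cv l o m (fun i y => jac (Ψ i) y b j) x := (h.2 b).pd j

theorem CvM.comp : ∀ {m : ℕ} {F : E a → ℝ}, CvM l o m Ψ x →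
    (∀ᶠ t in 𝓝 (Ψ o x), ContDiffAt ℝ ∞ F t) → Cv l o m (fun i y => F (Ψ i y)) x
  | 0, _, h, k => ⟨h.1, (h.sm.and (h.cv.eventually k)).mono fun p q => q.2.comp p.2 q.1,
      k.self_of_nhds.continuousAt.tendsto.comp h.cv⟩
  | m + 1, F, h, k => ⟨CvM.comp (m := 0) (h.mono m.succ.zero_le) k, fun j =>
      (cv_sum h.1 Finset.univ fun b _ => (h.jac b j).mul (CvM.comp (F := pd b F)
        (h.mono m.le_succ) (k.mono fun _ q => contDiffAt_pd q (by simp) b))).congr
      ((h.sm.and (h.cv.eventually k)).mono fun _ q => P366M.pd_chain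
        (q.2.differentiableAt (by simp)) (q.1.differentiableAt (by simp)) j)⟩

theorem cvM_id (ho : pure o ≤ l) (m : ℕ) (x : E n) : CvM l o m (fun _ y => y) x := by
  refine ⟨ho, fun b => ?_⟩
  have h0 : B0 l o (fun _ y => y b) x := ⟨ho, .of_forall fun _ => by fun_prop,
    (show Continuous fun y : E n => y b by fun_prop).continuousAt.tendsto.comp tendsto_snd⟩
  rcases m with _ | m
  · exact h0
  · exact ⟨h0, fun j => (cv_const ho m _).congr (.of_forall fun p => pd_coord j b p.2)⟩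

/-- a fixed smooth function -/
theorem cv_fix (ho : pure o ≤ l) (m : ℕ) {F : E n → ℝ} (hF : ∀ᶠ t in 𝓝 x, ContDiffAt ℝ ∞ F t) :
    Cv l o m (fun _ => F) x := (cvM_id ho m x).comp hF

/-! ### matrices and metrics -/

theorem cv_det {k : ℕ} (ho : pure o ≤ l) {A : I → E n → Matrix (Fin k) (Fin k) ℝ}
    (h : ∀ b c, Cv l o m (fun i y => A i y b c) x) : Cv l o m (fun i y => (A i y).det) x := by
  simp only [Matrix.det_apply']
  exact cv_sum ho _ fun σ _ => (cv_prod ho _ fun b _ => h _ _).const_mul _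

theorem cv_inv {k : ℕ} (ho : pure o ≤ l) {A : I → E n → Matrix (Fin k) (Fin k) ℝ}
    (h : ∀ b c, Cv l o m (fun i y => A i y b c) x) (h0 : (A o x).det ≠ 0) (b c : Fin k) :
    Cv l o m (fun i y => (A i y)⁻¹ b c) x := by
  simp only [Matrix.inv_def, Ring.inverse_eq_inv', Matrix.smul_apply, smul_eq_mul,
    Matrix.adjugate_apply]
  refine ((cv_det ho h).inv h0).mul (cv_det ho fun d e => ?_)
  simp only [Matrix.updateRow_apply]
  split_ifs
  · exact cv_const ho m _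
  · exact h d e

/-- convergence of tensors -/
def CvT (l : Filter I) (o : I) (m : ℕ) (G : I → Field n) (x : E n) : Prop :=
  pure o ≤ l ∧ ∀ b c, Cv l o m (fun i y => G i y b c) x

variable {G T : I → Field n}

theorem CvT.mono {k : ℕ} (h : CvT l o k G x) (hk : m ≤ k) : CvT l o m G x :=
  ⟨h.1, fun b c => (h.2 b c).mono hk⟩

theorem CvT.pred (h : CvT l o (m + 1) G x) : CvT l o m G x := h.mono m.le_succ

theorem CvM.pb (h : CvM l o (m + 1) Ψ x) {F : Field a}
    (hF : ∀ b c, ∀ᶠ t in 𝓝 (Ψ o x), ContDiffAt ℝ ∞ (fun y => F y b c) t) :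
    CvT l o m (fun i => pb (Ψ i) F) x :=
  ⟨h.1, fun b c => cv_sum h.1 _ fun d _ => cv_sum h.1 _ fun e _ =>
    ((h.jac d b).mul (h.jac e c)).mul ((h.mono m.le_succ).comp (hF d e))⟩

theorem CvT.up (h : CvT l o m G x) (h0 : 0 < (mat (G o) x).det)
    (b c : Fin n) : Cv l o m (fun i => up (G i) b c) x :=
  cv_inv (A := fun i y => mat (G i) y) h.1 h.2 h0.ne' b c

theorem CvT.dens (h : CvT l o m G x) (h0 : 0 < (mat (G o) x).det)
    : Cv l o m (fun i => dens (G i)) x :=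
  (cv_det (A := fun i y => mat (G i) y) h.1 h.2).sqrt h0.ne'

theorem CvT.chr (h : CvT l o (m + 1) G x) (h0 : 0 < (mat (G o) x).det)
    (b c d : Fin n) :
    Cv l o m (fun i => chr (G i) b c d) x :=
  (cv_sum h.1 _ fun e _ => (h.pred.up h0 b e).mul
    ((((h.2 d e).pd c).add ((h.2 c e).pd d)).sub ((h.2 c d).pd e))).div (cv_const h.1 m 2)
    two_ne_zero

theorem CvT.scal (h : CvT l o (m + 2) G x) (h0 : 0 < (mat (G o) x).det)
    : Cv l o m (fun i => scal (G i)) x :=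
  cv_sum h.1 _ fun b _ => cv_sum h.1 _ fun c _ => (h.pred.pred.up h0 b c).mul
    (cv_sum h.1 _ fun d _ => (((h.chr h0 d b c).pd d).sub ((h.chr h0 d b d).pd c)).add
      (cv_sum h.1 _ fun e _ => ((h.pred.chr h0 d d e).mul (h.pred.chr h0 e b c)).sub
        ((h.pred.chr h0 d c e).mul (h.pred.chr h0 e b d))))

theorem CvT.tr (h : CvT l o m G x) (h0 : 0 < (mat (G o) x).det)
    (k : CvT l o m T x) : Cv l o m (fun i => tr (G i) (T i)) x :=
  cv_sum h.1 _ fun b _ => cv_sum h.1 _ fun c _ => (h.up h0 b c).mul (k.2 b c)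

theorem CvT.ip (h : CvT l o m G x) (h0 : 0 < (mat (G o) x).det)
    (hU : Cv l o (m + 1) U x) (hV : Cv l o (m + 1) V x) :
    Cv l o m (fun i => ip (G i) (U i) (V i)) x :=
  cv_sum h.1 _ fun b _ => cv_sum h.1 _ fun c _ => ((h.up h0 b c).mul (hU.pd b)).mul (hV.pd c)

theorem CvT.gr (h : CvT l o m G x) (h0 : 0 < (mat (G o) x).det)
    (hU : Cv l o (m + 1) U x) (b : Fin n) :
    Cv l o m (fun i => gr (G i) (U i) b) x :=
  cv_sum h.1 _ fun c _ => (h.up h0 b c).mul (hU.pd c)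

theorem CvT.dv (h : CvT l o (m + 1) G x) (h0 : 0 < (mat (G o) x).det)
    {X : I → Fin n → E n → ℝ}
    (hX : ∀ b, Cv l o (m + 1) (fun i => X i b) x) : Cv l o m (fun i => dv (G i) (X i)) x :=
  (cv_sum h.1 _ fun b _ => ((h.dens h0).mul (hX b)).pd b).div (h.pred.dens h0)
    (Real.sqrt_pos.2 h0).ne'

theorem CvT.lap (h : CvT l o (m + 1) G x) (h0 : 0 < (mat (G o) x).det)
    (hU : Cv l o (m + 2) U x) :
    Cv l o m (fun i => lap (G i) (U i)) x := h.dv h0 (h.gr h0 hU)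

theorem CvT.RfE (h : CvT l o (m + 2) G x) (h0 : 0 < (mat (G o) x).det)
    (hU : Cv l o (m + 2) U x) :
    Cv l o m (fun i => RfE (G i) (U i)) x :=
  ((h.scal h0).sub ((h.pred.lap h0 hU).const_mul 2)).sub (h.pred.pred.ip h0 hU.pred hU.pred)

/-! ### iterated derivatives, integrals -/

theorem cv_of_iter (ho : pure o ≤ l) : ∀ {m : ℕ} {U : I → E n → ℝ},
    (∀ᶠ p in l ×ˢ 𝓝 x, ContDiffAt ℝ ∞ (U p.1) p.2) → (∀ j ≤ m, Tendsto
      (fun p : I × E n => iteratedFDeriv ℝ j (U p.1) p.2) (l ×ˢ 𝓝 x)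
      (𝓝 (iteratedFDeriv ℝ j (U o) x))) → Cv l o m U x := by
  have h0 : ∀ {U : I → E n → ℝ}, (∀ᶠ p in l ×ˢ 𝓝 x, ContDiffAt ℝ ∞ (U p.1) p.2) → Tendsto
      (fun p : I × E n => iteratedFDeriv ℝ 0 (U p.1) p.2) (l ×ˢ 𝓝 x)
      (𝓝 (iteratedFDeriv ℝ 0 (U o) x)) → B0 l o U x := fun hs h =>
    ⟨ho, hs, ((continuous_eval_const fun _ => 0).tendsto _).comp h⟩
  intro m
  induction m with
  | zero => exact fun hs h => h0 hs (h 0 le_rfl)
  | succ m ih =>
    intro U hs h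
    refine ⟨h0 hs (h 0 m.succ.zero_le), fun b =>
      ih (hs.mono fun _ k => contDiffAt_pd k (by simp) b) fun j hj => ?_⟩
    let L := (ContinuousLinearMap.compContinuousMultilinearMapL ℝ (fun _ : Fin j => E n) (E n →L[ℝ] ℝ)
      ℝ (ContinuousLinearMap.apply ℝ ℝ (EuclideanSpace.single b (1 : ℝ))))
    have e : ∀ {u : E n → ℝ} {y : E n}, ContDiffAt ℝ ∞ u y → iteratedFDeriv ℝ j (pd b u) y =
        L (continuousMultilinearCurryRightEquiv' ℝ j (E n) ℝ (iteratedFDeriv ℝ (j + 1) u y)) := by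
      intro u y hu
      have h1 : pd b u =ᶠ[𝓝 y] (ContinuousLinearMap.apply ℝ ℝ (EuclideanSpace.single b (1 : ℝ))) ∘
          fderiv ℝ u := ((hu.of_le P366M.one_le_oo).eventually (by simp)).mono fun z hz =>
        pd_eq (hz.differentiableAt one_ne_zero) b
      rw [(h1.iteratedFDeriv ℝ j).self_of_nhds, ContinuousLinearMap.iteratedFDeriv_comp_left _
        (hu.fderiv_right (m := j) (by exact_mod_cast le_top)) le_rfl, iteratedFDeriv_succ_eq_comp_right]
      simp [L]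
    rw [e (ev_self ho hs)]
    exact ((L.continuous.comp (continuousMultilinearCurryRightEquiv' ℝ j (E n) ℝ).continuous).tendsto
      _ |>.comp (h (j + 1) (by omega))).congr' (hs.mono fun _ k => (e k).symm)

theorem cvM_of_iter (ho : pure o ≤ l) (hs : ∀ᶠ p in l ×ˢ 𝓝 x, ContDiffAt ℝ ∞ (Ψ p.1) p.2)
    (h : ∀ j ≤ m, Tendsto (fun p : I × E n => iteratedFDeriv ℝ j (Ψ p.1) p.2) (l ×ˢ 𝓝 x)
      (𝓝 (iteratedFDeriv ℝ j (Ψ o) x))) : CvM l o m Ψ x := by
  refine ⟨ho, fun b => cv_of_iter ho (hs.mono fun _ k => contDiffAt_euclidean.1 k b) fun j hj => ?_⟩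
  let L := (ContinuousLinearMap.compContinuousMultilinearMapL ℝ (fun _ : Fin j => E n) (E a) ℝ
    (EuclideanSpace.proj b))
  have e : ∀ {u : E n → E a} {y : E n}, ContDiffAt ℝ ∞ u y →
      iteratedFDeriv ℝ j (fun z => u z b) y = L (iteratedFDeriv ℝ j u y) := fun hu =>
    ContinuousLinearMap.iteratedFDeriv_comp_left (EuclideanSpace.proj b : E a →L[ℝ] ℝ) hu
      (by exact_mod_cast le_top)
  rw [e (ev_self ho hs)]
  exact ((L.continuous.tendsto _).comp (h j hj)).congr' (hs.mono fun _ k => (e k).symm)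

/-- uniform convergence near `x` to a continuous function -/
theorem tendsto_of_unif {α β : Type} [TopologicalSpace α] [PseudoMetricSpace β] {F : I → α → β}
    {x : α} {s : Set α} (hs : s ∈ 𝓝 x) (h : TendstoUniformlyOn F (F o) l s)
    (hc : ContinuousAt (F o) x) :
    Tendsto (fun p : I × α => F p.1 p.2) (l ×ˢ 𝓝 x) (𝓝 (F o x)) := by
  refine Metric.tendsto_nhds.2 fun ε hε => ?_
  filter_upwards [prod_mem_prod (Metric.tendstoUniformlyOn_iff.1 h _ (half_pos hε))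
    (inter_mem hs (Metric.tendsto_nhds.1 hc _ (half_pos hε)))] with p hp
  have h1 := hp.1 p.2 hp.2.1
  have h2 : dist (F o p.2) (F o x) < ε / 2 := hp.2.2
  linarith [dist_triangle_left (F p.1 p.2) (F o x) (F o p.2)]

theorem unif_of_tendsto {α : Type} [TopologicalSpace α] {F : I → α → ℝ} {K : Set α}
    (hK : IsCompact K) (ho : pure o ≤ l)
    (h : ∀ x ∈ K, Tendsto (fun p : I × α => F p.1 p.2) (l ×ˢ 𝓝 x) (𝓝 (F o x))) {ε : ℝ}
    (hε : 0 < ε) : ∀ᶠ i in l, ∀ x ∈ K, |F i x - F o x| ≤ ε := by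
  refine ev_cpt hK fun x hx => ?_
  have h1 := Metric.tendsto_nhds.1 (h x hx) _ (half_pos hε)
  have h2 := ev_lim (P := fun i y => dist (F i y) (F o x) < ε / 2) ho h1
  filter_upwards [h1, tendsto_snd.eventually h2] with p a b
  rw [← Real.dist_eq]
  linarith [dist_triangle_right (F p.1 p.2) (F o p.2) (F o x)]

/-- **convergence of the integrals over compact sets** -/
theorem tendsto_setIntegral {K : Set (E n)} (hK : IsCompact K) (ho : pure o ≤ l)
    (h : ∀ x ∈ K, B0 l o U x) : Tendsto (fun i => ∫ x in K, U i x) l (𝓝 (∫ x in K, U o x)) := by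
  have hi : ∀ᶠ i in l, IntegrableOn (U i) K :=
    (ev_cpt (P := fun i y => ContDiffAt ℝ ∞ (U i) y) hK fun x hx => (h x hx).sm).mono fun _ q =>
      ContinuousOn.integrableOn_compact hK fun x hx => (q x hx).continuousAt.continuousWithinAt
  refine Metric.tendsto_nhds.2 fun ε hε => ?_
  have v0 : 0 ≤ volume.real K := measureReal_nonneg
  have hδ : 0 < ε / (volume.real K + 1) := by positivity
  filter_upwards [hi, unif_of_tendsto hK ho (fun x hx => (h x hx).cv) hδ] with i a b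
  rw [Real.dist_eq, ← integral_sub a (hi.filter_mono ho)]
  refine (norm_setIntegral_le_of_norm_le_const (f := fun x => U i x - U o x) hK.measure_lt_top
    b).trans_lt ?_
  rw [div_mul_eq_mul_div, div_lt_iff₀ (by positivity)]
  nlinarith

end Vale.Agent.P366P
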