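import Vale.Agent.P366P.MJac
import Vale.Agent.P366P.Prod

/-!
# P366P: limits of graphs; definitions and statements
-/

open MeasureTheory Metric Filter Topology Set
open scoped ContDiff
open Vale.Agent.P366 hiding E
open Vale.Agent.P366.Stmt Vale.Agent.P366Z
open Vale.Agent.P366D (Rf Stb Mc Sub pull ini)
open Vale.Agent.P366P (Cy)
open Fin (last)

noncomputable section

namespace Vale.Agent.P366M.Gr

variable {I : Type} {k : ℕ} {X : Type} [Mf0 (k + 1) X] {Z : Type} [Mf0 k Z]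

/-- the function `u` is smooth near the closed set where `|u| ≤ S` -/
structure Slab (u : X → ℝ) (S : ℝ) : Prop where
  cl : IsClosed {x | |u x| ≤ S}
  sm : ∀ x, |u x| ≤ S → ∀ᶠ z in 𝓝 x, CAt ∞ u z

/-- in `V` the slabs are parametrised by `Ψ i` in the chart `e`, the last coordinate is the value
of `u i`, and `Ψ i` converges to `φ ∘ ini` with three derivatives -/
structure RgX (l : Filter I) (u : I → X → ℝ) (S : ℝ) (e : Ch (k + 1) X) (φ : E k → E (k + 1))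
    (π : E (k + 1) → E k) (y₀ : E k) (r : ℝ) (Ψ : I → E (k + 1) → E (k + 1)) (V : Set X) :
    Prop where
  mem : e ∈ At X
  r0 : 0 < r
  smφ : ContDiff ℝ ∞ φ
  smπ : ContDiff ℝ ∞ π
  inv : ∀ y, π (φ y) = y
  prj : ∀ i x, π (Ψ i x) = ini x
  nhd : V ∈ 𝓝 (e.symm (φ y₀))
  sm : ∀ x ∈ Cy (closedBall y₀ r) S, ∀ᶠ p in l ×ˢ 𝓝 x,
    ContDiffAt ℝ ∞ (Ψ p.1) p.2 ∧ u p.1 (e.symm (Ψ p.1 p.2)) = p.2 (last k)
  cv : ∀ x ∈ Cy (closedBall y₀ r) S, ∀ j ≤ 3,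
    Tendsto (fun p : I × E (k + 1) => iteratedFDeriv ℝ j (Ψ p.1) p.2) (l ×ˢ 𝓝 x)
      (𝓝 (iteratedFDeriv ℝ j (fun z => φ (ini z)) x))
  cov : ∀ᶠ i in l, ∀ x ∈ V, |u i x| ≤ S → x ∈ e.symm '' (Ψ i '' Cy (closedBall y₀ r) S)

/-- the slabs converge to the product of `ι` with an interval near the point `z` -/
def Rg (l : Filter I) (u : I → X → ℝ) (S : ℝ) (ι : Z → X) (z : Z) : Prop :=
  ∃ e φ π y₀ r Ψ V, RgX l u S e φ π y₀ r Ψ V ∧ ∃ c ∈ At Z, c.symm y₀ = z ∧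
    ∀ᶠ y in 𝓝 y₀, ι (c.symm y) = e.symm (φ y)

/-- **STL**: the limit is stable -/
def STL : Prop := ∃ C : ℝ, ∀ (I : Type) (l : Filter I) [l.NeBot] (k : ℕ) (X : Type) [Mf0 (k + 1) X]
  (Z : Type) [Mf0 k Z] (g : Fld (k + 1) X) (f : X → ℝ) (ι : Z → X) (B : Set X) (u : I → X → ℝ)
  (S c : ℝ), Met g → Smooth f → Sub ι B → 0 < S → (∀ᶠ i in l, Slab (u i) S) →
  (∀ z, Rg l u S ι z) → (∀ z, ∃ O ∈ 𝓝 (ι z), ∀ᶠ i in l, ∀ x ∈ O, |u i x| ≤ S →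
    c ≤ Rf g f x + hw g f (u i) x ^ 2 + 2 * dn g (u i) (hw g f (u i)) x) →
  Stb (pull ι g) (fun z => f (ι z)) univ (c - C / S ^ 2)

/-- **MCL**: the mean curvature of the limit -/
def MCL : Prop := ∀ (I : Type) (l : Filter I) [l.NeBot] (k : ℕ) (X : Type) [Mf0 (k + 1) X]
  (Z : Type) [Mf0 k Z] (g : Fld (k + 1) X) (ι : Z → X) (B : Set X) (u : I → X → ℝ) (S Λ : ℝ),
  Met g → Sub ι B → 0 ≤ S → (∀ᶠ i in l, Slab (u i) S) → (∀ z, Rg l u S ι z) →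
  (∀ z, ∃ O ∈ 𝓝 (ι z), ∀ᶠ i in l, ∀ x ∈ O, |u i x| ≤ S → |dv g (nv g (u i)) x| ≤ Λ) → Mc g ι Λ

end Vale.Agent.P366M.Gr
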