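import Vale.Agent.P366P.Jac
import Vale.Agent.P366Q.C.Gb
import Vale.Agent.P366M.Int
import Vale.Agent.P366D.Map

/-!
# P366P: graphs over a manifold; the equation of Jacobi, stability, test functions
-/

open MeasureTheory Metric Filter Topology Set
open scoped ContDiff ENNReal
open Vale.Agent.P366 Vale.Agent.P366.Stmt Vale.Agent.P366Z
open Vale.Agent.P366D (Rf Stb RfE)
open Vale.Agent.P366M.Y.C Vale.Agent.P366M.Y.C.GbH

noncomputable section

namespace Vale.Agent.P366M.Gr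

variable {n : ℕ} {M : Type} [Mf0 n M] {e : Ch n M} {x : M} {g : Fld n M} {φ u u' v w ζ ψ Q : M → ℝ}

/-- the horizontal part `∇ u / W` of the unit normal of the graph of `u` -/
def nv (g : Fld n M) (u : M → ℝ) (i : Fin n) (x : M) : ℝ := gr g u i x / ww g 1 u x

/-- the derivative of `v` in the direction of the normal -/
def dn (g : Fld n M) (u v : M → ℝ) (x : M) : ℝ := ip g u v x / ww g 1 u x

/-- the weighted mean curvature `exp (-φ) div (exp φ ∇ u / W)` -/
def hw (g : Fld n M) (φ u : M → ℝ) (x : M) : ℝ := dv g (nv g u) x + dn g u φ x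

/-- the square of the second fundamental form -/
def a2 (g : Fld n M) (u : M → ℝ) (x : M) : ℝ :=
  normSq (gb g 1 u) (fun y i j => hess g u y i j / ww g 1 u y) x

theorem sm_one : Smooth (1 : M → ℝ) := cd_const

theorem w_sq (hg : Met g) (u : M → ℝ) (x : M) : ww g 1 u x ^ 2 = 1 + ip g u u x := by
  rw [ww_sq hg]; simp

theorem w_pos (hg : Met g) (u : M → ℝ) (x : M) : 0 < ww g 1 u x :=
  one_pos.trans_le (one_le_ww hg 1 u x)

theorem gn_le_w (hg : Met g) (u : M → ℝ) (x : M) : gn g u x ≤ ww g 1 u x :=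
  le_of_sq_le_sq_of (by rw [w_sq hg, hg.gn_sq]; linarith) (w_pos hg u x).le
where le_of_sq_le_sq_of {a b : ℝ} (h : a ^ 2 ≤ b ^ 2) (hb : 0 ≤ b) : a ≤ b :=
  (abs_le_of_sq_le_sq' h hb).2

theorem w_le (hg : Met g) (u : M → ℝ) (x : M) : ww g 1 u x ≤ 1 + gn g u x :=
  (abs_le_of_sq_le_sq' (by rw [w_sq hg, ← hg.gn_sq]; nlinarith [gn_nonneg g u x])
    (by linarith [gn_nonneg g u x])).2

theorem sm_w (hg : Met g) (hu : Smooth u) : Smooth (ww g 1 u) := sm_ww hg sm_one hu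

theorem met_g (hg : Met g) (hu : Smooth u) : Met (gb g 1 u) := met_gb hg sm_one hu

theorem cv_nv (hg : Met g) (hu : Smooth u) : CV ∞ (nv g u) :=
  CV.div (hg.sm_gr hu) (sm_w hg hu) fun x => (w_pos hg u x).ne'

theorem sm_dn (hg : Met g) (hu : Smooth u) (hv : Smooth v) : Smooth (dn g u v) :=
  CD.div (hg.sm_ip hu hv) (sm_w hg hu) fun x => (w_pos hg u x).ne'

theorem sm_hw (hg : Met g) (hφ : Smooth φ) (hu : Smooth u) : Smooth (hw g φ u) :=
  CD.add (hg.sm_dv (cv_nv hg hu)) (sm_dn hg hu hφ)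

theorem sm_Rf (hg : Met g) (hφ : Smooth φ) : Smooth (Rf g φ) :=
  CD.sub (CD.sub hg.sm_scal (CD.mul cd_const (hg.sm_lap hφ))) (hg.sm_ip hφ hφ)

theorem dn_eq (hg : Met g) (u v : M → ℝ) (x : M) :
    dn g u v x = ∑ i, pd i v x * nv g u i x := by
  rw [dn, hg.ip_sy, ip_eq_gr, Finset.sum_div]
  exact Finset.sum_congr rfl fun i _ => by rw [nv, mul_div_assoc]

theorem ip_g (hg : Met g) (u v w : M → ℝ) (x : M) :
    ip (gb g 1 u) v w x = ip g v w x - dn g u v x * dn g u w x := by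
  have := (w_pos hg u x).ne'
  rw [ip_gb hg, dn, dn, Pi.one_apply]; field_simp

theorem ip_g_le (hg : Met g) (u v : M → ℝ) (x : M) : ip (gb g 1 u) v v x ≤ ip g v v x := by
  rw [ip_g hg]; nlinarith [mul_self_nonneg (dn g u v x)]

theorem dn_self (hg : Met g) (u : M → ℝ) (x : M) :
    dn g u u x = ww g 1 u x - (ww g 1 u x)⁻¹ := by
  have h0 := (w_pos hg u x).ne'
  have h1 : ip g u u x = ww g 1 u x ^ 2 - 1 := by rw [w_sq hg]; ring
  rw [dn, h1]; field_simp

theorem ip_g_u (hg : Met g) (u : M → ℝ) (x : M) :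
    ip (gb g 1 u) u u x = 1 - (ww g 1 u x ^ 2)⁻¹ := by
  have h0 := (w_pos hg u x).ne'
  have h1 : ip g u u x = ww g 1 u x ^ 2 - 1 := by rw [w_sq hg]; ring
  rw [ip_g hg, dn, h1]; field_simp; ring

theorem abs_dn_le (hg : Met g) (u v : M → ℝ) (x : M) : |dn g u v x| ≤ gn g v x := by
  have h0 := w_pos hg u x
  rw [dn, abs_div, abs_of_pos h0, div_le_iff₀ h0, mul_comm]
  exact (hg.abs_ip_le u v x).trans (mul_le_mul_of_nonneg_right (gn_le_w hg u x) (gn_nonneg _ _ _))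

theorem gn_le_dn (hg : Met g) (u : M → ℝ) (x : M) : gn g u x ≤ dn g u u x + (ww g 1 u x)⁻¹ := by
  rw [dn_self hg, sub_add_cancel]; exact gn_le_w hg u x

theorem dn_nonneg (hg : Met g) (u : M → ℝ) (x : M) : 0 ≤ dn g u u x :=
  div_nonneg (hg.ip_nonneg u x) (w_pos hg u x).le

theorem dn_lin {s t : ℝ} (h : ∀ i, pd i v x = s * pd i w x + t * pd i ζ x) :
    dn g u v x = s * dn g u w x + t * dn g u ζ x := by
  rw [dn, ip_of_pd_add' h, dn, dn]; ring

theorem dn_mul (hv : DAt v x) (hw : DAt w x) :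
    dn g u (fun y => v y * w y) x = w x * dn g u v x + v x * dn g u w x := by
  rw [dn, ip_mul_right hv hw, dn, dn]; ring

theorem dn_comp {χ : ℝ → ℝ} {a : ℝ} (hχ : HasDerivAt χ a (v x)) (hv : DAt v x) :
    dn g u (fun y => χ (v y)) x = a * dn g u v x := by
  rw [dn, ip_comp_right hχ hv, dn]; ring

/-! ### locality -/

theorem gb_congr (h : u =ᶠ[𝓝 x] u') : gb g 1 u =ᶠ[𝓝 x] gb g 1 u' :=
  h.eventuallyEq_nhds.mono fun y k => by funext i j; simp only [gb, pd_congr k]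

theorem ww_congr (h : u =ᶠ[𝓝 x] u') : ww g 1 u =ᶠ[𝓝 x] ww g 1 u' :=
  h.eventuallyEq_nhds.mono fun y k => by simp only [ww, ip_congr k k]

theorem nv_congr (h : u =ᶠ[𝓝 x] u') (i : Fin n) : nv g u i =ᶠ[𝓝 x] nv g u' i := by
  filter_upwards [ww_congr (g := g) h, gr_congr_ev (g := g) h i] with y a b
  rw [nv, nv, a, b]

theorem dn_congr {v' : M → ℝ} (h : u =ᶠ[𝓝 x] u') (k : v =ᶠ[𝓝 x] v') :
    dn g u v x = dn g u' v' x := by
  rw [dn, dn, ip_congr h k, (ww_congr h).self_of_nhds]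

theorem hw_congr (h : u =ᶠ[𝓝 x] u') : hw g φ u =ᶠ[𝓝 x] hw g φ u' :=
  h.eventuallyEq_nhds.mono fun y k => by rw [hw, hw, dv_congr (nv_congr k), dn_congr k .rfl]

/-! ### charts -/

theorem rep_g (he : e ∈ At M) (g : Fld n M) (hu : Smooth u) :
    rep e (gb g 1 u) = P366Y.C.gb (rep e g) 1 (loc e u) := rep_gb he g 1 hu.diff

theorem loc_w (he : e ∈ At M) (g : Fld n M) (hu : Smooth u) :
    loc e (ww g 1 u) = P366Y.C.ww (rep e g) 1 (loc e u) := loc_ww he g 1 hu.diff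

theorem repV_nv (he : e ∈ At M) (g : Fld n M) (hu : Smooth u) :
    repV e (nv g u) = P366P.nv (rep e g) (loc e u) := by
  unfold nv
  rw [repV_div, repV_gr he g hu.diff, loc_w he g hu]
  rfl

theorem loc_dn (he : e ∈ At M) (g : Fld n M) (hu : Smooth u) (hv : ∀ x, DAt v x) :
    loc e (dn g u v) = P366P.dn (rep e g) (loc e u) (loc e v) := by
  funext y
  rw [P366P.dn, ← loc_w he g hu, ← loc_ip he g hu.diff hv]
  rfl

theorem loc_hw (hg : Met g) (he : e ∈ At M) (hφ : Smooth φ) (hu : Smooth u) :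
    loc e (hw g φ u) = P366P.hw (rep e g) (loc e φ) (loc e u) := by
  funext y
  rw [P366P.hw_eq (hg.rep he), ← repV_nv he g hu, ← loc_dn he g hu hφ.diff,
    dv_rep hg he ((cv_nv hg hu).dv (by simp) _)]
  rfl

theorem dn_pt (g : Fld n M) (u v : M → ℝ) (x : M) :
    P366P.dn (rep (ch x) g) (loc (ch x) u) (loc (ch x) v) (pt x) = dn g u v x := by
  rw [P366P.dn, ip_pt, dn, ← ww_pt]
  rfl

theorem a2_pt (hg : Met g) (hu : Smooth u) (x : M) :
    P366P.a2 (rep (ch x) g) (loc (ch x) u) (pt x) = a2 g u x := by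
  have h1 : P366P.sf (rep (ch x) g) (loc (ch x) u) (pt x) =
      fun i j => hess g u x i j / ww g 1 u x := by
    funext i j
    rw [P366P.sf, hess_pt, ← ww_pt]
    rfl
  rw [P366P.a2, ← rep_g (ch_mem x) g hu]
  simp only [Stmt.normSq, up_pt, h1, a2, normSq]

theorem a2_nonneg (hg : Met g) (hu : Smooth u) (x : M) : 0 ≤ a2 g u x :=
  a2_pt hg hu x ▸ P366P.a2_nonneg (hg.loc' x) (hu _ (ch_mem x)) _

/-! ### the equations -/

/-- **the equation of Jacobi in the form of Schoen and Yau** -/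
theorem jac_sy (hg : Met g) (hφ : Smooth φ) (hu : Smooth u) (x : M) :
    2 * (lap (gb g 1 u) (fun y => Real.log (ww g 1 u y)) x +
        ip (gb g 1 u) φ (fun y => Real.log (ww g 1 u y)) x) =
      a2 g u x + Rf g φ x - Rf (gb g 1 u) φ x + hw g φ u x ^ 2 + 2 * dn g u (hw g φ u) x +
        2 * ip (gb g 1 u) (fun y => Real.log (ww g 1 u y)) (fun y => Real.log (ww g 1 u y)) x := by
  have he := ch_mem x
  have h1 := P366P.jac_log (hg.loc' x) (hφ _ he) (hu _ he) (pt x)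
  have h2 := P366P.gauss_w (hg.loc' x) (hφ _ he) (hu _ he) (pt x)
  have h3 : (fun y => Real.log (P366Y.C.ww (rep (ch x) g) 1 (loc (ch x) u) y)) =
      loc (ch x) fun y => Real.log (ww g 1 u y) := by rw [← loc_w he g hu]; rfl
  rw [h3, ← loc_hw hg he hφ hu, dn_pt, a2_pt hg hu, ← rep_g he g hu, ip_pt, ip_pt] at h1
  rw [← loc_hw hg he hφ hu, a2_pt hg hu, ← rep_g he g hu, loc_pt] at h2
  have h4 : RfE _ _ _ = _ := P366D.Rf_pt g φ x
  have h5 : RfE _ _ _ = _ := P366D.Rf_pt (gb g 1 u) φ x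
  unfold RfE at h4 h5
  unfold P366P.Rw at h2
  unfold lap
  linarith

theorem lap_g (hg : Met g) (hu : Smooth u) (hQ : CAt 2 Q x) :
    lap (gb g 1 u) Q x - tr (gb g 1 u) (hess g Q) x = -(dv g (nv g u) x * dn g u Q x) := by
  have he := ch_mem x
  have h1 := P366P.lap_g (hg.loc' x) (hu _ he) hQ
  have h2 := P366P.tr_g (f := loc (ch x) u) (hg.loc' x) (Stmt.hess (rep (ch x) g) (loc (ch x) Q))
    (pt x)
  have h3 := hg.lap_eq_tr hQ
  rw [dn_pt, ← repV_nv he g hu, ← rep_g he g hu] at h1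
  rw [← rep_g he g hu] at h2
  simp only [Stmt.tr, up_pt, hess_pt] at h2
  unfold tr lap at *
  unfold dv
  linarith

/-! ### integrals -/

theorem integral_g (hg : Met g) (hu : Smooth u) (F : M → ℝ) :
    ∫ x, F x ∂vol (gb g 1 u) = ∫ x, F x * ww g 1 u x ∂vol g := by
  let : Mf n M := ⟨g, hg⟩
  rw [(met_g hg hu).integral_vol]
  simp only [dens_gb hg, show ∀ x, dens g x = 1 from dens_bg, mul_one]
  rfl

theorem lintegral_g (hg : Met g) (hu : Smooth u) (F : M → ℝ≥0∞) :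
    ∫⁻ x, F x ∂vol (gb g 1 u) = ∫⁻ x, ENNReal.ofReal (ww g 1 u x) * F x ∂vol g := by
  let : Mf n M := ⟨g, hg⟩
  rw [(met_g hg hu).lintegral_vol]
  simp only [dens_gb hg, show ∀ x, dens g x = 1 from dens_bg, mul_one]
  rfl

theorem supp_mul_left {α : Type} [TopologicalSpace α] {a b : α → ℝ} (h : HasCompactSupport a) :
    HasCompactSupport fun x => b x * a x := h.mul_left (f := b)

theorem supp_mul_right {α : Type} [TopologicalSpace α] {a b : α → ℝ} (h : HasCompactSupport a) :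
    HasCompactSupport fun x => a x * b x := h.mul_right (f' := b)

theorem supp_ip (hc : HasCompactSupport ζ) (g : Fld n M) (v : M → ℝ) :
    HasCompactSupport (ip g ζ v) :=
  hc.mono' fun x hx => by_contra fun k => hx (by simp [ip, pd_zero_of_notMem k])

/-- **the first variation**, for a vector field -/
theorem test_dv (hg : Met g) (hφ : CD 1 φ) {X : Fin n → M → ℝ} (hX : CV 1 X) (hψ : LLip ψ)
    (hc : HasCompactSupport ψ) :
    ∫ x, Real.exp (φ x) * (ψ x * (dv g X x + ∑ i, pd i φ x * X i x)) ∂vol g =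
      -∫ x, Real.exp (φ x) * ∑ i, pd i ψ x * X i x ∂vol g := by
  have h1 := hg.ibp_dv' hψ hc (CV.smul hφ.exp hX)
  simp only [hg.dv_smul (hφ.differentiable one_ne_zero _).exp (hX.dv one_ne_zero _),
    pd_exp (hφ.differentiable one_ne_zero _)] at h1
  convert h1 using 3 with x x
  · simp only [mul_assoc, ← Finset.mul_sum]; ring
  · simp only [Finset.mul_sum, mul_left_comm]

/-- **the first variation** -/
theorem test_id (hg : Met g) (hφ : CD 1 φ) (hu : Smooth u) (hψ : LLip ψ)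
    (hc : HasCompactSupport ψ) : ∫ x, Real.exp (φ x) * (ψ x * hw g φ u x) ∂vol g =
      -∫ x, Real.exp (φ x) * dn g u ψ x ∂vol g := by
  simp only [hw, dn_eq hg]
  exact test_dv hg hφ ((cv_nv hg hu).of_le one_le_oo) hψ hc

theorem ip_sq_nonneg (hg : Met g) (a b : M → ℝ) (t : ℝ) (x : M) :
    0 ≤ ip g a a x + 2 * t * ip g a b x + t ^ 2 * ip g b b x := by
  have h1 := hg.abs_ip_le a b x
  have h2 : |t * ip g a b x| ≤ |t| * (gn g a x * gn g b x) := by
    rw [abs_mul]; exact mul_le_mul_of_nonneg_left h1 (abs_nonneg t)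
  rw [← hg.gn_sq, ← hg.gn_sq, ← sq_abs t]
  nlinarith [neg_abs_le (t * ip g a b x), sq_nonneg (gn g a x - |t| * gn g b x)]

theorem supp_sq (hc : HasCompactSupport ζ) : HasCompactSupport fun x => ζ x ^ 2 :=
  hc.comp_left (g := fun t => t ^ 2) (by simp)

theorem supp_stb (hc : HasCompactSupport ζ) (g : Fld n M) (a q : M → ℝ) :
    HasCompactSupport fun x => a x * (2 * ip g ζ ζ x + q x * ζ x ^ 2) :=
  supp_mul_left ((supp_mul_left (supp_ip hc g ζ)).add (supp_mul_left (supp_sq hc)))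

/-- a supersolution gives stability -/
theorem stab_of (hg : Met g) (hφ : Smooth φ) {ℓ q : M → ℝ} (hℓ : Smooth ℓ) (hq : Continuous q)
    (hζ : Smooth ζ) (hc : HasCompactSupport ζ)
    (h : ∀ x, ζ x ≠ 0 → 2 * ip g ℓ ℓ x - q x ≤ 2 * (lap g ℓ x + ip g φ ℓ x)) :
    0 ≤ ∫ x, Real.exp (φ x) * (2 * ip g ζ ζ x + q x * ζ x ^ 2) ∂vol g := by
  have h1 := test_dv hg hφ.one (hg.contDiff_gr hℓ.two) (hζ.llip.pow 2) (supp_sq hc)
  have h2 : ∀ x, ip g (fun y => ζ y ^ 2) ℓ x = 2 * ζ x * ip g ζ ℓ x := fun x => by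
    rw [ip_comp_left (φ := fun t => t ^ 2) (hasDerivAt_pow 2 _) (hζ.diff x)]; norm_num
  simp only [← ip_eq_gr, ← lap_eq_dv g (hℓ.c2 _), h2] at h1
  have c0 : Continuous fun x => Real.exp (φ x) := hφ.cont.rexp
  have c1 := hζ.cont
  have c2 := hg.cont_ip hζ.one hℓ.one
  have c3 := hg.cont_ip hζ.one hζ.one
  have c4 := (hg.cont_lap hℓ.two).add (hg.cont_ip hφ.one hℓ.one)
  have i1 := hg.integrable_supp (c0.mul ((c1.pow 2).mul c4))
    (supp_mul_left (supp_mul_right (supp_sq hc)))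
  have i2 := hg.integrable_supp (c0.mul ((c1.const_mul 2).mul c2))
    (supp_mul_left (supp_mul_left (supp_ip hc g ℓ)))
  have h3 := (integral_add i1 i2).trans (eq_neg_iff_add_eq_zero.1 h1)
  have h4 := integral_const_mul (μ := vol g) (-2) fun x => Real.exp (φ x) *
    (ζ x ^ 2 * (lap g ℓ x + ip g φ ℓ x)) + Real.exp (φ x) * (2 * ζ x * ip g ζ ℓ x)
  refine ((h4.trans (mul_eq_zero_of_right _ h3)).symm.le).trans (integral_mono
    ((i1.add i2).const_mul _) (hg.integrable_supp (c0.mul ((c3.const_mul 2).add (hq.mul (c1.pow 2))))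
      (supp_stb hc g _ q)) fun x => ?_)
  have h5 : ζ x ^ 2 * (2 * ip g ℓ ℓ x - q x) ≤ ζ x ^ 2 * (2 * (lap g ℓ x + ip g φ ℓ x)) := by
    by_cases k : ζ x = 0
    · simp [k]
    · exact mul_le_mul_of_nonneg_left (h x k) (sq_nonneg _)
  have h6 := ip_sq_nonneg hg ζ ℓ (ζ x) x
  have h7 := mul_nonneg (Real.exp_pos (φ x)).le (show 0 ≤ 2 * ip g ζ ζ x + q x * ζ x ^ 2 +
    2 * (ζ x ^ 2 * (lap g ℓ x + ip g φ ℓ x) + 2 * ζ x * ip g ζ ℓ x) by linarith)
  simp only
  linarith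

/-- **stability of the graph** -/
theorem stab_g (hg : Met g) (hφ : Smooth φ) (hu : Smooth u) (hζ : Smooth ζ)
    (hc : HasCompactSupport ζ) {c : ℝ} (h : ∀ x, ζ x ≠ 0 →
      c ≤ Rf g φ x + hw g φ u x ^ 2 + 2 * dn g u (hw g φ u) x) :
    0 ≤ ∫ x, Real.exp (φ x) * (2 * ip (gb g 1 u) ζ ζ x + (Rf (gb g 1 u) φ x - c) * ζ x ^ 2)
      ∂vol (gb g 1 u) :=
  stab_of (met_g hg hu) hφ (CD.log (sm_w hg hu) fun x => (w_pos hg u x).ne')
    ((sm_Rf (met_g hg hu) hφ).cont.sub continuous_const) hζ hc fun x hx => by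
      linarith [jac_sy hg hφ hu x, h x hx, a2_nonneg hg hu x]

/-- the normal derivative of a prescribed mean curvature `h + F (u)` with `F` increasing -/
theorem dn_cap (hg : Met g) {τ : ℝ} {h H : M → ℝ} (hτ : 0 ≤ τ)
    (e : ∀ i, pd i H x = pd i h x + τ * pd i u x) : -gn g h x ≤ dn g u H x := by
  rw [dn_lin (s := 1) (t := τ) (w := h) (ζ := u) fun i => by rw [e, one_mul]]
  linarith [neg_abs_le (dn g u h x), abs_dn_le hg u h x, mul_nonneg hτ (dn_nonneg hg u x)]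

/-! ### extension of smooth functions -/

/-- a function which is smooth near a compact set -/
theorem exists_smooth {K : Set M} (hK : IsCompact K) (h : ∀ x ∈ K, ∀ᶠ z in 𝓝 x, CAt ∞ u z) :
    ∃ u' : M → ℝ, Smooth u' ∧ ∀ x ∈ K, u' =ᶠ[𝓝 x] u := by
  obtain ⟨χ, h1, -, h2, -, h3⟩ := exists_cut hK isOpen_interior
    fun x hx => mem_interior_iff_mem_nhds.2 (h x hx)
  refine ⟨fun x => χ x * u x, cd_of_cAt le_rfl fun x => ?_, fun x hx =>
    (h3 x hx).mono fun z hz => by simp only [hz, one_mul]⟩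
  by_cases k : x ∈ tsupport χ
  · exact CAt.mul (CD.contDiffAt h1) (interior_subset (h2 k))
  · exact (cAt_const (c := 0)).congr_of_eventuallyEq
      ((notMem_tsupport_iff_eventuallyEq.1 k).mono fun z hz => by simp [hz])

end Vale.Agent.P366M.Gr
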