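import Vale.Agent.P366P.MJac2
import Vale.Agent.P366C.Ana
import Vale.Agent.P366Q.O.Mb0
import Vale.Agent.P366D.Dbl
import Vale.Agent.P366M.Sard

/-!
# P366P: the capillary equation on bounded sets
-/

open MeasureTheory Metric Filter Topology Set
open scoped ContDiff
open Vale.Agent.P366 hiding E omega
open Vale.Agent.P366.Stmt Vale.Agent.P366Z
open Vale.Agent.P366M.Gr

noncomputable section

namespace Vale.Agent.P366M.G

theorem cape_of (H : An.CAPX) : CAPE := by
  intro n M _ g ρ k R₀ R hn hg _ hρ h0 hk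
  obtain ⟨z₀⟩ : Nonempty M := inferInstance
  have hw0 : Smooth fun x : M => ‖px x‖ ^ 2 := smooth_px (contDiff_norm_sq ℝ)
  set K := max (R ^ 2) (‖px z₀‖ ^ 2) + 1 with hK
  obtain ⟨K', k1, k2⟩ := exists_regular hw0 (lt_add_one K)
  obtain ⟨X, _, _, π, σ, h⟩ := P366D.dbl hg hw0 k1.1 ((isCompact_px M √K').of_isClosed_subset
    (isClosed_le hw0.cont continuous_const) fun x hx => Real.le_sqrt_of_sq_le hx) k2 (z₀ := z₀)
    (by linarith [le_max_right (R ^ 2) (‖px z₀‖ ^ 2), k1.1])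
  have hφ : Smooth fun x => Real.log (ρ x) := CD.log hρ fun x => (h0 x).ne'
  have hφ' := P366D.smooth_comp h.sm hφ
  have hb := P366D.smooth_comp h.sm (CD.div hk hρ fun x => (h0 x).ne')
  obtain ⟨C, hC⟩ := isCompact_univ.exists_bound_of_continuousOn hb.cont.continuousOn
  refine ⟨C, fun τ hτ => ?_⟩
  have hL : An.Lft (fun _ : X => 0) (fun _ => 0) univ := ⟨cd_const, isOpen_univ, fun _ _ => ⟨0, by simp⟩⟩
  obtain ⟨z, z1, z2⟩ := H n (by omega) X bg (fun x => Real.log (ρ (π x))) (fun _ => 0) (fun _ => 0)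
    (fun x => k (π x) / ρ (π x)) (fun _ => 0) τ 0 ⟨bg_met, hφ',
      fun x => ⟨_, _, hL, mem_univ x⟩, cd_const, hb, fun _ => le_rfl, contDiff_const,
      monotone_const, fun _ => by simp, hτ.1⟩
  have z3 := fun x => z2 _ _ hL x (mem_univ x)
  simp only [mul_zero, sub_zero, add_zero] at z3
  have z4 : ∀ x, |τ * z x| ≤ C := fun x => by
    obtain ⟨a, -, ha⟩ := isCompact_univ.exists_isMaxOn univ_nonempty z1.cont.continuousOn
    obtain ⟨b, -, hb⟩ := isCompact_univ.exists_isMinOn univ_nonempty z1.cont.continuousOn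
    have h1 := (z3 a).symm.trans_le (hw_max bg_met (z1.c2 a) (ha.isLocalMax univ_mem))
    have h2 := (hw_min bg_met (z1.c2 b) (hb.isLocalMin univ_mem)).trans_eq (z3 b)
    have h3 := mul_le_mul_of_nonneg_left (ha (mem_univ x) : z x ≤ z a) hτ.1.le
    have h4 := mul_le_mul_of_nonneg_left (hb (mem_univ x) : z b ≤ z x) hτ.1.le
    have h5 := abs_le.1 (hC a (mem_univ _))
    have h6 := abs_le.1 (hC b (mem_univ _))
    exact abs_le.2 ⟨by linarith [h6.2], by linarith [h5.1]⟩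
  have hV : ∀ x : M, ‖px x‖ ≤ R → ‖px x‖ ^ 2 < K := fun x hx => by
    linarith [le_max_left (R ^ 2) (‖px z₀‖ ^ 2), pow_le_pow_left₀ (norm_nonneg _) hx 2]
  obtain ⟨f, f1, f2⟩ := exists_smooth (u := fun x => z (σ x)) (isCompact_px M R) fun x hx =>
    eventually_of_mem (h.opn.mem_nhds (hV x hx)) fun y hy =>
      (h.sms y hy).cAt le_rfl (CD.contDiffAt z1)
  refine ⟨f, f1, fun x hx => ⟨(f2 x hx.le).self_of_nhds ▸ z4 _, ?_⟩⟩
  have v := hV x hx.le
  have e := h.rt x v
  have h1 := hw_iso (φ := fun x => Real.log (ρ x)) (u := f) (w := z) (h.iso x v) (f1.c2 _)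
    (hφ.diff _) (by
      filter_upwards [h.lf x v, (h.sm _).ct.eventually (show f =ᶠ[𝓝 (π (σ x))] fun x => z (σ x) by
        rw [e]; exact f2 x hx.le)] with y a b
      exact (b.trans (congrArg z a)).symm) .rfl
  rw [z3, e] at h1
  refine (dv_weight hg (hρ.diff x) (h0 x) (f1.c2 x)).trans ?_
  rw [← h1, (f2 x hx.le).self_of_nhds]
  field_simp [(h0 x).ne']

end Vale.Agent.P366M.G
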