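import Vale.Agent.P366C.Ana2
import Vale.Agent.P366P.Lim
import Vale.Agent.P366P.MJac2

/-!
# P366P: energy, levels and area of twisted graphs
-/

open MeasureTheory Metric Filter Topology Set
open scoped ContDiff
open Vale.Agent.P366 hiding E omega
open Vale.Agent.P366.Stmt Vale.Agent.P366Z
open Vale.Agent.P366M.Gr Vale.Agent.P366M.Y.C

noncomputable section

namespace Vale.Agent.P366M.An

variable {n : ℕ} {X : Type} [Mf0 n X] {I : Type} {Θ om : X → ℝ} {g : Fld n X} {f z R : X → ℝ}
  {l : ℝ}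

theorem cv_loc {V : Fin n → X → ℝ} (h : ∀ x, ∃ V', CV ∞ V' ∧ ∀ i, V i =ᶠ[𝓝 x] V' i) : CV ∞ V :=
  cv_of le_rfl fun x => ⟨ch x, ch_mem x, mem_ch x, fun i => by
    obtain ⟨V', a, b⟩ := h x
    exact (a _ (ch_mem x) i).contDiffAt.congr_of_eventuallyEq (repV_congr_pt b i)⟩

theorem int_cont [CompactSpace X] (hg : Met g) {a : X → ℝ} (ha : Continuous a) :
    Integrable a (vol g) := hg.integrable_supp ha (.of_compactSpace _)

/-- the energy inequality -/
theorem energy [CompactSpace X] (hg : Met g) (hf : Smooth f) (hΘ : Cir Θ) (hz : Smooth z)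
    (hc : Cap g f Θ l z R) (hR : Continuous R) (hl : 0 ≤ l) (hom : Continuous om)
    (ho : ∀ θ U, Lft Θ θ U → ∀ x ∈ U, gn g θ x = om x) : ∃ W : X → ℝ, Continuous W ∧
      (∀ θ U, Lft Θ θ U → ∀ x ∈ U, W x = ww g 1 (fun y => z y - l * θ y) x) ∧
      ∫ x, Real.exp (f x) * (z x * R x + (W x - 1)) ∂vol g ≤
        l * ∫ x, Real.exp (f x) * om x ∂vol g := by
  choose θ U h hx using hΘ
  have sb : ∀ x, Smooth fun y => z y - l * θ x y := fun x => CD.sub hz (CD.mul cd_const (h x).sm)
  set W : X → ℝ := fun x => ww g 1 (fun y => z y - l * θ x y) x with hW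
  set N : Fin n → X → ℝ := fun i x => nv g (fun y => z y - l * θ x y) i x with hN
  have eW : ∀ x, W =ᶠ[𝓝 x] ww g 1 fun y => z y - l * θ x y := fun x =>
    eventually_of_mem ((h x).opn.mem_nhds (hx x)) fun y hy =>
      ((h x).ww_ev (h y) hy (hx y) g z l).self_of_nhds
  have eN : ∀ x i, N i =ᶠ[𝓝 x] nv g (fun y => z y - l * θ x y) i := fun x i =>
    eventually_of_mem ((h x).opn.mem_nhds (hx x)) fun y hy =>
      ((h x).nv_ev (h y) hy (hx y) g z l i).self_of_nhds
  have cW : Continuous W := continuous_iff_continuousAt.2 fun x =>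
    (sm_w hg (sb x)).cont.continuousAt.congr (eW x).symm
  have cN : CV ∞ N := cv_loc fun x => ⟨_, cv_nv hg (sb x), eN x⟩
  have e0 : Continuous fun x => Real.exp (f x) := hf.cont.rexp
  have h1 := test_dv hg hf.one (cN.of_le one_le_oo) hz.llip (.of_compactSpace _)
  have h2 : ∀ x, dv g N x + ∑ i, pd i f x * N i x = R x := fun x => by
    rw [← hc _ _ (h x) x (hx x), hw, dv_congr (eN x), dn_eq hg]
  have cD := (CC.dot hz.cc_pd cN).continuous
  simp only [h2] at h1
  refine ⟨W, cW, fun θ' U' h' x hx' => (h'.ww_ev (h x) hx' (hx x) g z l).self_of_nhds, ?_⟩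
  have i1 := int_cont hg (e0.mul (hz.cont.mul hR))
  have i2 := int_cont hg (e0.mul cD)
  have i3 := (int_cont hg (e0.mul hom)).const_mul l
  have h3 := (integral_add i1 i2).trans (eq_neg_iff_add_eq_zero.1 h1)
  refine (integral_mono (int_cont hg (e0.mul ((hz.cont.mul hR).add (cW.sub continuous_const))))
    ((i1.add i2).add i3) fun x => ?_).trans_eq ((integral_add (i1.add i2) i3).trans
      ((congrArg (· + _) h3).trans ((zero_add _).trans (integral_const_mul _ _))))
  have h4 : ∑ i, pd i z x * N i x = 1 * dn g (fun y => z y - l * θ x y)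
      (fun y => z y - l * θ x y) x + l * dn g (fun y => z y - l * θ x y) (θ x) x := by
    rw [← dn_lin (v := z) fun i => by
      rw [pd_sub (hz.diff x) (((h x).sm.diff x).const_mul l), pd_const_mul]; ring, dn_eq hg]
  have h5 := (abs_le.1 ((abs_dn_le hg (fun y => z y - l * θ x y) (θ x) x).trans_eq
    (ho _ _ (h x) x (hx x)))).1
  have h6 := inv_le_one_of_one_le₀ (GbH.one_le_ww hg 1 (fun y => z y - l * θ x y) x)
  have h7 := mul_nonneg (Real.exp_pos (f x)).le (show 0 ≤ ∑ i, pd i z x * N i x + l * om x -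
    (W x - 1) by rw [h4, dn_self hg]; linarith [mul_le_mul_of_nonneg_left h5 hl])
  simp only [Pi.add_apply, Pi.mul_apply, Pi.sub_apply]
  linarith

theorem cont_tw (hΘ : Cir Θ) (hz : Continuous z) (hl : 0 < l) :
    Continuous fun x => |ub l (z x - l * Θ x)| := continuous_iff_continuousAt.2 fun x => by
  obtain ⟨θ, U, h, hx⟩ := hΘ x
  refine ((cont_ub hl).comp (hz.sub (h.sm.cont.const_mul l))).continuousAt.congr ?_
  filter_upwards [h.opn.mem_nhds hx] with y hy
  obtain ⟨m, hm⟩ := h.int y hy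
  simp only [Function.comp, Pi.sub_apply, hm, mul_add, ← sub_sub, ub_sub hl.ne']

/-- the choice of the level -/
theorem level [CompactSpace X] (hg : Met g) (hΘ : Cir Θ) (hz : Continuous z) {J : ℕ} {D : ℝ}
    (hJ : 0 < J) (hD : 0 < D) (hl : 2 * J * D ≤ l) {a₀ : X → ℝ} (ha₀ : Continuous a₀)
    (h0 : ∀ x, 0 ≤ a₀ x) : ∃ t, |t| + D ≤ J * D ∧
      J * ∫ x in {x | |ub l (z x - t - l * Θ x)| < D}, a₀ x ∂vol g ≤ ∫ x, a₀ x ∂vol g := by
  have J0 : (0 : ℝ) < J := Nat.cast_pos.2 hJ
  have l0 : 0 < l := lt_of_lt_of_le (by positivity) hl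
  set t : ℕ → ℝ := fun j => (2 * j + 1 - J) * D with ht
  set A : ℕ → Set X := fun j => {x | |ub l (z x - t j - l * Θ x)| < D} with hA
  have i0 := int_cont hg ha₀
  have h1 : ∑ j ∈ Finset.range J, ∫ x in A j, a₀ x ∂vol g ≤ ∫ x, a₀ x ∂vol g := by
    rw [← integral_biUnion_finset (s := A) _ (fun j _ => (isOpen_lt (cont_tw hΘ
      (hz.sub continuous_const) l0) continuous_const).measurableSet) ?_ fun j _ => i0.integrableOn]
    · exact setIntegral_le_integral i0 (.of_forall h0)
    have key : ∀ a b : ℕ, a < b → b < J → Disjoint (A a) (A b) := fun a b hab hb =>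
      disjoint_left.2 fun x p q => by
        have k1 : (a : ℝ) + 1 ≤ b := by exact_mod_cast hab
        have k2 : (b : ℝ) + 1 ≤ J := by exact_mod_cast hb
        have k3 : (0 : ℝ) ≤ a := a.cast_nonneg
        simp only [hA, ht, mem_ofPred_eq, ub, abs_lt] at p q
        generalize round ((z x - (2 * a + 1 - J) * D - l * Θ x) / l) = m at p
        generalize round ((z x - (2 * b + 1 - J) * D - l * Θ x) / l) = m' at q
        rcases le_or_gt m m' with k | k
        · have : (m : ℝ) ≤ m' := by exact_mod_cast k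
          nlinarith [p.2, q.1]
        · have : (m' : ℝ) + 1 ≤ m := by exact_mod_cast k
          nlinarith [p.1, q.2]
    intro a ha b hb hab
    rcases lt_or_gt_of_ne hab with k | k
    · exact key a b k (by simpa using hb)
    · exact (key b a k (by simpa using ha)).symm
  obtain ⟨j, hj, h2⟩ := Finset.exists_le_of_sum_le (f := fun j => J * ∫ x in A j, a₀ x ∂vol g)
    (g := fun _ => ∫ x, a₀ x ∂vol g) (Finset.nonempty_range_iff.2 hJ.ne') (by
      rw [← Finset.mul_sum, Finset.sum_const, Finset.card_range, nsmul_eq_mul]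
      exact mul_le_mul_of_nonneg_left h1 J0.le)
  refine ⟨t j, ?_, h2⟩
  have k2 : (j : ℝ) + 1 ≤ J := by exact_mod_cast Finset.mem_range.1 hj
  have k3 : (0 : ℝ) ≤ j := j.cast_nonneg
  have : |t j| ≤ J * D - D := abs_le.2 ⟨by simp only [ht]; nlinarith, by simp only [ht]; nlinarith⟩
  linarith

/-- the profile of the capillary term -/
theorem exists_s {κ : ℝ} (hκ : 0 < κ) : ∃ s : ℝ → ℝ, ContDiff ℝ ∞ s ∧ Monotone s ∧
    (∀ t, |s t| ≤ 1) ∧ (∀ t, κ ≤ t → s t = 1) ∧ (∀ t, t ≤ -κ → s t = -1) ∧ ∀ t, 0 ≤ t * s t := by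
  have z : ∀ t, t ≤ 0 → Real.smoothTransition (t / κ) = 0 := fun t ht =>
    Real.smoothTransition.zero_of_nonpos (div_nonpos_of_nonpos_of_nonneg ht hκ.le)
  have o : ∀ t, κ ≤ t → Real.smoothTransition (t / κ) = 1 := fun t ht =>
    Real.smoothTransition.one_of_one_le ((one_le_div hκ).2 ht)
  refine ⟨fun t => Real.smoothTransition (t / κ) - Real.smoothTransition (-t / κ),
    (Real.smoothTransition.contDiff.comp (by fun_prop)).sub
      (Real.smoothTransition.contDiff.comp (by fun_prop)), fun a b hab => sub_le_sub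
    (Real.smoothTransition.monotone (by gcongr)) (Real.smoothTransition.monotone (by gcongr)),
    fun t => abs_le.2 ⟨?_, ?_⟩, fun t ht => ?_, fun t ht => ?_, fun t => ?_⟩
  · linarith [Real.smoothTransition.nonneg (t / κ), Real.smoothTransition.le_one (-t / κ)]
  · linarith [Real.smoothTransition.nonneg (-t / κ), Real.smoothTransition.le_one (t / κ)]
  · simp only [o t ht, z (-t) (by linarith), sub_zero]
  · simp only [o (-t) (by linarith), z t (by linarith), zero_sub]
  · rcases le_total 0 t with h | h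
    · simp only [z (-t) (by linarith), sub_zero]
      exact mul_nonneg h (Real.smoothTransition.nonneg _)
    · simp only [z t h, zero_sub]
      exact mul_nonneg_of_nonpos_of_nonpos h (neg_nonpos.2 (Real.smoothTransition.nonneg _))

/-- the primitive of a function with the integral zero -/
theorem exists_prim {χ : ℝ → ℝ} {D : ℝ} (hχ : ContDiff ℝ ∞ χ) (h0 : ∀ t, χ t ≠ 0 → |t| < D)
    (hi : ∫ t, χ t = 0) : ∃ Ψ : ℝ → ℝ, ContDiff ℝ ∞ Ψ ∧ (∀ t, HasDerivAt Ψ (χ t) t) ∧
      ∀ t, Ψ t ≠ 0 → |t| < D := by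
  have h1 : ∀ t, HasDerivAt (fun t => ∫ s in -D..t, χ s) (χ t) t := fun t =>
    (hχ.continuous.integral_hasStrictDerivAt _ t).hasDerivAt
  refine ⟨_, contDiff_infty_iff_deriv.2 ⟨fun t => (h1 t).differentiableAt, ?_⟩, h1,
    fun t ht => by_contra fun k => ht ?_⟩
  · rwa [funext fun t => (h1 t).deriv]
  rcases le_abs.1 (not_lt.1 k) with q | q
  · rw [intervalIntegral.integral_eq_integral_of_support_subset fun s hs =>
      ⟨(abs_lt.1 (h0 s hs)).1, (abs_lt.1 (h0 s hs)).2.le.trans q⟩, hi]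
  · rw [intervalIntegral.integral_congr (g := fun _ => 0) fun s hs => by_contra fun w => by
      rw [uIcc_of_ge (le_neg.1 q)] at hs; linarith [hs.2, (abs_lt.1 (h0 s w)).1]]
    simp

end Vale.Agent.P366M.An
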