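import Vale.Agent.P366P.Fam0

/-!
# P366P: the area of the slabs
-/

open MeasureTheory Metric Filter Topology Set
open scoped ContDiff
open Vale.Agent.P366 hiding E omega
open Vale.Agent.P366.Stmt Vale.Agent.P366Z
open Vale.Agent.P366M.Gr Vale.Agent.P366M.Y.C

noncomputable section

namespace Vale.Agent.P366M.An

variable {k : ℕ} {X : Type} [Mf0 (k + 1) X] [CompactSpace X] {I : Type} {g : Fld (k + 1) X}
  {f u : X → ℝ} {D : ℝ}

theorem bd_of {χ : ℝ → ℝ} (hχ : Continuous χ) (h0 : ∀ t, χ t ≠ 0 → |t| < D) :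
    ∃ K, 0 ≤ K ∧ ∀ t, |χ t| ≤ K := by
  obtain ⟨K, hK⟩ := isCompact_Icc.exists_bound_of_continuousOn (hχ.continuousOn (s := Icc (-D) D))
  refine ⟨max K 0, le_max_right _ _, fun t => ?_⟩
  by_cases k : χ t = 0
  · simp [k]
  · exact le_max_of_le_left (hK t (abs_le.1 (h0 t k).le))

theorem slab_int (hg : Met g) (hf : Smooth f) (h : Slab u D) {χ : ℝ → ℝ} (hχ : ContDiff ℝ ∞ χ)
    (h0 : ∀ t, χ t ≠ 0 → |t| < D) :
    Integrable (fun x => χ (u x) * (Real.exp (f x) * ww g 1 u x)) (vol g) := by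
  obtain ⟨u', a, b⟩ := exists_smooth h.cl.isCompact h.sm
  refine (int_cont hg ((h.test hχ fun s hs => (h0 s hs).le).1.cont.mul
    (hf.cont.rexp.mul (sm_w hg a).cont))).congr (.of_forall fun x => ?_)
  by_cases k : χ (u x) = 0
  · simp [k]
  · simp only [Pi.mul_apply, (ww_congr (b x (h0 _ k).le)).self_of_nhds]

/-- the first variation in a slab -/
theorem slab_test (hg : Met g) (hf : Smooth f) (h : Slab u D) {χ Ψ : ℝ → ℝ} (hχ : ContDiff ℝ ∞ χ)
    (hΨ : ContDiff ℝ ∞ Ψ) (hd : ∀ t, HasDerivAt Ψ (χ t) t) (h0 : ∀ t, χ t ≠ 0 → |t| < D)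
    (h1 : ∀ t, Ψ t ≠ 0 → |t| < D) {K Λ C : ℝ} (k0 : ∀ t, |χ t| ≤ K) (k1 : ∀ t, |Ψ t| ≤ K)
    (hΛ : ∀ x, |u x| < D → |hw g f u x| ≤ Λ) (hC : ∀ x, Real.exp (f x) ≤ C)
    (hm : MeasurableSet {x | |u x| < D}) :
    ∫ x, χ (u x) * (Real.exp (f x) * ww g 1 u x) ∂vol g ≤
      C * (K * (Λ + 1)) * (vol g).real {x | |u x| < D} := by
  have := hg.locFin
  obtain ⟨u', a, b⟩ := exists_smooth h.cl.isCompact h.sm
  obtain ⟨s1, s2⟩ := h.test hΨ fun s hs => (h1 s hs).le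
  have e0 : Continuous fun x => Real.exp (f x) := hf.cont.rexp
  have i1 := int_cont hg (e0.mul (s1.cont.mul (sm_hw hg hf a).cont))
  have i2 := int_cont hg (e0.mul (sm_dn hg a s1).cont)
  have i3 : Integrable ({x | |u x| < D}.indicator fun _ => C * (K * (Λ + 1))) (vol g) :=
    (integrable_const _).indicator hm
  have h3 := (integral_add i1 i2).trans (eq_neg_iff_add_eq_zero.1
    (test_id hg hf.one a s1.llip (.of_compactSpace _)))
  refine (integral_mono (slab_int hg hf h hχ h0) ((i1.add i2).add i3) fun x => ?_).trans_eq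
    ((integral_add (i1.add i2) i3).trans ((congrArg (· + _) h3).trans ((zero_add _).trans ?_)))
  swap
  · rw [integral_indicator_const _ hm, smul_eq_mul, mul_comm]
  simp only [Pi.add_apply, Pi.mul_apply]
  have h4 : dn g u' (fun y => Ψ (u y)) x = χ (u x) * (ww g 1 u x - (ww g 1 u x)⁻¹) := by
    by_cases k : |u x| ≤ D
    · rw [dn_congr (b x k) .rfl, dn_comp (hd _) ((h.sm x k).self_of_nhds.differentiableAt
        (by simp)), dn_self hg]
    · rw [show χ (u x) = 0 from by_contra fun w => k (h0 _ w).le]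
      simp [dn, ip, pd_zero_of_notMem fun w => k (s2 w)]
  rw [h4]
  by_cases k : |u x| < D
  · have h5 : |Ψ (u x) * hw g f u' x| ≤ K * Λ := by
      rw [abs_mul, (hw_congr (b x k.le)).self_of_nhds]
      exact mul_le_mul (k1 _) (hΛ x k) (abs_nonneg _) ((abs_nonneg _).trans (k1 0))
    have h6 : |χ (u x) * (ww g 1 u x)⁻¹| ≤ K * 1 := by
      rw [abs_mul, abs_of_pos (inv_pos.2 (w_pos hg u x))]
      exact mul_le_mul (k0 _) (inv_le_one_of_one_le₀ (GbH.one_le_ww hg 1 u x))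
        (inv_pos.2 (w_pos hg u x)).le ((abs_nonneg _).trans (k1 0))
    have h7 := mul_le_mul (hC x) (show χ (u x) * (ww g 1 u x)⁻¹ - Ψ (u x) * hw g f u' x ≤
      K * (Λ + 1) by linarith [(abs_le.1 h5).1, (abs_le.1 h6).2])
    rw [indicator_of_mem (show x ∈ {x | |u x| < D} from k)]
    rcases le_total 0 (χ (u x) * (ww g 1 u x)⁻¹ - Ψ (u x) * hw g f u' x) with q | q
    · linarith [h7 q ((Real.exp_pos _).le.trans (hC x))]
    · linarith [mul_nonneg (Real.exp_pos (f x)).le (neg_nonneg.2 q),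
        mul_nonneg ((Real.exp_pos _).le.trans (hC x)) (show 0 ≤ K * (Λ + 1) by
          linarith [abs_nonneg (Ψ (u x) * hw g f u' x), abs_nonneg (χ (u x) * (ww g 1 u x)⁻¹)])]
  · rw [indicator_of_notMem (show x ∉ {x | |u x| < D} from k),
      show χ (u x) = 0 from by_contra fun w => k (h0 _ w),
      show Ψ (u x) = 0 from by_contra fun w => k (h1 _ w)]
    simp

/-- the area for all profiles -/
theorem area_of {F : Fd X I} {v₀ B r : ℝ} (hF : F.Ok g f v₀) (r0 : 0 < r) (r1 : r < F.S + 2)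
    (B0 : 0 ≤ B) (hB : ∀ ρ : ℝ → ℝ, (∀ t, 0 ≤ ρ t) → (∀ t, ρ t ≤ 1) →
      (∀ t, ρ t ≠ 0 → |t| < F.S + 2) → ∀ e > (0 : ℝ), ∀ᶠ i in (F.𝒰 : Filter I),
      ∫ x, ρ (F.u i x) * (Real.exp (f x) * ww g 1 (F.u i) x) ∂vol g ≤ B + e)
    {ψ : ℝ → ℝ} (hψ : ContDiff ℝ ∞ ψ) (ψ0 : ∀ t, 0 ≤ ψ t)
    (hs : tsupport ψ ⊆ Ioo (-(F.S + 2)) (F.S + 2)) {e : ℝ} (he : 0 < e) :
    ∀ᶠ i in (F.𝒰 : Filter I), ∫ x, ψ (F.u i x) * (Real.exp (f x) * ww g 1 (F.u i) x) ∂vol g ≤
      B / (2 * r) * (∫ t, ψ t) + e := by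
  have hg := hF.met
  let ρ : ContDiffBump (0 : ℝ) := ⟨r, F.S + 2, r0, r1⟩
  have ρ1 : ∀ t, ρ t ≠ 0 → |t| < F.S + 2 := fun t ht => by
    simpa using (ρ.support_eq ▸ ht : t ∈ ball 0 ρ.rOut)
  have ψ1 : ∀ t, ψ t ≠ 0 → |t| < F.S + 2 := fun t ht => abs_lt.2 (hs (subset_tsupport _ ht))
  have ρ2 : 2 * r ≤ ∫ t, ρ t := by
    rw [← Real.volume_real_closedBall (a := 0) r0.le]; exact ρ.measure_closedBall_le_integral volume
  have ψ2 : 0 ≤ ∫ t, ψ t := integral_nonneg ψ0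
  have ρ3 := ρ.integral_pos (μ := volume)
  set c := (∫ t, ψ t) / ∫ t, ρ t with hc
  have c0 : 0 ≤ c := div_nonneg ψ2 ρ3.le
  have sχ : ContDiff ℝ ∞ fun t => ψ t - c * ρ t := hψ.sub (contDiff_const.mul ρ.contDiff)
  have χ1 : ∀ t, ψ t - c * ρ t ≠ 0 → |t| < F.S + 2 := fun t ht => by_contra fun k => ht (by
    rw [by_contra fun w => k (ψ1 t w), by_contra fun w => k (ρ1 t w)]; simp)
  obtain ⟨Ψ, p1, p2, p3⟩ := exists_prim sχ χ1 (by
    rw [integral_sub (hψ.continuous.integrable_of_hasCompactSupport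
      (isCompact_Icc.of_isClosed_subset (isClosed_tsupport _) (hs.trans Ioo_subset_Icc_self)))
      (ρ.integrable.const_mul c), integral_const_mul, hc, div_mul_cancel₀ _ ρ3.ne', sub_self])
  obtain ⟨K, -, hK⟩ := bd_of sχ.continuous χ1
  obtain ⟨K', -, hK'⟩ := bd_of p1.continuous p3
  obtain ⟨Λ, hΛ⟩ := hF.hb
  obtain ⟨C, hC⟩ := isCompact_univ.bddAbove_image hF.smf.cont.rexp.continuousOn
  have t1 := (((ENNReal.tendsto_toReal ENNReal.zero_ne_top).comp hF.vol).const_mul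
    (C * (max K K' * (Λ + 1)))).eventually (gt_mem_nhds (show _ < e / 2 by simpa using he))
  filter_upwards [hΛ, hF.slab (S := F.S + 2) (by linarith), t1, hB ρ (fun _ => ρ.nonneg)
    (fun _ => ρ.le_one) ρ1 (e / 2 / (c + 1)) (by positivity),
    hF.lam.eventually (eventually_gt_atTop (2 * (F.S + 2)))] with i a1 a2 a3 a4 a5
  have sl : Slab (F.u i) (F.S + 2) := ⟨a2.1, a2.2⟩
  have h1 := slab_test hg hF.smf sl sχ p1 p2 χ1 p3 (fun t => le_max_of_le_left (hK t))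
    (fun t => le_max_of_le_right (hK' t)) (Λ := Λ) (fun x hx => by
      obtain ⟨θ, U, h, hU, e⟩ := hF.u_loc (i := i) (x := x) (by linarith)
      rw [(hw_congr e).self_of_nhds]; exact a1 θ U h x hU) (fun x => hC ⟨x, trivial, rfl⟩)
    (isOpen_lt (hF.cont_u (by linarith)) continuous_const).measurableSet
  simp only [sub_mul, mul_assoc c] at h1
  rw [integral_sub (slab_int hg hF.smf sl hψ ψ1) ((slab_int hg hF.smf sl ρ.contDiff ρ1).const_mul c),
    integral_const_mul] at h1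
  have h2 : c * B ≤ B / (2 * r) * ∫ t, ψ t := by
    rw [hc, div_mul_eq_mul_div, div_mul_eq_mul_div, mul_comm B]; gcongr
  have h3 : c * (e / 2 / (c + 1)) ≤ e / 2 := by
    rw [mul_div_assoc', div_le_iff₀ (by positivity)]; nlinarith
  have h4 : C * (max K K' * (Λ + 1)) * (vol g).real {x | |F.u i x| < F.S + 2} < e / 2 := a3
  linarith [mul_le_mul_of_nonneg_left a4 c0]

end Vale.Agent.P366M.An
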