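import Vale.Agent.P366P.Fam1

/-!
# P366P: one member of the family
-/

open MeasureTheory Metric Filter Topology Set
open scoped ContDiff
open Vale.Agent.P366 hiding E omega
open Vale.Agent.P366.Stmt Vale.Agent.P366Z
open Vale.Agent.P366D (Rf)
open Vale.Agent.P366M.Gr Vale.Agent.P366M.Y.C

noncomputable section

namespace Vale.Agent.P366M.An

variable {n : ℕ} {X : Type} [Mf0 n X] {g : Fld n X} {f Θ om h₀ z θ : X → ℝ} {s : ℝ → ℝ}
  {κ l ε t D : ℝ} {U : Set X} {x : X}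

/-- the data which do not depend on the member of the family -/
structure Fx (g : Fld n X) (f Θ om h₀ : X → ℝ) (s : ℝ → ℝ) (κ : ℝ) : Prop where
  met : Met g
  smf : Smooth f
  cir : Cir Θ
  com : Continuous om
  gom : ∀ θ U, Lft Θ θ U → ∀ x ∈ U, gn g θ x = om x
  smh : Smooth h₀
  h0 : ∀ x, 0 ≤ h₀ x
  int : ∀ x, h₀ x ≠ 0 → ∀ᶠ x' in 𝓝 x, ∃ m : ℤ, Θ x' = m
  sms : ContDiff ℝ ∞ s
  mono : Monotone s
  s1 : ∀ t, |s t| ≤ 1
  sp : ∀ t, κ ≤ t → s t = 1
  sn : ∀ t, t ≤ -κ → s t = -1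
  sg : ∀ t, 0 ≤ t * s t
  κ0 : 0 < κ
  κ1 : κ ≤ 1 / 2

/-- the right-hand side of the equation -/
def rh (h₀ : X → ℝ) (s : ℝ → ℝ) (l ε : ℝ) (z : X → ℝ) (x : X) : ℝ := ε * z x + h₀ x * s (z x / l)

theorem Fx.sm_rh (H : Fx g f Θ om h₀ s κ) (hz : Smooth z) : Smooth (rh h₀ s l ε z) :=
  CD.add (CD.mul cd_const hz) (CD.mul H.smh (H.sms.compM (CD.div_const hz l)))

theorem Fx.om0 (H : Fx g f Θ om h₀ s κ) (x : X) : 0 ≤ om x := by
  obtain ⟨θ, U, h, hx⟩ := H.cir x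
  exact H.gom θ U h x hx ▸ gn_nonneg _ _ _

/-- the solution -/
theorem Fx.sol [CompactSpace X] (H : Fx g f Θ om h₀ s κ) (h₁ : CAPX) (h₂ : GRD) (h₃ : LIP2)
    (hn : 2 ≤ n) (ho : ∫ x, Real.exp (f x) * om x ∂vol g ≤ 2) {τ : ℝ} (hτ : 0 < τ) :
    ∃ δ₀ > (0 : ℝ), ∀ l ε, 1 ≤ l → 0 < ε → ε * l ≤ δ₀ → ∃ z W : X → ℝ, Smooth z ∧
      Cap g f Θ l z (rh h₀ s l ε z) ∧ (∀ x, |ε * z x| ≤ τ) ∧ Continuous W ∧
      (∀ θ U, Lft Θ θ U → ∀ x ∈ U, W x = ww g 1 (fun y => z y - l * θ y) x) ∧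
      ∫ x, Real.exp (f x) * (W x - 1) ∂vol g ≤ l * ∫ x, Real.exp (f x) * om x ∂vol g := by
  have hg := H.met
  obtain ⟨C, hC⟩ := h₂ n X g f Θ
  obtain ⟨B, hB⟩ := isCompact_univ.exists_bound_of_continuousOn
    (hg.cont_gn H.smh.one).continuousOn
  obtain ⟨Om, hO⟩ := isCompact_univ.exists_bound_of_continuousOn H.com.continuousOn
  obtain ⟨δ, δ0, hδ⟩ := h₃ n X g f (|C| * (3 + |B|) + Om) τ hg H.smf hτ
  refine ⟨min (δ / 2) 1, by positivity, fun l ε l1 ε0 hl => ?_⟩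
  have l0 : 0 < l := one_pos.trans_le l1
  have q : Cq g f Θ h₀ (fun _ => 0) (fun t => s (t / l)) ε := ⟨hg, H.smf, H.cir, H.smh, cd_const,
    H.h0, H.sms.comp (contDiff_id.div_const l), fun a b hab => H.mono (by gcongr),
    fun _ => H.s1 _, ε0⟩
  obtain ⟨z, z1, z2⟩ := h₁ n hn X g f Θ h₀ _ _ ε l q
  have z3 : Cap g f Θ l z (rh h₀ s l ε z) := fun θ U h x hx => (z2 θ U h x hx).trans (add_zero _)
  obtain ⟨W, w1, w2, w3⟩ := energy hg H.smf H.cir z1 z3 (H.sm_rh z1).cont l0.le H.com H.gom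
  have e0 : Continuous fun x => Real.exp (f x) := H.smf.cont.rexp
  have k0 := int_cont hg (e0.mul ((z1.cont.mul (H.sm_rh (l := l) (ε := ε) z1).cont).add
    (w1.sub (continuous_const (y := 1)))))
  have k1 : ∀ x, 0 ≤ W x - 1 := fun x => by
    obtain ⟨θ, U, h, hx⟩ := H.cir x
    rw [w2 θ U h x hx]; exact sub_nonneg.2 (GbH.one_le_ww hg 1 _ x)
  have k2 : ∀ x, ε * z x ^ 2 ≤ z x * rh h₀ s l ε z x := fun x => by
    have := mul_nonneg (mul_nonneg (H.h0 x) l0.le) (H.sg (z x / l))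
    rw [mul_assoc, ← mul_assoc l, mul_div_cancel₀ _ l0.ne'] at this
    unfold rh; linarith
  refine ⟨z, W, z1, z3, hδ _ (CD.mul cd_const z1) (fun x => ?_) ?_, w1, w2,
    (integral_mono_of_nonneg (.of_forall fun x => mul_nonneg (Real.exp_pos _).le (k1 x)) k0
      (.of_forall fun x => mul_le_mul_of_nonneg_left (le_add_of_nonneg_left
        ((mul_nonneg ε0.le (sq_nonneg _)).trans (k2 x))) (Real.exp_pos _).le)).trans w3⟩
  · obtain ⟨θ, U, h, hx⟩ := H.cir x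
    have a1 := (gn_le_w hg _ x).trans ((hC h₀ _ _ ε l |B| z q z1
      (fun x => (le_abs_self _).trans ((hB x trivial).trans (le_abs_self B)))
      (fun x => by simp [gn, ip_const_left]) z2 θ U h x hx).trans
        (mul_le_mul_of_nonneg_right (le_abs_self C) (by positivity)))
    have a2 := hg.gn_add_le (u := fun y => ε * z y) (u₁ := fun y => ε * (z y - l * θ y))
      (u₂ := fun y => ε * l * θ y) (x := x) fun i => by
        rw [pd_const_mul, pd_const_mul, pd_const_mul,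
          pd_sub (z1.diff x) ((h.sm.diff x).const_mul l), pd_const_mul]; ring
    rw [gn_of_pd (u' := fun y => z y - l * θ y) (pd_const_mul ε), gn_of_pd (pd_const_mul (ε * l)),
      H.gom θ U h x hx, abs_of_pos ε0, abs_of_pos (mul_pos ε0 l0)] at a2
    have a3 : ε * l ≤ 1 := hl.trans (min_le_right _ _)
    have a4 : ε * (|C| * (1 + |l| + (1 + |B|) / ε)) ≤ |C| * (3 + |B|) := by
      rw [mul_left_comm, abs_of_pos l0, mul_add, mul_div_cancel₀ _ ε0.ne']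
      exact mul_le_mul_of_nonneg_left (by nlinarith) (abs_nonneg C)
    linarith [mul_le_mul_of_nonneg_left a1 ε0.le, mul_le_mul_of_nonneg_right a3 (H.om0 x),
      (le_abs_self _).trans (hO x trivial)]
  · have a1 : ∫ x, Real.exp (f x) * (ε * z x) ^ 2 ∂vol g ≤ ε * ∫ x, Real.exp (f x) *
        (z x * rh h₀ s l ε z x + (W x - 1)) ∂vol g := by
      rw [← integral_const_mul]
      refine integral_mono_of_nonneg (.of_forall fun x => by positivity) (k0.const_mul ε)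
        (.of_forall fun x => ?_)
      have := mul_le_mul_of_nonneg_left (le_add_of_le_of_nonneg (k2 x) (k1 x))
        (mul_pos ε0 (Real.exp_pos (f x))).le
      simp only
      linarith
    have a2 := mul_le_mul_of_nonneg_left (w3.trans (mul_le_mul_of_nonneg_left ho l0.le)) ε0.le
    linarith [hl.trans (min_le_left _ _)]

/-- the position of a slab -/
theorem Fx.lev (H : Fx g f Θ om h₀ s κ) (hl : 0 < l) (ht : |t| + D ≤ l * (1 / 2 - 2 * κ))
    (h : Lft Θ θ U) (hx : x ∈ U) (hb : |z x + l / 2 - t - l * θ x| ≤ D) (h0 : h₀ x ≠ 0) :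
    2 * κ * l ≤ z x ∧ s (θ x - 1 / 2) = 1 ∨ z x ≤ -(2 * κ * l) ∧ s (θ x - 1 / 2) = -1 := by
  obtain ⟨m, hm⟩ := (H.int x h0).self_of_nhds
  obtain ⟨m', hm'⟩ := h.int x hx
  rw [hm', hm, ← Int.cast_add] at hb ⊢
  have h1 := abs_le.1 hb
  rcases le_or_gt (m + m') 0 with k | k
  · have : ((m + m' : ℤ) : ℝ) ≤ 0 := by exact_mod_cast k
    exact .inr ⟨by nlinarith [le_abs_self t], H.sn _ (by linarith [H.κ1])⟩
  · have : (1 : ℝ) ≤ (m + m' : ℤ) := by exact_mod_cast k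
    exact .inl ⟨by nlinarith [neg_abs_le t], H.sp _ (by linarith [H.κ1])⟩

theorem Fx.s_of (H : Fx g f Θ om h₀ s κ) (hl : 0 < l) {a : ℝ} :
    (κ * l ≤ a → s (a / l) = 1) ∧ (a ≤ -(κ * l) → s (a / l) = -1) :=
  ⟨fun h => H.sp _ ((le_div_iff₀ hl).2 h), fun h => H.sn _ ((div_le_iff₀ hl).2 (by linarith))⟩

theorem Fx.s_eq (H : Fx g f Θ om h₀ s κ) (hl : 0 < l) (ht : |t| + D ≤ l * (1 / 2 - 2 * κ))
    (h : Lft Θ θ U) (hx : x ∈ U) (hb : |z x + l / 2 - t - l * θ x| ≤ D) :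
    h₀ x * s (z x / l) = h₀ x * s (θ x - 1 / 2) := by
  by_cases h0 : h₀ x = 0
  · simp [h0]
  have := mul_pos H.κ0 hl
  rcases H.lev hl ht h hx hb h0 with ⟨a, b⟩ | ⟨a, b⟩
  · rw [b, (H.s_of hl).1 (by linarith)]
  · rw [b, (H.s_of hl).2 (by linarith)]

theorem cap_br {R : X → ℝ} (hc : Cap g f Θ l z R) (h : Lft Θ θ U) (hx : x ∈ U) (a b : ℝ) :
    hw g f (fun y => z y + a - b - l * θ y) x = R x := by
  rw [← hc θ U h x hx, ← hw_add g f (fun y => z y - l * θ y) (a - b)]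
  congr 1; funext y; ring

/-- the barrier -/
theorem Fx.bar (H : Fx g f Θ om h₀ s κ) (hl : 0 < l) (hε : 0 ≤ ε) (hz : Smooth z)
    (hc : Cap g f Θ l z (rh h₀ s l ε z)) {C : ℝ} (hB : ∀ (z : X → ℝ) (a : ℝ), Smooth z →
      (∀ x, 0 < h₀ x → a < z x → h₀ x ≤ hw g f z x) → z x ≤ a + C) : |z x| ≤ κ * l + C := by
  have k0 := mul_pos H.κ0 hl
  have e : ∀ y, 0 < h₀ y → hw g f z y = rh h₀ s l ε z y := fun y hy => by
    simpa using hc (fun _ => 0) _ ⟨cd_const, isOpen_interior, fun y hy => by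
      obtain ⟨m, hm⟩ := interior_subset hy
      exact ⟨-m, by simp [hm]⟩⟩ y (mem_interior_iff_mem_nhds.2 (H.int y hy.ne'))
  refine abs_le.2 ⟨neg_le.1 (hB _ _ (CD.neg hz) fun y a b => ?_), hB _ _ hz fun y a b => ?_⟩
  · rw [hw_neg, e y a, rh, (H.s_of hl).2 (by linarith)]; nlinarith
  · rw [e y a, rh, (H.s_of hl).1 b.le]; nlinarith

/-- the positivity -/
theorem Fx.pos (H : Fx g f Θ om h₀ s κ) (hl : 0 < l) (hε : 0 ≤ ε) (hz : Smooth z)
    (hc : Cap g f Θ l z (rh h₀ s l ε z)) (h : Lft Θ θ U) (hx : x ∈ U) {τ : ℝ}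
    (hτ : |ε * z x| ≤ τ) (hb : h₀ x ≠ 0 → κ * l < |z x|) {u : X → ℝ} {a b : ℝ}
    (hu : u =ᶠ[𝓝 x] fun y => z y + a - b - l * θ y) :
    h₀ x ^ 2 - 2 * gn g h₀ x - 2 * τ * h₀ x - 2 * (ε * l) * om x ≤
      hw g f u x ^ 2 + 2 * dn g u (hw g f u) x := by
  have hg := H.met
  have e : hw g f u =ᶠ[𝓝 x] rh h₀ s l ε z := (hw_congr hu).trans
    (eventually_of_mem (h.opn.mem_nhds hx) fun y hy => cap_br hc h hy a b)
  have d1 := hz.diff x
  have d2 := h.sm.diff x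
  have d3 := H.smh.diff x
  have k : h₀ x = 0 ∨ (fun y => s (z y / l)) =ᶠ[𝓝 x] (fun _ => 1) ∨
      (fun y => s (z y / l)) =ᶠ[𝓝 x] fun _ => -1 := by
    refine or_iff_not_imp_left.2 fun h0 => (lt_abs.1 (hb h0)).imp (fun q => ?_) fun q => ?_
    · exact (hz.cont.continuousAt.eventually (lt_mem_nhds q)).mono fun y hy => (H.s_of hl).1 hy.le
    · exact (hz.cont.continuousAt.eventually (gt_mem_nhds (lt_neg.1 q))).mono fun y hy =>
        (H.s_of hl).2 hy.le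
  have h1 := dn_cap hg (u := u) (h := fun y => ε * l * θ y + s (z x / l) * h₀ y) (x := x) hε
    (H := hw g f u) fun i => by
      have : h₀ x * pd i (fun y => s (z y / l)) x = 0 := by
        rcases k with k | k | k
        exacts [mul_eq_zero_of_left k _, mul_eq_zero_of_right _ (pd_zero_of_ev k i),
          mul_eq_zero_of_right _ (pd_zero_of_ev k i)]
      have d4 := Smooth.diff (H.sms.compM (CD.div_const hz l)) x
      rw [pd_congr e, pd_congr hu, pd_add (d2.const_mul _) (d3.const_mul _),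
        pd_sub ((d1.add_const a).sub_const b) (d2.const_mul l), pd_sub_const, pd_add_const]
      refine (pd_add (d1.const_mul ε) (d3.mul d4) i).trans ?_
      simp only [pd_const_mul, pd_mul d3 d4, this]
      ring
  have h2 := hg.gn_add_le (u := fun y => ε * l * θ y + s (z x / l) * h₀ y) (x := x)
    (pd_add (d2.const_mul _) (d3.const_mul _))
  rw [gn_of_pd (pd_const_mul (ε * l)), gn_of_pd (pd_const_mul (s (z x / l))), H.gom θ U h x hx,
    abs_of_nonneg (mul_nonneg hε hl.le)] at h2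
  have h3 := mul_le_mul_of_nonneg_right (H.s1 (z x / l)) (gn_nonneg g h₀ x)
  have h4 : h₀ x ^ 2 - 2 * τ * h₀ x ≤ hw g f u x ^ 2 := by
    rw [e.self_of_nhds, rh]
    have := abs_le.1 hτ
    rcases k with k | k | k
    · rw [k]; nlinarith
    · rw [show s (z x / l) = 1 from k.self_of_nhds]
      linarith [mul_le_mul_of_nonneg_left this.1 (H.h0 x), sq_nonneg (ε * z x)]
    · rw [show s (z x / l) = -1 from k.self_of_nhds]
      linarith [mul_le_mul_of_nonneg_left this.2 (H.h0 x), sq_nonneg (ε * z x)]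
  linarith

end Vale.Agent.P366M.An
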