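import Vale.Agent.P366P.LimD
import Vale.Agent.P366P.Cv
import Vale.Agent.P366M.Map2

/-!
# P366P: limits of graphs; the parametrisations
-/

open MeasureTheory Metric Filter Topology Set
open scoped ContDiff
open Vale.Agent.P366 hiding E
open Vale.Agent.P366.Stmt Vale.Agent.P366Z
open Vale.Agent.P366D hiding Null Par Per Lim
open Vale.Agent.P366P (Cy ds2 prd snc_ini ini_snc snc_last sm_ini Cv CvM CvT B0)
open Vale.Agent.P366M.Y.C
open Fin (last)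

noncomputable section

namespace Vale.Agent.P366M.Gr

theorem sm_snc {k : ℕ} : ContDiff ℝ ∞ fun p : E k × ℝ => snc p.1 p.2 :=
  contDiff_euclidean.2 fun i => by
    refine Fin.lastCases ?_ (fun j => ?_) i
    · simpa [snc] using contDiff_snd
    · simp only [snc, Fin.snoc_castSucc]
      fun_prop

theorem RfE_congr {n : ℕ} {G G' : Stmt.Field n} {u u' : E n → ℝ} {x : E n} (h : G =ᶠ[𝓝 x] G')
    (k : u =ᶠ[𝓝 x] u') : RfE G u x = RfE G' u' x := by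
  rw [RfE, RfE, P366Z.scal_of_ev h, P366Z.lap_of_ev h, P366Z.lap_congr k,
    P366Z.ip_of_eq h.self_of_nhds, P366Z.ip_congr k k]

theorem dens_pb {n : ℕ} (Ψ : E n → E n) (G : Stmt.Field n) (x : E n) :
    P366Z.dens (pb Ψ G) x = |(jac Ψ x).det| * P366Z.dens G (Ψ x) := by
  unfold P366Z.dens
  rw [mat_pb, Matrix.det_mul, Matrix.det_mul, Matrix.det_transpose, ← Real.sqrt_sq_eq_abs,
    ← Real.sqrt_mul (sq_nonneg _)]
  congr 1
  ring

/-- integrals in a parametrisation -/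
theorem integral_param {n : ℕ} {M : Type} [Mf0 n M] {g : Fld n M} {e : Ch n M} (hg : Met g)
    (he : e ∈ At M) {B : Set (E n)} (hB : MeasurableSet B) {Ψ : E n → E n}
    (hd : ∀ x ∈ B, DifferentiableAt ℝ Ψ x) (hi : InjOn Ψ B) (F : M → ℝ) :
    ∫ x in e.symm '' (Ψ '' B), F x ∂vol g =
      ∫ y in B, F (e.symm (Ψ y)) * P366Z.dens (pb Ψ (rep e g)) y := by
  rw [integral_image hg he (hB.image_of_continuousOn_injOn
    (fun x hx => (hd x hx).continuousAt.continuousWithinAt) hi),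
    integral_image_eq_integral_abs_det_fderiv_smul volume hB
      (fun x hx => (hd x hx).hasFDerivAt.hasFDerivWithinAt) hi]
  refine setIntegral_congr_fun hB fun y hy => ?_
  simp only [dens_pb, det_fderiv (hd y hy), smul_eq_mul]
  ring

variable {I : Type} {k : ℕ} {X : Type} [Mf0 (k + 1) X] {Z : Type} [Mf0 k Z] {e : Ch (k + 1) X}
  {π : E (k + 1) → E k} {x : E (k + 1)} {g : Fld (k + 1) X} {a f : X → ℝ}

/-- the metric of the graph in a parametrisation -/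
def gp (G : Stmt.Field (k + 1)) (Ψ : E (k + 1) → E (k + 1)) : Stmt.Field (k + 1) :=
  fun x i j => pb Ψ G x i j + ds2 k i j

section Pt

variable {u : X → ℝ} {Ψ : E (k + 1) → E (k + 1)}

/-- a parametrisation near `x` -/
structure Pt (u : X → ℝ) (e : Ch (k + 1) X) (π : E (k + 1) → E k) (Ψ : E (k + 1) → E (k + 1))
    (x : E (k + 1)) : Prop where
  mem : e ∈ At X
  smπ : ContDiff ℝ ∞ π
  prj : ∀ x, π (Ψ x) = ini x
  sm : ∀ᶠ y in 𝓝 x, ContDiffAt ℝ ∞ Ψ y ∧ u (e.symm (Ψ y)) = y (last k)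
  smu : ∀ᶠ z in 𝓝 (e.symm (Ψ x)), CAt ∞ u z

theorem Pt.chart (h : Pt u e π Ψ x) : ∃ e' ∈ At X, ∃ u' : X → ℝ, Smooth u' ∧
    u' =ᶠ[𝓝 (e'.symm x)] u ∧ (e'.symm =ᶠ[𝓝 x] fun y => e.symm (Ψ y)) ∧
    (∀ T, rep e' T =ᶠ[𝓝 x] pb Ψ (rep e T)) ∧
    ∀ g, rep e' (gb g 1 u') =ᶠ[𝓝 x] gp (rep e g) Ψ := by
  obtain ⟨u', s1, s2⟩ := exists_smooth isCompact_singleton
    (show ∀ z ∈ ({e.symm (Ψ x)} : Set X), _ from fun z hz => by rw [hz]; exact h.smu)
  have s3 := s2 _ rfl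
  have c0 : ContinuousAt (fun y => e.symm (Ψ y)) x :=
    (smP_symm_comp h.mem h.sm.self_of_nhds.1).ct
  have h1 : ∀ᶠ y in 𝓝 x, snc (π (e (e.symm (Ψ y)))) (u' (e.symm (Ψ y))) = y := by
    filter_upwards [h.sm, c0.eventually s3] with y a b
    rw [right_inv h.mem, h.prj, b, a.2, snc_ini]
  have h2 : ∀ᶠ y in 𝓝 x, LP (fun y => e.symm (Ψ y)) y := by
    filter_upwards [h.sm, h1.eventually_nhds] with y a b
    exact lp_of (G := fun p => snc (π (e p)) (u' p)) (smP_symm_comp h.mem a.1)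
      ((sm_snc.contDiffAt.compM ((h.smπ.contDiffAt.compM (cAt_mx (mx_of_At h.mem)
        (symm_mem h.mem _))).prodMk (CD.contDiffAt s1))).differentiableAt (by simp)) b
  obtain ⟨ε, ε0, hε⟩ := Metric.eventually_nhds_iff_ball.1 (h1.and h2)
  obtain ⟨e', m', k'⟩ := exists_At_of_lp (Y := fun y => e.symm (Ψ y)) (y := x) (half_pos ε0)
    (fun z hz => (hε z (by rwa [mul_div_cancel₀ _ two_ne_zero] at hz)).2) fun z hz w hw q => by
      rw [mul_div_cancel₀ _ two_ne_zero] at hz hw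
      rw [← (hε z hz).1, ← (hε w hw).1]
      simp only [q]
  have h3 : e'.symm =ᶠ[𝓝 x] fun y => e.symm (Ψ y) :=
    eventually_of_mem (ball_mem_nhds x (half_pos ε0)) k'
  have h4 : ∀ T, rep e' T =ᶠ[𝓝 x] pb Ψ (rep e T) := fun T =>
    (pl_congr_ev h3 T).trans (h.sm.mono fun y a => pl_symm_comp h.mem a.1 T)
  refine ⟨e', m', u', s1, by rwa [h3.self_of_nhds], h3, h4, fun g => ?_⟩
  have h5 : loc e' u' =ᶠ[𝓝 x] fun y => y (last k) := by
    filter_upwards [h3, h.sm, c0.eventually s3] with y a b c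
    rw [loc, a, c, b.2]
  rw [rep_g m' g s1]
  filter_upwards [h4 g, h5.eventuallyEq_nhds] with y a b
  funext i j
  simp only [P366Y.C.gb, gp, a, P366Z.pd_congr b, P366Z.pd_coord, ds2, Pi.one_apply, one_pow, one_mul]

theorem Pt.ip (h : Pt u e π Ψ x) (g : Fld (k + 1) X) (ha : DAt a (e.symm (Ψ x))) {A : E (k + 1) → ℝ}
    (hA : A =ᶠ[𝓝 x] fun y => a (e.symm (Ψ y))) :
    P366Z.ip (gp (rep e g) Ψ) A A x = ip (gb g 1 u) a a (e.symm (Ψ x)) := by
  obtain ⟨e', m', u', -, s2, s3, -, s5⟩ := h.chart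
  have h1 : A =ᶠ[𝓝 x] loc e' a := hA.trans (s3.mono fun y b => by simp only [loc, b])
  rw [← show e'.symm x = e.symm (Ψ x) from s3.self_of_nhds] at ha ⊢
  rw [← P366Z.ip_of_eq (s5 g).self_of_nhds, P366Z.ip_congr h1 h1, ip_rep m' _ ha ha,
    ip_of_eq (gb_congr s2).self_of_nhds]

theorem Pt.Rf (h : Pt u e π Ψ x) (hg : Met g) (hf : Smooth f) :
    RfE (gp (rep e g) Ψ) (fun y => f (e.symm (Ψ y))) x = Rf (gb g 1 u) f (e.symm (Ψ x)) := by
  obtain ⟨e', m', u', s1, s2, s3, -, s5⟩ := h.chart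
  rw [← show e'.symm x = e.symm (Ψ x) from s3.self_of_nhds, RfE_congr (s5 g).symm (u' := loc e' f)
    (s3.mono fun y b => by simp only [loc, b]), Rf_rep m' (met_g hg s1) (hf.c2 _)]
  have h1 := gb_congr (g := g) s2
  unfold P366D.Rf
  rw [scal_of_ev h1, lap_of_ev h1, ip_of_eq h1.self_of_nhds]

theorem Pt.dens (h : Pt u e π Ψ x) (hg : Met g) : P366Z.dens (gp (rep e g) Ψ) x =
    ww g 1 u (e.symm (Ψ x)) * P366Z.dens (pb Ψ (rep e g)) x := by
  obtain ⟨e', m', u', s1, s2, s3, s4, s5⟩ := h.chart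
  rw [← show e'.symm x = e.symm (Ψ x) from s3.self_of_nhds, ← P366Z.dens_of_eq (s5 g).self_of_nhds, rep_g m' g s1,
    P366Y.C.GbH.dens_gb (hg.rep m'), ← loc_w m' g s1, ← P366Z.dens_of_eq (s4 g).self_of_nhds,
    ← (ww_congr s2).self_of_nhds]
  rfl

theorem Pt.mc (h : Pt u e π Ψ x) (hg : Met g) (hf : Smooth f) :
    P366Z.lap (gp (rep e g) Ψ) (fun y => f (e.symm (Ψ y))) x -
      Stmt.tr (gp (rep e g) Ψ) (pb Ψ (rep e (hess g f))) x =
      -(dv g (nv g u) (e.symm (Ψ x)) * dn g u f (e.symm (Ψ x))) := by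
  obtain ⟨e', m', u', s1, s2, s3, s4, s5⟩ := h.chart
  rw [← show e'.symm x = e.symm (Ψ x) from s3.self_of_nhds, ← dv_congr (nv_congr s2), ← dn_congr s2 .rfl, ← lap_g hg s1 (hf.c2 _),
    ← lap_rep (met_g hg s1) m' (hf.c2 _), ← tr_rep m', P366Z.lap_of_ev (s5 g),
    P366Z.lap_congr (v := loc e' f) (s3.mono fun y b => by simp only [loc, b])]
  simp only [Stmt.tr, P366Z.up_of_eq (s5 g).self_of_nhds, (s4 _).self_of_nhds]

end Pt

/-! ### the families -/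

variable {l : Filter I} {u : I → X → ℝ} {S r : ℝ} {φ : E k → E (k + 1)} {y₀ : E k}
  {Ψ : I → E (k + 1) → E (k + 1)} {V : Set X}

/-- the family with its limit -/
def fam (Ψ : I → E (k + 1) → E (k + 1)) (φ : E k → E (k + 1)) : Option I → E (k + 1) → E (k + 1)
  | none => fun x => φ (ini x)
  | some i => Ψ i

/-- the filter on the indices with the index of the limit -/
def fl (l : Filter I) : Filter (Option I) := map some l ⊔ pure none

theorem ev_fl {α : Type} {F : Filter α} {P : Option I × α → Prop}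
    (h1 : ∀ᶠ p in l ×ˢ F, P (some p.1, p.2)) (h2 : ∀ᶠ y in F, P (none, y)) :
    ∀ᶠ p in fl l ×ˢ F, P p := by
  rw [fl, sup_prod, eventually_sup, pure_prod, prod_map_left]
  exact ⟨h1, h2⟩

theorem RgX.cvM (h : RgX l u S e φ π y₀ r Ψ V) (hx : x ∈ Cy (closedBall y₀ r) S) :
    CvM (fl l) none 3 (fam Ψ φ) x := by
  have h0 : ContDiff ℝ ∞ fun x => φ (ini x) := h.smφ.comp sm_ini
  refine P366P.cvM_of_iter le_sup_right (ev_fl ((h.sm x hx).mono fun _ q => q.1)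
    (.of_forall fun _ => h0.contDiffAt)) fun j hj s hs => ?_
  exact ev_fl (P := fun p => iteratedFDeriv ℝ j (fam Ψ φ p.1) p.2 ∈ s) (h.cv x hx j hj hs)
    ((h0.continuous_iteratedFDeriv (by exact_mod_cast le_top)).continuousAt hs)

theorem RgX.pt (h : RgX l u S e φ π y₀ r Ψ V) (hs : ∀ᶠ i in l, Slab (u i) S) :
    ∀ᶠ i in l, ∀ x ∈ Cy (closedBall y₀ r) S, Pt (u i) e π (Ψ i) x := by
  filter_upwards [hs, P366P.ev_cpt (P := fun i x => ∀ᶠ y in 𝓝 x, ContDiffAt ℝ ∞ (Ψ i) y ∧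
      u i (e.symm (Ψ i y)) = y (last k)) (P366P.cpt_Cy (isCompact_closedBall y₀ r) S) fun x hx => P366P.ev_nhds (P := fun i y => ContDiffAt ℝ ∞ (Ψ i) y ∧
      u i (e.symm (Ψ i y)) = y (last k)) (h.sm x hx)] with i a b x hx
  exact ⟨h.mem, h.smπ, h.prj i, b x hx, a.sm _ (by rw [(b x hx).self_of_nhds.2]; exact hx.2)⟩

theorem inj_of_pt {u : X → ℝ} {Ψ : E (k + 1) → E (k + 1)} {B : Set (E (k + 1))}
    (h : ∀ x ∈ B, Pt u e π Ψ x) : InjOn Ψ B := fun x hx y hy q => by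
  rw [← snc_ini x, ← snc_ini y, ← (h x hx).prj, ← (h x hx).prj, ← (h x hx).sm.self_of_nhds.2,
    ← (h y hy).sm.self_of_nhds.2, q]

theorem RgX.shrink (h : RgX l u S e φ π y₀ r Ψ V) {r' : ℝ} (h0 : 0 < r') (h1 : r' ≤ r) {O : Set X}
    (hO : O ∈ 𝓝 (e.symm (φ y₀))) :
    RgX l u S e φ π y₀ r' Ψ (V ∩ O ∩ {x | π (e x) ∈ closedBall y₀ r'}) := by
  have hs : Cy (closedBall y₀ r') S ⊆ Cy (closedBall y₀ r) S := fun x hx =>
    ⟨closedBall_subset_closedBall h1 hx.1, hx.2⟩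
  refine ⟨h.mem, h0, h.smφ, h.smπ, h.inv, h.prj, inter_mem (inter_mem h.nhd hO) ?_,
    fun x hx => h.sm x (hs hx), fun x hx => h.cv x (hs hx), h.cov.mono fun i a x hx q => ?_⟩
  · refine (h.smπ.continuous.continuousAt.comp (e.continuousAt (symm_mem h.mem _))).eventually ?_
    simp only [Function.comp, right_inv h.mem, h.inv]
    exact closedBall_mem_nhds _ h0
  · obtain ⟨_, ⟨z, hz, rfl⟩, rfl⟩ := a x hx.1.1 q
    exact ⟨_, ⟨z, ⟨by simpa only [mem_ofPred_eq, right_inv h.mem, h.prj] using hx.2, hz.2⟩, rfl⟩, rfl⟩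

/-- the data at a point, after shrinking -/
structure Dt (l : Filter I) (u : I → X → ℝ) (S : ℝ) (ι : Z → X) (e : Ch (k + 1) X)
    (φ : E k → E (k + 1)) (π : E (k + 1) → E k) (y₀ : E k) (r : ℝ)
    (Ψ : I → E (k + 1) → E (k + 1)) (V : Set X) (c : Ch k Z) : Prop where
  rg : RgX l u S e φ π y₀ r Ψ V
  mem : c ∈ At Z
  eq : ∀ y ∈ closedBall y₀ r, ∀ᶠ y' in 𝓝 y, ι (c.symm y') = e.symm (φ y')
  pre : ∀ z, ι z ∈ V → z ∈ c.symm '' closedBall y₀ r
  src : V ⊆ e.source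

theorem Rg.dt {ι : Z → X} {z : Z} {B : Set X} (h : Rg l u S ι z) (hι : Sub ι B) {O : Set X}
    (hO : O ∈ 𝓝 (ι z)) : ∃ e φ π y₀ r Ψ V c, Dt l u S ι e φ π y₀ r Ψ V c ∧ V ∈ 𝓝 (ι z) ∧ V ⊆ O ∧
      c.symm y₀ = z := by
  obtain ⟨e, φ, π, y₀, r, Ψ, V, h1, c, hc, rfl, h2⟩ := h
  obtain ⟨ε, ε0, hε⟩ := nhds_basis_closedBall.eventually_iff.1 h2.eventually_nhds
  have r0 : 0 < min ε r := lt_min ε0 h1.r0
  have h3 : c.symm '' closedBall y₀ (min ε r) ∈ 𝓝 (c.symm y₀) := by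
    rw [← map_symm hc]; exact image_mem_map (closedBall_mem_nhds _ r0)
  rw [hι.emb.nhds_eq_comap] at h3
  obtain ⟨O', o1, o2⟩ := h3
  rw [h2.self_of_nhds] at o1 hO
  have h4 := h1.shrink r0 (min_le_right _ _) (inter_mem (inter_mem o1 hO)
    (e.open_source.mem_nhds (symm_mem h1.mem _)))
  exact ⟨e, φ, π, y₀, _, Ψ, _, c, ⟨h4, hc, fun y hy =>
    hε (closedBall_subset_closedBall (min_le_left _ _) hy), fun z hz => o2 hz.1.2.1.1,
    fun x hx => hx.1.2.2⟩, h2.self_of_nhds ▸ h4.nhd, fun x hx => hx.1.2.1.2, rfl⟩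

end Vale.Agent.P366M.Gr
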