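import Vale.Agent.P366M.Defs
import Vale.Agent.P366Z.Calc3

/-!
# P366P: changes of coordinates; the law of the Christoffel symbols in matrix form
-/

open Filter Topology Matrix
open scoped ContDiff
open Vale.Agent.P366.Stmt Vale.Agent.P366Z
open Vale.Agent.P366M (jac)

noncomputable section

namespace Vale.Agent.P366P

variable {n : ℕ}

/-- square matrices -/
abbrev Mx (n : ℕ) := Matrix (Fin n) (Fin n) ℝ

/-! ### entrywise calculus -/

/-- entrywise differentiability -/
def DA (A : E n → Mx n) (x : E n) : Prop := ∀ i j, DifferentiableAt ℝ (fun y => A y i j) x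

/-- the entrywise derivative -/
def Dm (k : Fin n) (A : E n → Mx n) : E n → Mx n :=
  fun x => Matrix.of fun i j => pd k (fun y => A y i j) x

section Entry

variable {A C : E n → Mx n} {x : E n}

theorem Dm_apply (k : Fin n) (A : E n → Mx n) (x : E n) (i j : Fin n) :
    Dm k A x i j = pd k (fun y => A y i j) x := rfl

theorem DA.mul (hA : DA A x) (hC : DA C x) : DA (fun y => A y * C y) x := by
  intro i j
  simp only [Matrix.mul_apply]
  exact DifferentiableAt.fun_sum fun l _ => (hA i l).mul (hC l j)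

theorem DA.add (hA : DA A x) (hC : DA C x) : DA (fun y => A y + C y) x := by
  intro i j
  simp only [Matrix.add_apply]
  exact (hA i j).add (hC i j)

theorem DA.tr (hA : DA A x) : DA (fun y => (A y)ᵀ) x := fun i j => hA j i

theorem DA.congr (hA : DA A x) (h : C =ᶠ[𝓝 x] A) : DA C x := by
  intro i j
  refine (hA i j).congr_of_eventuallyEq ?_
  filter_upwards [h] with y hy
  rw [hy]

theorem Dm_congr (h : C =ᶠ[𝓝 x] A) (k : Fin n) : Dm k C x = Dm k A x := by
  ext i j
  rw [Dm_apply, Dm_apply]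
  refine pd_congr ?_ k
  filter_upwards [h] with y hy
  rw [hy]

theorem Dm_tr (k : Fin n) : Dm k (fun y => (A y)ᵀ) x = (Dm k A x)ᵀ := rfl

theorem Dm_mul (hA : DA A x) (hC : DA C x) (k : Fin n) :
    Dm k (fun y => A y * C y) x = Dm k A x * C x + A x * Dm k C x := by
  ext i j
  rw [Matrix.add_apply, Matrix.mul_apply, Matrix.mul_apply, ← Finset.sum_add_distrib, Dm_apply]
  have h1 : (fun y => (A y * C y) i j) = fun y => ∑ l, A y i l * C y l j := by
    funext y
    rw [Matrix.mul_apply]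
  have h2 := pd_sum Finset.univ (F := fun l y => A y i l * C y l j) (x := x)
    (fun l _ => (hA i l).mul (hC l j)) k
  rw [h1, h2]
  refine Finset.sum_congr rfl fun l _ => ?_
  rw [pd_mul (hA i l) (hC l j), Dm_apply, Dm_apply]

theorem Dm_add (hA : DA A x) (hC : DA C x) (k : Fin n) :
    Dm k (fun y => A y + C y) x = Dm k A x + Dm k C x := by
  ext i j
  rw [Matrix.add_apply, Dm_apply]
  exact pd_add (hA i j) (hC i j) k

/-- a linear combination of matrix fields -/
def comb (c : Fin n → E n → ℝ) (A : Fin n → E n → Mx n) : E n → Mx n :=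
  fun y => ∑ a, c a y • A a y

theorem comb_apply (c : Fin n → E n → ℝ) (A : Fin n → E n → Mx n) (y : E n) (i j : Fin n) :
    comb c A y i j = ∑ a, c a y * A a y i j := by
  unfold comb
  rw [Matrix.sum_apply]
  rfl

theorem DA.comb {c : Fin n → E n → ℝ} {A : Fin n → E n → Mx n}
    (hc : ∀ a, DifferentiableAt ℝ (c a) x) (hA : ∀ a, DA (A a) x) : DA (comb c A) x := by
  intro i j
  simp only [comb_apply]
  exact DifferentiableAt.fun_sum fun a _ => (hc a).mul (hA a i j)

theorem Dm_comb {c : Fin n → E n → ℝ} {A : Fin n → E n → Mx n}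
    (hc : ∀ a, DifferentiableAt ℝ (c a) x) (hA : ∀ a, DA (A a) x) (k : Fin n) :
    Dm k (P366P.comb c A) x = ∑ a, (pd k (c a) x • A a x + c a x • Dm k (A a) x) := by
  ext i j
  rw [Dm_apply, Matrix.sum_apply]
  have h1 : (fun y => P366P.comb c A y i j) = fun y => ∑ a, c a y * A a y i j := by
    funext y
    rw [comb_apply]
  have h2 := pd_sum Finset.univ (F := fun a y => c a y * A a y i j) (x := x)
    (fun a _ => (hc a).mul (hA a i j)) k
  rw [h1, h2]
  refine Finset.sum_congr rfl fun a _ => ?_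
  rw [pd_mul (hc a) (hA a i j), Matrix.add_apply, Matrix.smul_apply, Matrix.smul_apply,
    smul_eq_mul, smul_eq_mul, Dm_apply]

end Entry

/-- **the chain rule** -/
theorem pd_chain {m : ℕ} {τ : E m → E n} {f : E n → ℝ} {y : E m} (hf : DifferentiableAt ℝ f (τ y))
    (hτ : DifferentiableAt ℝ τ y) (i : Fin m) :
    pd i (fun z => f (τ z)) y = ∑ k, jac τ y k i * pd k f (τ y) := by
  have h1 : HasFDerivAt (fun z => f (τ z)) ((fderiv ℝ f (τ y)).comp (fderiv ℝ τ y)) y :=
    hf.hasFDerivAt.comp y hτ.hasFDerivAt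
  rw [pd_of_hasFDerivAt h1, ContinuousLinearMap.comp_apply, fderiv_eq_sum hf]
  refine Finset.sum_congr rfl fun a _ => ?_
  have h4 : HasFDerivAt (fun z => τ z a)
      ((EuclideanSpace.proj (𝕜 := ℝ) a).comp (fderiv ℝ τ y)) y :=
    (EuclideanSpace.proj (𝕜 := ℝ) a).hasFDerivAt.comp y hτ.hasFDerivAt
  have h3 : jac τ y a i = (fderiv ℝ τ y (EuclideanSpace.single i (1 : ℝ))) a :=
    pd_of_hasFDerivAt h4 i
  rw [h3]

theorem DA.chain {τ : E n → E n} {A : E n → Mx n} {x : E n} (hA : DA A (τ x))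
    (hτ : DifferentiableAt ℝ τ x) : DA (fun y => A (τ y)) x := fun i j =>
  ((hA i j).hasFDerivAt.comp x hτ.hasFDerivAt).differentiableAt

theorem Dm_chain {τ : E n → E n} {A : E n → Mx n} {x : E n} (hA : DA A (τ x))
    (hτ : DifferentiableAt ℝ τ x) (k : Fin n) :
    Dm k (fun y => A (τ y)) x = ∑ a, jac τ x a k • Dm a A (τ x) := by
  ext i j
  rw [Dm_apply, Matrix.sum_apply]
  exact pd_chain (f := fun y => A y i j) (hA i j) hτ k

theorem trip (A B C : Mx n) (i j : Fin n) :
    (Aᵀ * B * C) i j = ∑ k, ∑ l, A k i * C l j * B k l := by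
  rw [Matrix.mul_apply, Finset.sum_comm]
  refine Finset.sum_congr rfl fun b _ => ?_
  rw [Matrix.mul_apply, Finset.sum_mul]
  exact Finset.sum_congr rfl fun a _ => by rw [Matrix.transpose_apply]; ring

theorem trip' (A B C : Mx n) (i j : Fin n) :
    (A * B * Cᵀ) i j = ∑ k, ∑ l, A i k * C j l * B k l := trip Aᵀ B Cᵀ i j

theorem cda_det {m : WithTop ℕ∞} {A : E n → Mx n} {x : E n}
    (hA : ∀ i j, ContDiffAt ℝ m (fun y => A y i j) x) : ContDiffAt ℝ m (fun y => (A y).det) x := by
  simp only [Matrix.det_apply']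
  refine ContDiffAt.sum fun σ _ => ?_
  exact contDiffAt_const.mul (contDiffAt_prod fun i _ => hA _ _)

theorem cda_inv {m : WithTop ℕ∞} {A : E n → Mx n} {x : E n}
    (hA : ∀ i j, ContDiffAt ℝ m (fun y => A y i j) x) (hd : (A x).det ≠ 0) (i j : Fin n) :
    ContDiffAt ℝ m (fun y => (A y)⁻¹ i j) x := by
  have h1 : (fun y => (A y)⁻¹ i j) = fun y => (A y).det⁻¹ * (A y).adjugate i j := by
    funext y
    rw [Matrix.inv_def, Matrix.smul_apply, smul_eq_mul, Ring.inverse_eq_inv']
  rw [h1]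
  refine ((cda_det hA).inv hd).mul ?_
  have h2 : (fun y => (A y).adjugate i j) =
      fun y => ((A y).updateRow j (Pi.single i 1)).det := by
    funext y
    rw [Matrix.adjugate_apply]
  rw [h2]
  refine cda_det fun a b => ?_
  by_cases ha : a = j
  · subst ha
    simp only [Matrix.updateRow_self]
    exact contDiffAt_const
  · simp only [Matrix.updateRow_ne ha]
    exact hA a b

theorem cda_jac {m k : WithTop ℕ∞} {τ : E n → E n} {y : E n} (h : ContDiffAt ℝ m τ y)
    (hk : k + 1 ≤ m) (a i : Fin n) : ContDiffAt ℝ k (fun z => jac τ z a i) y :=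
  contDiffAt_pd (f := fun z => τ z a)
    (((EuclideanSpace.proj (𝕜 := ℝ) a).contDiff (n := m)).contDiffAt.comp y h) hk i

/-! ### changes of coordinates -/

/-- a change of coordinates near `y` -/
structure Chg (τ : E n → E n) (y : E n) : Prop where
  sm : ContDiffAt ℝ ∞ τ y
  det : IsUnit (jac τ y).det

/-- a change of coordinates of class `C³` (an open condition) -/
structure C3 (τ : E n → E n) (y : E n) : Prop where
  sm : ContDiffAt ℝ 3 τ y
  det : IsUnit (jac τ y).det

variable {τ : E n → E n} {y : E n}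

theorem Chg.c3 (h : Chg τ y) : C3 τ y := ⟨h.sm.of_le (by norm_cast), h.det⟩

theorem Chg.sm_jac (h : Chg τ y) (a i : Fin n) : ContDiffAt ℝ ∞ (fun z => jac τ z a i) y :=
  cda_jac h.sm (by norm_num) a i

theorem Chg.sm_inv (h : Chg τ y) (a i : Fin n) : ContDiffAt ℝ ∞ (fun z => (jac τ z)⁻¹ a i) y :=
  cda_inv h.sm_jac h.det.ne_zero a i

namespace C3

variable (h : C3 τ y)
include h

theorem diff : DifferentiableAt ℝ τ y := h.sm.differentiableAt (by norm_num)

theorem cont : ContinuousAt τ y := h.sm.continuousAt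

theorem smc (a : Fin n) : ContDiffAt ℝ 3 (fun z => τ z a) y :=
  ((EuclideanSpace.proj (𝕜 := ℝ) a).contDiff (n := 3)).contDiffAt.comp y h.sm

theorem smB (a i : Fin n) : ContDiffAt ℝ 2 (fun z => jac τ z a i) y :=
  cda_jac h.sm (by norm_num) a i

theorem smI (a i : Fin n) : ContDiffAt ℝ 2 (fun z => (jac τ z)⁻¹ a i) y :=
  cda_inv h.smB h.det.ne_zero a i

theorem daB : DA (jac τ) y := fun a i => diff2 (h.smB a i)

theorem daI : DA (fun z => (jac τ z)⁻¹) y := fun a i => diff2 (h.smI a i)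

theorem daDB (k : Fin n) : DA (Dm k (jac τ)) y := fun a i => diffAt_pd (h.smB a i) k

theorem db_symm (i a j : Fin n) : Dm i (jac τ) y a j = Dm j (jac τ) y a i :=
  pd_comm (f := fun z => τ z a) ((h.smc a).of_le (by norm_num)) i j

theorem ddb_symm (k i : Fin n) : Dm k (Dm i (jac τ)) y = Dm i (Dm k (jac τ)) y := by
  ext a j
  exact pd_comm (h.smB a j) k i

theorem ev : ∀ᶠ z in 𝓝 y, C3 τ z := by
  have h1 : ∀ᶠ z in 𝓝 y, ContDiffAt ℝ 3 τ z := h.sm.eventually (by norm_num)
  have h2 : ∀ᶠ z in 𝓝 y, (jac τ z).det ≠ 0 :=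
    (cda_det h.smB).continuousAt.eventually_ne h.det.ne_zero
  filter_upwards [h1, h2] with z a b
  exact ⟨a, isUnit_iff_ne_zero.2 b⟩

theorem mul_inv : jac τ y * (jac τ y)⁻¹ = 1 := Matrix.mul_nonsing_inv _ h.det

theorem inv_mul : (jac τ y)⁻¹ * jac τ y = 1 := Matrix.nonsing_inv_mul _ h.det

theorem sum_mul_inv (a b : Fin n) :
    ∑ k, jac τ y a k * (jac τ y)⁻¹ k b = if a = b then 1 else 0 := by
  rw [← Matrix.mul_apply, h.mul_inv, Matrix.one_apply]

theorem sum_inv_mul (a b : Fin n) :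
    ∑ k, (jac τ y)⁻¹ a k * jac τ y k b = if a = b then 1 else 0 := by
  rw [← Matrix.mul_apply, h.inv_mul, Matrix.one_apply]

end C3

/-- `T'` is the pull-back of the covariant tensor `T` near `y` -/
abbrev PT (τ : E n → E n) (T T' : Field n) (y : E n) : Prop :=
  ∀ᶠ z in 𝓝 y, ∀ i j, T' z i j = ∑ k, ∑ l, jac τ z k i * jac τ z l j * T (τ z) k l

/-- `w'` is the pull-back of the covector field `w` near `y` -/
abbrev PC (τ : E n → E n) (w w' : Fin n → E n → ℝ) (y : E n) : Prop :=
  ∀ᶠ z in 𝓝 y, ∀ i, w' i z = ∑ k, jac τ z k i * w k (τ z)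

/-- `X'` is the pull-back of the vector field `X` near `y` -/
abbrev PV (τ : E n → E n) (X X' : Fin n → E n → ℝ) (y : E n) : Prop :=
  ∀ᶠ z in 𝓝 y, ∀ i, X' i z = ∑ k, (jac τ z)⁻¹ i k * X k (τ z)

/-- `u'` is the pull-back of the function `u` near `y` -/
abbrev PF (τ : E n → E n) (u u' : E n → ℝ) (y : E n) : Prop := u' =ᶠ[𝓝 y] fun z => u (τ z)

theorem mat_of {T T' : Field n} {z : E n}
    (e : ∀ i j, T' z i j = ∑ k, ∑ l, jac τ z k i * jac τ z l j * T (τ z) k l) :
    mat T' z = (jac τ z)ᵀ * mat T (τ z) * jac τ z := by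
  ext i j
  rw [trip]
  exact e i j

theorem PT.mat {T T' : Field n} (e : PT τ T T' y) :
    mat T' =ᶠ[𝓝 y] fun z => (jac τ z)ᵀ * mat T (τ z) * jac τ z := e.mono fun _ hz => mat_of hz

/-- the derivative of a pull-back -/
theorem C3.Dm_pull (h : C3 τ y) {T T' : Field n} (hT : DA (mat T) (τ y)) (e : PT τ T T' y)
    (k : Fin n) : Dm k (mat T') y = (Dm k (jac τ) y)ᵀ * mat T (τ y) * jac τ y +
      (jac τ y)ᵀ * (∑ a, jac τ y a k • Dm a (mat T) (τ y)) * jac τ y +
      (jac τ y)ᵀ * mat T (τ y) * Dm k (jac τ) y := by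
  have h1 := hT.chain h.diff
  rw [Dm_congr e.mat, Dm_mul (h.daB.tr.mul h1) h.daB, Dm_mul h.daB.tr h1, Dm_tr,
    Dm_chain hT h.diff, Matrix.add_mul]

theorem C3.da_pull (h : C3 τ y) {T T' : Field n} (hT : DA (mat T) (τ y)) (e : PT τ T T' y) :
    DA (mat T') y := ((h.daB.tr.mul (hT.chain h.diff)).mul h.daB).congr e.mat

/-! ### the connection -/

/-- the Christoffel symbols as matrices -/
def Gam (g : Field n) (i : Fin n) : E n → Mx n := fun x => Matrix.of fun k j => chr g k i j x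

theorem _root_.Vale.Agent.P366Z.Met.da {g : Field n} (hg : Met g) (x : E n) : DA (mat g) x :=
  fun i j => (hg.sm i j).diff x

theorem _root_.Vale.Agent.P366Z.Met.daGam {g : Field n} (hg : Met g) (i : Fin n) (x : E n) :
    DA (Gam g i) x := fun k j => (hg.sm_chr k i j).diff x

theorem _root_.Vale.Agent.P366Z.Met.mat_tr {g : Field n} (hg : Met g) (x : E n) :
    (mat g x)ᵀ = mat g x := by
  ext i j
  exact hg.sy x j i

/-- the metric is parallel -/
theorem _root_.Vale.Agent.P366Z.Met.Dm_mat {g : Field n} (hg : Met g) (k : Fin n) (x : E n) :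
    Dm k (mat g) x = (Gam g k x)ᵀ * mat g x + mat g x * Gam g k x := by
  ext i j
  rw [Matrix.add_apply, Matrix.mul_apply, Matrix.mul_apply]
  refine (hg.pd_g k i j x).trans ?_
  congr 1
  refine Finset.sum_congr rfl fun l _ => ?_
  rw [hg.sy x j l, mul_comm]
  rfl

/-- the combination of the symbols of `g` -/
def A1 (τ : E n → E n) (g : Field n) (i : Fin n) : E n → Mx n :=
  comb (fun a z => jac τ z a i) (fun a z => Gam g a (τ z))

theorem A1_eq (τ : E n → E n) (g : Field n) (i : Fin n) (y : E n) :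
    A1 τ g i y = ∑ a, jac τ y a i • Gam g a (τ y) := rfl

/-- the situation of a pull-back of metrics -/
structure Ctx (τ : E n → E n) (g g' : Field n) (y : E n) : Prop where
  c : C3 τ y
  m : Met g
  m' : Met g'
  pull : PT τ g g' y

namespace Ctx

variable {g g' : Field n} (h : Ctx τ g g' y)
include h

theorem ev : ∀ᶠ z in 𝓝 y, Ctx τ g g' z := by
  filter_upwards [h.c.ev, h.pull.eventually_nhds] with z a b
  exact ⟨a, h.m, h.m', b⟩

theorem mat_eq : mat g' y = (jac τ y)ᵀ * mat g (τ y) * jac τ y := h.pull.mat.self_of_nhds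

theorem inv_eq : (mat g' y)⁻¹ = (jac τ y)⁻¹ * (mat g (τ y))⁻¹ * ((jac τ y)⁻¹)ᵀ := by
  rw [h.mat_eq, Matrix.mul_inv_rev, Matrix.mul_inv_rev, Matrix.transpose_nonsing_inv,
    Matrix.mul_assoc]

theorem inv_eq' : jac τ y * (mat g' y)⁻¹ * (jac τ y)ᵀ = (mat g (τ y))⁻¹ := by
  rw [h.inv_eq, ← Matrix.mul_assoc, ← Matrix.mul_assoc, h.c.mul_inv, Matrix.one_mul,
    Matrix.mul_assoc, ← Matrix.transpose_mul, h.c.mul_inv, Matrix.transpose_one, Matrix.mul_one]

theorem A1_sy (i a j : Fin n) :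
    (A1 τ g i y * jac τ y) a j = (A1 τ g j y * jac τ y) a i := by
  have e : ∀ i j, (A1 τ g i y * jac τ y) a j =
      ∑ b, ∑ c, jac τ y b i * jac τ y c j * chr g a b c (τ y) := by
    intro i j
    rw [Matrix.mul_apply, Finset.sum_comm]
    refine Finset.sum_congr rfl fun c _ => ?_
    rw [A1, comb_apply, Finset.sum_mul]
    refine Finset.sum_congr rfl fun b _ => ?_
    show jac τ y b i * chr g a b c (τ y) * jac τ y c j = _
    ring
  rw [e, e, Finset.sum_comm]
  refine Finset.sum_congr rfl fun b _ => Finset.sum_congr rfl fun c _ => ?_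
  rw [h.m.chr_sy a c b]
  ring

/-- **the law of the Christoffel symbols** -/
theorem Gam_law (i : Fin n) :
    jac τ y * Gam g' i y = Dm i (jac τ) y + A1 τ g i y * jac τ y := by
  set L : Fin n → Mx n := fun i =>
    (jac τ y)ᵀ * mat g (τ y) * (Dm i (jac τ) y + A1 τ g i y * jac τ y) with hL
  have h1 : ∀ k, Dm k (mat g') y = (L k)ᵀ + L k := by
    intro k
    rw [h.c.Dm_pull (h.m.da _) h.pull]
    have e : ∑ a, jac τ y a k • Dm a (mat g) (τ y) =
        (A1 τ g k y)ᵀ * mat g (τ y) + mat g (τ y) * A1 τ g k y := by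
      rw [A1_eq, Matrix.transpose_sum, Matrix.sum_mul, Matrix.mul_sum, ← Finset.sum_add_distrib]
      refine Finset.sum_congr rfl fun a _ => ?_
      rw [h.m.Dm_mat, Matrix.transpose_smul, Matrix.smul_mul, Matrix.mul_smul, smul_add]
    rw [e]
    simp only [hL, Matrix.transpose_mul, Matrix.transpose_add, Matrix.transpose_transpose,
      h.m.mat_tr, Matrix.mul_add, Matrix.add_mul, Matrix.mul_assoc]
    abel
  have h2 : ∀ i l j, L i l j = L j l i := by
    intro i l j
    simp only [hL]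
    rw [Matrix.mul_apply, Matrix.mul_apply]
    refine Finset.sum_congr rfl fun a _ => ?_
    rw [Matrix.add_apply, Matrix.add_apply, h.c.db_symm i a j, h.A1_sy i a j]
  have h3 : Gam g' i y = (mat g' y)⁻¹ * L i := by
    ext k j
    rw [Matrix.mul_apply]
    show chr g' k i j y = _
    unfold chr
    rw [Finset.sum_div]
    refine Finset.sum_congr rfl fun l _ => ?_
    have e : ∀ a b c, pd a (fun z => g' z b c) y = L a c b + L a b c := fun a b c =>
      congrFun (congrFun (h1 a) b) c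
    rw [e, e, e, h2 j l i, h2 i j l, h2 j i l]
    show (mat g' y)⁻¹ k l * _ / 2 = _
    ring
  rw [h3]
  simp only [hL]
  rw [← Matrix.mul_assoc, ← Matrix.mul_assoc, ← Matrix.mul_assoc, h.inv_eq',
    Matrix.nonsing_inv_mul _ (h.m.det_pos _).ne'.isUnit, Matrix.one_mul]

end Ctx

end Vale.Agent.P366P
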