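import Vale.Agent.P366Z.Calc3
import Vale.Agent.P366Y.C.Defs

/-!
# P366P: the identity of Ricci for vector fields
-/

open Filter Topology
open scoped ContDiff
open Vale.Agent.P366.Stmt Vale.Agent.P366Z
open Vale.Agent.P366Y.C (rc)

noncomputable section

namespace Vale.Agent.P366P

variable {n : ℕ} {x : E n} {g : Field n} {X : Fin n → E n → ℝ} {φ : E n → ℝ}

theorem rot3 {ι : Type} [Fintype ι] (F : ι → ι → ι → ℝ) :
    ∑ i, ∑ j, ∑ k, F i j k = ∑ j, ∑ k, ∑ i, F i j k := by
  rw [Finset.sum_comm]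
  exact Finset.sum_congr rfl fun j _ => Finset.sum_comm

theorem swp3 {ι : Type} [Fintype ι] (F : ι → ι → ι → ℝ) :
    ∑ i, ∑ j, ∑ k, F i j k = ∑ i, ∑ k, ∑ j, F i j k :=
  Finset.sum_congr rfl fun _ _ => Finset.sum_comm

theorem ric_alg {ι : Type} [Fintype ι] {G : ι → ι → ι → ℝ} (hG : ∀ k i j, G k i j = G k j i)
    (dG : ι → ι → ι → ι → ℝ) (X : ι → ℝ) (dX : ι → ι → ℝ) {ddX : ι → ι → ι → ℝ}
    (hX : ∀ a b i, ddX a b i = ddX b a i) {c : ι → ι → ℝ}
    (hc : ∀ i j, c i j = dX j i + ∑ k, G i j k * X k) :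
    ∑ i, (∑ j, (dX i j * c i j + X j * (ddX i j i + ∑ k, (dG i i j k * X k + G i j k * dX i k))) +
      ∑ k, G i i k * ∑ j, X j * c k j) = ∑ i, ∑ j, c i j * c j i +
      ∑ j, ∑ l, (∑ i, (dG i i j l - dG j i i l + ∑ k, (G i i k * G k j l - G k i j * G i k l))) *
        X j * X l +
      ∑ j, X j * ∑ i, (ddX j i i + ∑ k, (dG j i i k * X k + G i i k * dX j k)) := by
  have e1 : ∑ i, ∑ k, G i i k * ∑ j, X j * c k j = ∑ j, ∑ i, ∑ k, X j * (G i i k * dX j k) +
      ∑ j, ∑ l, ∑ i, ∑ k, G i i k * G k j l * X j * X l := by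
    simp only [hc, mul_add, Finset.mul_sum, Finset.sum_add_distrib]
    congr 1
    · rw [rot3, rot3]
      exact Finset.sum_congr rfl fun _ _ => Finset.sum_congr rfl fun _ _ =>
        Finset.sum_congr rfl fun _ _ => by ring
    · rw [rot3 fun i k j => ∑ l, G i i k * (X j * (G k j l * X l)), Finset.sum_comm]
      refine Finset.sum_congr rfl fun j _ => ?_
      rw [rot3, rot3]
      refine Finset.sum_congr rfl fun l _ => ?_
      rw [Finset.sum_comm]
      exact Finset.sum_congr rfl fun _ _ => Finset.sum_congr rfl fun _ _ => by ring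
  have e2 : ∑ i, ∑ j, c i j * c j i = ∑ i, ∑ j, dX i j * c i j +
      ∑ i, ∑ j, ∑ k, X j * (G i j k * dX i k) +
      ∑ j, ∑ l, ∑ i, ∑ k, G k i j * G i k l * X j * X l := by
    have h1 : ∀ i j, c i j * c j i = dX i j * c i j + (∑ k, dX j i * (G j i k * X k) +
        ∑ l, ∑ k, G i j l * X l * (G j i k * X k)) := by
      intro i j
      rw [hc j i, mul_add, mul_comm (c i j), hc i j, add_mul, Finset.mul_sum, Finset.sum_mul_sum]
    simp only [h1, Finset.sum_add_distrib, add_assoc]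
    congr 2
    · rw [Finset.sum_comm]
      refine Finset.sum_congr rfl fun i _ => ?_
      rw [Finset.sum_comm]
      exact Finset.sum_congr rfl fun j _ => Finset.sum_congr rfl fun k _ => by
        rw [hG i k j]; ring
    · rw [rot3 fun i j l => ∑ k, G i j l * X l * (G j i k * X k), Finset.sum_comm]
      refine Finset.sum_congr rfl fun j _ => ?_
      rw [rot3, rot3]
      exact Finset.sum_congr rfl fun _ _ => Finset.sum_congr rfl fun _ _ =>
        Finset.sum_congr rfl fun _ _ => by ring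
  have e3 : ∑ i, ∑ j, X j * ddX i j i = ∑ j, ∑ i, X j * ddX j i i := by
    rw [Finset.sum_comm]
    exact Finset.sum_congr rfl fun j _ => Finset.sum_congr rfl fun i _ => by rw [hX]
  have e4 : ∑ i, ∑ j, ∑ k, X j * (dG i i j k * X k) = ∑ j, ∑ l, ∑ i, dG i i j l * X j * X l := by
    rw [rot3]
    exact Finset.sum_congr rfl fun _ _ => Finset.sum_congr rfl fun _ _ =>
      Finset.sum_congr rfl fun _ _ => by ring
  have e5 : ∑ j, ∑ i, ∑ k, X j * (dG j i i k * X k) = ∑ j, ∑ l, ∑ i, dG j i i l * X j * X l := by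
    rw [swp3]
    exact Finset.sum_congr rfl fun _ _ => Finset.sum_congr rfl fun _ _ =>
      Finset.sum_congr rfl fun _ _ => by ring
  rw [Finset.sum_add_distrib, e1, e2]
  simp only [mul_add, add_mul, sub_mul, Finset.mul_sum, Finset.sum_mul, Finset.sum_add_distrib,
    Finset.sum_sub_distrib]
  rw [e3, e4, e5]
  ring

/-- the covariant derivative of a vector field -/
def cd (g : Field n) (X : Fin n → E n → ℝ) (i j : Fin n) (x : E n) : ℝ :=
  pd j (X i) x + ∑ k, chr g i j k x * X k x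

/-- the acceleration `∇_X X` -/
def acc (g : Field n) (X : Fin n → E n → ℝ) (i : Fin n) (x : E n) : ℝ := ∑ j, X j x * cd g X i j x

theorem diff_cd (hg : Met g) (hX : ∀ i, ContDiffAt ℝ 2 (X i) x) (i j : Fin n) :
    DifferentiableAt ℝ (cd g X i j) x :=
  (diffAt_pd (hX i) j).fun_add (DifferentiableAt.fun_sum fun k _ =>
    ((hg.sm_chr i j k).diff x).fun_mul (diff2 (hX k)))

theorem diff_acc (hg : Met g) (hX : ∀ i, ContDiffAt ℝ 2 (X i) x) (i : Fin n) :
    DifferentiableAt ℝ (acc g X i) x :=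
  DifferentiableAt.fun_sum fun j _ => (diff2 (hX j)).fun_mul (diff_cd hg hX i j)

theorem pd_cd (hg : Met g) (hX : ∀ i, ContDiffAt ℝ 2 (X i) x) (a i j : Fin n) :
    pd a (cd g X i j) x = pd a (pd j (X i)) x +
      ∑ k, (pd a (chr g i j k) x * X k x + chr g i j k x * pd a (X k) x) := by
  have h1 := pd_add (diffAt_pd (hX i) j) (DifferentiableAt.fun_sum (u := Finset.univ) fun k _ =>
    ((hg.sm_chr i j k).diff x).fun_mul (diff2 (hX k))) a
  refine h1.trans ?_
  rw [pd_sum Finset.univ (F := fun k y => chr g i j k y * X k y)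
    fun k _ => ((hg.sm_chr i j k).diff x).fun_mul (diff2 (hX k))]
  simp only [pd_mul ((hg.sm_chr i j _).diff x) (diff2 (hX _))]

theorem dv_eq_cd (hg : Met g) (hX : ∀ i, DifferentiableAt ℝ (X i) x) :
    dv g X x = ∑ i, cd g X i i x := hg.dv_chr hX

theorem dv_ev (hg : Met g) (hX : ∀ i, ContDiffAt ℝ 2 (X i) x) :
    dv g X =ᶠ[𝓝 x] fun y => ∑ i, cd g X i i y := by
  filter_upwards [eventually_all.2 fun i => ev_diff (hX i)] with y hy
  exact dv_eq_cd hg hy

theorem diff_dv (hg : Met g) (hX : ∀ i, ContDiffAt ℝ 2 (X i) x) : DifferentiableAt ℝ (dv g X) x :=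
  (DifferentiableAt.fun_sum fun i _ => diff_cd hg hX i i).congr_of_eventuallyEq (dv_ev hg hX)

/-- **the identity of Ricci** -/
theorem ricci_id (hg : Met g) (hX : ∀ i, ContDiffAt ℝ 2 (X i) x) :
    dv g (acc g X) x = ∑ i, ∑ j, cd g X i j x * cd g X j i x +
      ∑ j, ∑ l, rc g x j l * X j x * X l x + ∑ j, X j x * pd j (dv g X) x := by
  have h1 : ∀ i, pd i (acc g X i) x =
      ∑ j, (pd i (X j) x * cd g X i j x + X j x * pd i (cd g X i j) x) := by
    intro i
    refine (pd_sum Finset.univ (F := fun j y => X j y * cd g X i j y)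
      (fun j _ => (diff2 (hX j)).fun_mul (diff_cd hg hX i j)) i).trans ?_
    simp only [pd_mul (diff2 (hX _)) (diff_cd hg hX i _)]
  have h2 : ∀ j, pd j (dv g X) x = ∑ i, pd j (cd g X i i) x := fun j => by
    rw [pd_congr (dv_ev hg hX), pd_sum Finset.univ fun i _ => diff_cd hg hX i i]
  rw [hg.dv_chr (diff_acc hg hX)]
  simp only [h1, h2, pd_cd hg hX]
  exact ric_alg (G := fun k i j => chr g k i j x) (fun k i j => hg.chr_sy k i j x)
    (fun a k i j => pd a (chr g k i j) x) (fun i => X i x) (fun a i => pd a (X i) x)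
    (ddX := fun a b i => pd a (pd b (X i)) x) (fun a b i => pd_comm (hX i) a b)
    (c := fun i j => cd g X i j x) fun _ _ => rfl

/-- the second derivative of a function along a vector field -/
theorem pd_pair (hX : ∀ i, DifferentiableAt ℝ (X i) x) (hφ : ContDiffAt ℝ 2 φ x) (j : Fin n) :
    pd j (fun y => ∑ i, pd i φ y * X i y) x =
      ∑ i, hess g φ x j i * X i x + ∑ i, pd i φ x * cd g X i j x := by
  rw [pd_sum Finset.univ (F := fun i y => pd i φ y * X i y)
    fun i _ => (diffAt_pd hφ i).fun_mul (hX i)]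
  simp only [pd_mul (diffAt_pd hφ _) (hX _), hess, cd, sub_mul, mul_add, Finset.sum_add_distrib,
    Finset.sum_sub_distrib, Finset.mul_sum, Finset.sum_mul]
  have : ∑ i, ∑ k, chr g k j i x * pd k φ x * X i x = ∑ i, ∑ k, pd i φ x * (chr g i j k x * X k x) := by
    rw [Finset.sum_comm]
    exact Finset.sum_congr rfl fun _ _ => Finset.sum_congr rfl fun _ _ => by ring
  rw [this]
  ring

/-- the divergence with the weight `exp φ` -/
def dvw (g : Field n) (φ : E n → ℝ) (X : Fin n → E n → ℝ) (x : E n) : ℝ :=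
  dv g X x + ∑ i, pd i φ x * X i x

theorem dvw_eq (hg : Met g) (hX : ∀ i, DifferentiableAt ℝ (X i) x) (hφ : DifferentiableAt ℝ φ x) :
    dv g (fun i y => Real.exp (φ y) * X i y) x = Real.exp (φ x) * dvw g φ X x := by
  rw [hg.dv_smul hφ.exp hX, dvw, mul_add, Finset.mul_sum]
  simp only [pd_exp hφ, mul_assoc]

/-- **the weighted identity of Ricci** -/
theorem ricci_w (hg : Met g) (hX : ∀ i, ContDiffAt ℝ 2 (X i) x) (hφ : ContDiffAt ℝ 2 φ x) :
    dvw g φ (acc g X) x = ∑ i, ∑ j, cd g X i j x * cd g X j i x +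
      ∑ j, ∑ l, (rc g x j l - hess g φ x j l) * X j x * X l x +
      ∑ j, X j x * pd j (dvw g φ X) x := by
  have h1 : ∀ j, pd j (dvw g φ X) x = pd j (dv g X) x +
      (∑ i, hess g φ x j i * X i x + ∑ i, pd i φ x * cd g X i j x) := by
    intro j
    rw [← pd_pair (fun i => diff2 (hX i)) hφ]
    exact pd_add (diff_dv hg hX) (DifferentiableAt.fun_sum fun i _ =>
      (diffAt_pd hφ i).fun_mul (diff2 (hX i))) j
  have h2 : ∑ i, pd i φ x * acc g X i x = ∑ j, ∑ i, X j x * (pd i φ x * cd g X i j x) := by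
    simp only [acc, Finset.mul_sum]
    rw [Finset.sum_comm]
    exact Finset.sum_congr rfl fun _ _ => Finset.sum_congr rfl fun _ _ => by ring
  have h3 : ∑ j, ∑ i, X j x * (hess g φ x j i * X i x) =
      ∑ j, ∑ l, hess g φ x j l * X j x * X l x :=
    Finset.sum_congr rfl fun _ _ => Finset.sum_congr rfl fun _ _ => by ring
  rw [dvw, ricci_id hg hX, h2]
  simp only [h1, mul_add, sub_mul, Finset.sum_add_distrib, Finset.sum_sub_distrib, Finset.mul_sum]
  rw [h3]
  ring

end Vale.Agent.P366P
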